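import Vale.Agent.P092.H448.TrC
import Vale.Agent.P092.H242.Hat3

/-! # [C-TR] The trace bound, part 5: the hypothesis `htb` of `H242.Hat.hat_of`. -/

set_option linter.all false

open scoped InnerProductSpace ENNReal Pointwise
open Filter Topology ContinuousLinearMap TopologicalSpace

namespace Vale.Agent.P092.H448.Trb

open Vale.Agent.P092.RC (Cm TRN sm)
open Vale.Agent.P092.H242.Hat (Pt Eh Eqn MS ahat hat pic_of hp_one)

/-! ### Averages -/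

section avg

variable {Γ K : Type} [NormedAddCommGroup K] [InnerProductSpace ℂ K] [CompleteSpace K]

theorem sq_avg {ι : Type} (F : Finset ι) (hF : F.Nonempty) (v : ι → K) :
    ‖((F.card : ℝ) : ℂ)⁻¹ • ∑ f ∈ F, v f‖ ^ 2 ≤ (F.card : ℝ)⁻¹ * ∑ f ∈ F, ‖v f‖ ^ 2 := by
  have hc : (0 : ℝ) < F.card := by exact_mod_cast hF.card_pos
  rw [norm_smul, norm_inv, Complex.norm_real, Real.norm_of_nonneg hc.le, mul_pow]
  have h1 : ‖∑ f ∈ F, v f‖ ^ 2 ≤ F.card * ∑ f ∈ F, ‖v f‖ ^ 2 :=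
    (pow_le_pow_left₀ (norm_nonneg _) (norm_sum_le F v) 2).trans sq_sum_le_card_mul_sum_sq
  calc ((F.card : ℝ)⁻¹) ^ 2 * ‖∑ f ∈ F, v f‖ ^ 2 ≤
      ((F.card : ℝ)⁻¹) ^ 2 * (F.card * ∑ f ∈ F, ‖v f‖ ^ 2) :=
        mul_le_mul_of_nonneg_left h1 (by positivity)
    _ = (F.card : ℝ)⁻¹ * ∑ f ∈ F, ‖v f‖ ^ 2 := by field_simp

theorem ofReal_sq (x : K) : ENNReal.ofReal (‖x‖ ^ 2) = ‖x‖ₑ ^ 2 := by
  rw [ENNReal.ofReal_pow (norm_nonneg _), ofReal_norm]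

theorem Dom.avg {ι : Type} {F : Finset ι} (hF : F.Nonempty) {A : ι → (K →L[ℂ] K)}
    {S : Set (K →L[ℂ] K)} (h : ∀ f ∈ F, Dom Γ S 1 (A f)) :
    Dom Γ S 1 (((F.card : ℝ) : ℂ)⁻¹ • ∑ f ∈ F, A f) := by
  classical
  intro s ξ ε hε
  obtain ⟨f₀, hf₀, hmax⟩ := F.exists_max_image (fun f => ∑ i ∈ s, ‖A f (ξ i)‖ ^ 2) hF
  obtain ⟨X, hX, h1⟩ := h f₀ hf₀ s ξ ε hε
  refine ⟨X, hX, le_trans ?_ h1⟩
  have h2 : ∑ i ∈ s, ‖(((F.card : ℝ) : ℂ)⁻¹ • ∑ f ∈ F, A f) (ξ i)‖ ^ 2 ≤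
      ∑ i ∈ s, ‖A f₀ (ξ i)‖ ^ 2 := by
    have hc : (0 : ℝ) < F.card := by exact_mod_cast hF.card_pos
    calc ∑ i ∈ s, ‖(((F.card : ℝ) : ℂ)⁻¹ • ∑ f ∈ F, A f) (ξ i)‖ ^ 2 ≤
        ∑ i ∈ s, (F.card : ℝ)⁻¹ * ∑ f ∈ F, ‖A f (ξ i)‖ ^ 2 := by
          refine Finset.sum_le_sum fun i _ => ?_
          have := sq_avg F hF (fun f => A f (ξ i))
          rwa [← ContinuousLinearMap.sum_apply, ← ContinuousLinearMap.smul_apply] at this
      _ = (F.card : ℝ)⁻¹ * ∑ f ∈ F, ∑ i ∈ s, ‖A f (ξ i)‖ ^ 2 := by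
          rw [← Finset.mul_sum, Finset.sum_comm]
      _ ≤ (F.card : ℝ)⁻¹ * (F.card * ∑ i ∈ s, ‖A f₀ (ξ i)‖ ^ 2) := by
          refine mul_le_mul_of_nonneg_left ?_ (by positivity)
          refine (Finset.sum_le_sum fun f hf => hmax f hf).trans ?_
          rw [Finset.sum_const, nsmul_eq_mul]
      _ = ∑ i ∈ s, ‖A f₀ (ξ i)‖ ^ 2 := by field_simp
  have h3 := ENNReal.ofReal_le_ofReal h2
  rw [ENNReal.ofReal_sum_of_nonneg fun _ _ => by positivity,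
    ENNReal.ofReal_sum_of_nonneg fun _ _ => by positivity] at h3
  simpa only [ofReal_sq] using h3

theorem Dom.mono {F F' : Set (K →L[ℂ] K)} {c : ℝ≥0∞} {A : K →L[ℂ] K} (h : Dom Γ F c A)
    (hF : F ⊆ F') : Dom Γ F' c A := by
  intro s ξ ε hε
  obtain ⟨X, hX, h1⟩ := h s ξ ε hε
  exact ⟨X, hF hX, h1⟩

end avg

variable {G Γ K : Type} [Group G] [TopologicalSpace G] [Group Γ] [NormedAddCommGroup K]
  [InnerProductSpace ℂ K] [CompleteSpace K] {π : G →* (K →L[ℂ] K)} {lam : Γ →* (K →L[ℂ] K)}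
  {W : Set (K →L[ℂ] K)} {Ω : K} {m : Set Γ → (K →L[ℂ] K)}

section conj

variable (P : H242.Hat.Pic (fun γ => lam γ) m (fun g => π g))
include P

theorem conj_Pt (g v : G) (S : Set Γ) :
    π g * Pt m (fun g => π g) v S * π g⁻¹ = Pt m (fun g => π g) (v * g⁻¹) S := by
  show π g * (π v⁻¹ * m S * π v) * π g⁻¹ = π (v * g⁻¹)⁻¹ * m S * π (v * g⁻¹)
  rw [mul_inv_rev, inv_inv, map_mul, map_mul]
  simp only [mul_assoc]

theorem cm_Pt (hP : RC.Pic π lam W Ω) (hM : Msr lam W Ω m) (v : G) (S : Set Γ) :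
    Cm W (Pt m (fun g => π g) v S) := by
  intro x hx
  have h1 := hM.cm S (π v * x * π v⁻¹) (hP.WP x hx v)
  show π v⁻¹ * m S * π v * x = x * (π v⁻¹ * m S * π v)
  have h2 : π v * x = π v * x * π v⁻¹ * π v := by
    rw [mul_assoc _ (π v⁻¹), ← map_mul, inv_mul_cancel, map_one, mul_one]
  have h3 : π v⁻¹ * (π v * x * π v⁻¹) = x * π v⁻¹ := by
    rw [← mul_assoc, ← mul_assoc, ← map_mul, inv_mul_cancel, map_one, one_mul]
  calc π v⁻¹ * m S * π v * x = π v⁻¹ * m S * (π v * x) := by rw [mul_assoc]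
    _ = π v⁻¹ * (m S * (π v * x * π v⁻¹)) * π v := by
        conv_lhs => rw [h2]
        simp only [mul_assoc]
    _ = (π v⁻¹ * (π v * x * π v⁻¹)) * m S * π v := by rw [h1]; simp only [mul_assoc]
    _ = x * (π v⁻¹ * m S * π v) := by rw [h3]; simp only [mul_assoc]

/-- all the conjugates of `m S` -/
def Fam (π : G →* (K →L[ℂ] K)) (m : Set Γ → (K →L[ℂ] K)) (S : Set Γ) : Set (K →L[ℂ] K) :=
  Set.range fun v : G => Pt m (fun g => π g) v S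

theorem dom_conj {A : K →L[ℂ] K} {S : Set Γ} (h : Dom Γ (Fam π m S) 1 A) (g : G) :
    Dom Γ (Fam π m S) 1 (π g * A * π g⁻¹) := by
  intro s ξ ε hε
  obtain ⟨X, ⟨v, rfl⟩, h1⟩ := h s (fun i => π g⁻¹ (ξ i)) ε hε
  refine ⟨_, ⟨v * g⁻¹, rfl⟩, ?_⟩
  have e1 : ∀ i, ‖(π g * A * π g⁻¹) (ξ i)‖ₑ = ‖A (π g⁻¹ (ξ i))‖ₑ := by
    intro i
    rw [← ofReal_norm, ← ofReal_norm]
    exact congrArg ENNReal.ofReal (norm_pi P g _)
  have e2 : ∀ i, ‖Pt m (fun g => π g) (v * g⁻¹) S (ξ i)‖ₑ =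
      ‖Pt m (fun g => π g) v S (π g⁻¹ (ξ i))‖ₑ := by
    intro i
    rw [← conj_Pt P, ← ofReal_norm, ← ofReal_norm]
    exact congrArg ENNReal.ofReal (norm_pi P g _)
  simp only [e1, e2]
  exact h1

/-- the average of the conjugates of `Ê(S)` -/
noncomputable def aE (m : Set Γ → (K →L[ℂ] K)) (π : G →* (K →L[ℂ] K)) (𝒰 : Ultrafilter ℕ)
    (b : G) (F : Finset G) (S : Set Γ) : K →L[ℂ] K :=
  ((F.card : ℝ) : ℂ)⁻¹ • ∑ f ∈ F, π f * Eh m (fun g => π g) 𝒰 b S * π f⁻¹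

theorem dom_aE {𝒰 : Ultrafilter ℕ} (hU : (𝒰 : Filter ℕ) ≤ atTop) (b : G) {F : Finset G}
    (hF : F.Nonempty) (S : Set Γ) : Dom Γ (Fam π m S) 1 (aE m π 𝒰 b F S) := by
  refine Dom.avg hF fun f _ => dom_conj P ((dom_Eh P hU b S).mono ?_) f
  rintro _ ⟨t, rfl⟩
  exact ⟨b ^ t, rfl⟩

theorem adj_aE (hP : RC.Pic π lam W Ω) {𝒰 : Ultrafilter ℕ} (b : G) (F : Finset G) (S : Set Γ) :
    adjoint (aE m π 𝒰 b F S) = aE m π 𝒰 b F S := by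
  rw [aE, ← star_eq_adjoint, star_smul, star_sum]
  congr 1
  · rw [← Complex.ofReal_inv]
    exact Complex.conj_ofReal _
  · refine Finset.sum_congr rfl fun f _ => ?_
    rw [star_mul, star_mul, star_eq_adjoint, star_eq_adjoint, star_eq_adjoint, hP.adjP, hP.adjP,
      P.Eh_adj, inv_inv, mul_assoc]

theorem cm_aE (hP : RC.Pic π lam W Ω) (hM : Msr lam W Ω m) {𝒰 : Ultrafilter ℕ} (b : G)
    (F : Finset G) (S : Set Γ) : Cm W (aE m π 𝒰 b F S) := by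
  have h0 : ∀ w ∈ W, Eh m (fun g => π g) 𝒰 b S * w = w * Eh m (fun g => π g) 𝒰 b S := by
    intro w hw
    exact (P.Eh_comm fun t => (cm_Pt P hP hM (b ^ t) S w hw).symm).symm
  intro w hw
  rw [aE, smul_mul_assoc, mul_smul_comm, Finset.sum_mul, Finset.mul_sum]
  congr 1
  refine Finset.sum_congr rfl fun f _ => ?_
  obtain ⟨A, hA⟩ : ∃ A, A = Eh m (fun g => π g) 𝒰 b S := ⟨_, rfl⟩
  rw [← hA] at h0 ⊢
  have h1 := h0 (π f⁻¹ * w * π f) (by simpa using hP.WP w hw f⁻¹)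
  have h2 : π f * π f⁻¹ = 1 := by rw [← map_mul, mul_inv_cancel, map_one]
  calc π f * A * π f⁻¹ * w = π f * A * π f⁻¹ * w * (π f * π f⁻¹) := by rw [h2, mul_one]
    _ = π f * (A * (π f⁻¹ * w * π f)) * π f⁻¹ := by simp only [mul_assoc]
    _ = π f * (π f⁻¹ * w * π f * A) * π f⁻¹ := by rw [h1]
    _ = (π f * π f⁻¹) * w * (π f * A * π f⁻¹) := by simp only [mul_assoc]
    _ = w * (π f * A * π f⁻¹) := by rw [h2, one_mul]

/-- **Trace bound for the averages.** -/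
theorem aE_tb (hP : RC.Pic π lam W Ω) (hM : Msr lam W Ω m) {𝒰 : Ultrafilter ℕ}
    (hU : (𝒰 : Filter ℕ) ≤ atTop) (b : G) {F : Finset G} (hF : F.Nonempty) {S S' : Set Γ} {N : ℕ}
    (hN : ∀ η : Γ, {γ : Γ | γ ∈ S ∧ γ * η ∈ S'}.encard ≤ N) (g : G) :
    TRN lam Ω (π g * aE m π 𝒰 b F S' * π g⁻¹ * aE m π 𝒰 b F S) ≤ N := by
  have h := tb_abs hP (dom_aE P hU b hF S) (dom_conj P (dom_aE P hU b hF S') g)
    (cm_aE P hP hM b F S) (adj_aE P hP b F S) (N := (N : ℝ≥0∞)) ?_ ?_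
  · simpa using h
  · rintro _ ⟨v, rfl⟩
    exact ⟨cm_Pt P hP hM _ _, P.adj_Pt _ _⟩
  · rintro _ ⟨v, rfl⟩ _ ⟨v', rfl⟩
    exact pre P hP hM hN _ _

end conj

variable {Y G₀ : Type} [TopologicalSpace Y] [MulAction G Y] [ContinuousConstSMul G Y] [Group G₀]
  [TopologicalSpace G₀] {q : Γ →* G} {y₀ : Y} {E : Clopens Y → (K →L[ℂ] K)}
  {Bs : Clopens Y → Set Γ} {CN : G₀ → Set Γ}

/-- **The hypothesis `htb` of `H242.Hat.hat_of`.**  The sets `CN h ∩ Bs C` may be changed by null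
sets. -/
theorem ahat_tb (hP : RC.Pic π lam W Ω) (hm : MS lam m) (hM : Msr lam W Ω m) {𝒰 : Ultrafilter ℕ}
    (hU : (𝒰 : Filter ℕ) ≤ atTop) {b : G}
    (hlim : ∀ A ξ, Tendsto (fun t : ℕ => Pt m (fun g => π g) (b ^ t) (Bs A) ξ) atTop (𝓝 (E A ξ)))
    (hE : RC.Lim π lam W q y₀ E) {F : Finset G} (hF : F.Nonempty) (hFy : ∀ f ∈ F, f • y₀ = y₀)
    (hcount : ∀ C C' : Clopens Y, Disjoint C C' → ∀ h h' : G₀, ∃ (S S' : Set Γ) (N : ℕ),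
      Eqn m (fun g => π g) b (CN h ∩ Bs C) S ∧ Eqn m (fun g => π g) b (CN h' ∩ Bs C') S' ∧
      ∀ η : Γ, {γ : Γ | γ ∈ S ∧ γ * η ∈ S'}.encard ≤ N) :
    ∀ g : G, g • y₀ ≠ y₀ → ∀ C C' : Clopens Y, Disjoint C C' → ∀ h h' : G₀,
      TRN lam Ω (π g * (ahat m π 𝒰 b CN F h' * E C') * π g⁻¹ * (ahat m π 𝒰 b CN F h * E C)) <
        ⊤ := by
  intro g _ C C' hd h h'
  have P := pic_of hP hm
  obtain ⟨S, S', N, h1, h2, hN⟩ := hcount C C' hd h h'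
  have h0 : ∀ (h : G₀) (C : Clopens Y) (S : Set Γ), Eqn m (fun g => π g) b (CN h ∩ Bs C) S →
      ahat m π 𝒰 b CN F h * E C = aE m π 𝒰 b F S := by
    intro h C S hS
    rw [ahat, aE, smul_mul_assoc, Finset.sum_mul]
    congr 1
    refine Finset.sum_congr rfl fun f hf => ?_
    have hf' : f⁻¹ • y₀ = y₀ := inv_smul_eq_iff.mpr (hFy f hf).symm
    have h3 := P.Eh_mul (U := 𝒰) (S := CN h) hU (hlim C) (hp_one hP C)
    have h4 := P.Eh_congr (b := b) hU hS.1 hS.2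
    rw [← h4, ← h3, mul_assoc, hE.par f⁻¹ hf', ← mul_assoc, mul_assoc (π f)]
    rfl
  rw [h0 h C S h1, h0 h' C' S' h2]
  exact (aE_tb P hP hM hU b hF hN g).trans_lt (ENNReal.natCast_lt_top N)

end Vale.Agent.P092.H448.Trb
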