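import Vale.Agent.P092.SD.Defs
import Vale.Agent.P092.H448.TrH

/-! # [C-TR] The trace bound, part 6: `MS` and `Msr` from `SD.Ms`. -/

set_option linter.all false

open scoped InnerProductSpace ENNReal Pointwise
open Filter Topology ContinuousLinearMap

namespace Vale.Agent.P092.H448.Trb

open Vale.Agent.P092.RC (Cm TRN)
open Vale.Agent.P092.H242.Hat (MS)

variable {Γ K : Type} [Group Γ] [NormedAddCommGroup K]
  [InnerProductSpace ℂ K] [CompleteSpace K] {lam : Γ →* (K →L[ℂ] K)}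
  {W : Set (K →L[ℂ] K)} {Ω : K} {m : Set Γ → (K →L[ℂ] K)}

theorem ms_of (h : SD.Ms lam W Ω m) : MS lam m where
  adj := h.adj
  inter := h.inf
  compl := h.compl
  lam γ S := h.cov γ S

section mm

variable (hm : MS lam m)
include hm

theorem mself (S : Set Γ) : m S * m S = m S := by rw [← hm.inter, Set.inter_self]

theorem mempty : m ∅ = 0 := by
  have h1 : m (∅ ∩ ∅ᶜ) = m ∅ * (1 - m ∅) := by rw [hm.inter, hm.compl]
  rw [Set.inter_compl_self, mul_sub, mul_one, mself hm, sub_self] at h1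
  exact h1

theorem munion {S T : Set Γ} (h : Disjoint S T) : m (S ∪ T) = m S + m T := by
  have h1 : m (S ∪ T)ᶜ = (1 - m S) * (1 - m T) := by
    rw [Set.compl_union, hm.inter, hm.compl, hm.compl]
  have h3 : m S * m T = 0 := by rw [← hm.inter, h.inter_eq, mempty hm]
  have h4 : (1 - m S) * (1 - m T) = 1 - m S - m T + m S * m T := by noncomm_ring
  rw [hm.compl, h4, h3, add_zero] at h1
  have h2 := congrArg (fun X => 1 - X) h1
  simp only [sub_sub_cancel] at h2
  rw [h2]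
  abel

theorem mnorm (S : Set Γ) : ‖m S‖ ≤ 1 := by
  have h1 : ‖m S‖ * ‖m S‖ = ‖m S‖ := by
    have h2 := CStarRing.norm_star_mul_self (x := m S)
    rw [star_eq_adjoint, hm.adj, mself hm] at h2
    exact h2.symm
  rcases (norm_nonneg (m S)).eq_or_lt with h | h
  · rw [← h]; exact zero_le_one
  · exact (mul_left_cancel₀ h.ne' (h1.trans (mul_one _).symm)).le

theorem mnorm_apply (S : Set Γ) (ξ : K) : ‖m S ξ‖ ≤ ‖ξ‖ := by
  refine ((m S).le_opNorm ξ).trans ?_
  have := mnorm hm S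
  nlinarith [norm_nonneg ξ]

theorem mortho {S T : Set Γ} (h : Disjoint S T) (ξ η : K) : ⟪m S ξ, m T η⟫_ℂ = 0 := by
  have h3 : m S * m T = 0 := by rw [← hm.inter, h.inter_eq, mempty hm]
  rw [← adjoint_inner_right, hm.adj]
  have h4 := congrArg (fun X : K →L[ℂ] K => X η) h3
  have h5 : m S (m T η) = 0 := h4
  rw [h5, inner_zero_right]

theorem msq_union {S T : Set Γ} (h : Disjoint S T) (ξ : K) :
    ‖m (S ∪ T) ξ‖ ^ 2 = ‖m S ξ‖ ^ 2 + ‖m T ξ‖ ^ 2 := by
  rw [munion hm h]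
  have h1 := norm_add_sq_eq_norm_sq_add_norm_sq_of_inner_eq_zero (m S ξ) (m T ξ)
    (mortho hm h ξ ξ)
  rw [ContinuousLinearMap.add_apply, sq, sq, sq]
  exact h1

theorem msq_finset (F : Finset Γ) (ξ : K) : ‖m (F : Set Γ) ξ‖ ^ 2 = ∑ γ ∈ F, ‖m {γ} ξ‖ ^ 2 := by
  classical
  induction F using Finset.induction_on with
  | empty =>
    rw [Finset.coe_empty, mempty hm, ContinuousLinearMap.zero_apply, norm_zero, Finset.sum_empty]
    exact zero_pow two_ne_zero
  | insert a F ha ih =>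
    rw [Finset.coe_insert, Set.insert_eq, msq_union hm, ih, Finset.sum_insert ha]
    rw [Set.disjoint_singleton_left]
    exact fun h => ha (Finset.mem_coe.1 h)

end mm

/-- **`Msr` from `SD.Ms`.** -/
theorem msr_of (h : SD.Ms lam W Ω m) : Msr lam W Ω m where
  cm := h.cm
  om := h.om
  sig S ξ := by
    classical
    have hm := ms_of h
    refine le_of_forall_pos_le_add fun ε hε => ?_
    -- choose `δ` real with `δ² ≤ ε`
    obtain ⟨δ, hδ, hδε⟩ : ∃ δ : ℝ, 0 < δ ∧ ENNReal.ofReal (δ ^ 2) ≤ ε := by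
      obtain ⟨r, hr, hrε⟩ := ENNReal.lt_iff_exists_nnreal_btwn.1 (pos_iff_ne_zero.2 hε.ne')
      have hr0 : 0 < (r : ℝ) := by exact_mod_cast hr
      refine ⟨Real.sqrt r, Real.sqrt_pos.2 hr0, ?_⟩
      rw [Real.sq_sqrt hr0.le, ENNReal.ofReal_coe_nnreal]
      exact hrε.le
    obtain ⟨F, hF⟩ := h.fin ξ δ hδ
    set F' : Finset Γ := F.filter fun γ => γ ∈ S with hF'
    have e1 : S = (F' : Set Γ) ∪ (S ∩ (F : Set Γ)ᶜ) := by
      ext γ
      simp only [hF', Finset.coe_filter, Set.mem_union, Set.mem_setOf_eq, Set.mem_inter_iff,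
        Set.mem_compl_iff, Finset.mem_coe]
      tauto
    have e2 : Disjoint (F' : Set Γ) (S ∩ (F : Set Γ)ᶜ) := by
      rw [Set.disjoint_left]
      intro γ h1 h2
      rw [hF', Finset.coe_filter] at h1
      exact h2.2 (Finset.mem_coe.2 h1.1)
    have e3 : ‖m (S ∩ (F : Set Γ)ᶜ) ξ‖ ^ 2 ≤ δ ^ 2 := by
      refine pow_le_pow_left₀ (norm_nonneg _) ?_ 2
      rw [hm.inter]
      exact (mnorm_apply hm S _).trans hF
    have e4 : ‖m S ξ‖ ^ 2 ≤ ∑ γ ∈ F', ‖m {γ} ξ‖ ^ 2 + δ ^ 2 := by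
      conv_lhs => rw [e1]
      rw [msq_union hm e2, msq_finset hm]
      exact add_le_add le_rfl e3
    rw [← ofReal_sq]
    refine (ENNReal.ofReal_le_ofReal e4).trans ?_
    rw [ENNReal.ofReal_add (Finset.sum_nonneg fun _ _ => by positivity) (by positivity)]
    refine add_le_add ?_ hδε
    rw [ENNReal.ofReal_sum_of_nonneg fun _ _ => by positivity]
    refine le_trans ?_ (ENNReal.sum_le_tsum F')
    refine Finset.sum_le_sum fun γ hγ => ?_
    have hγS : γ ∈ S := (Finset.mem_filter.1 hγ).2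
    rw [Set.indicator_of_mem hγS, ofReal_sq]

end Vale.Agent.P092.H448.Trb
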