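import Vale.Agent.P092.H448.TF3
import Vale.Agent.P092.H448.TrI

/-! # [T-HAT] The field `hat` at all amplifications from the output of the engine. -/

set_option linter.all false

open scoped InnerProductSpace ENNReal Pointwise
open Filter Topology ContinuousLinearMap TopologicalSpace MeasureTheory

namespace Vale.Agent.P092.H448.TF

open Vale.Agent.P092.RC
open Vale.Agent.P092.H242.Hat
open Vale.Agent.P092.H242.ConeG
open Vale.Agent.P092.H242.Sct (tg cos_UU UU)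
open Vale.Agent.P092.H575 (g1 g2 bp)
open Vale.Agent.P092.H448.Trb
open Vale.Agent.P092.H264.GrpC
open Vale.Agent.P092.H859.CL (Fn st EngOut Slow Esc pw cn)
open Vale.Agent.P092.H553 (ind ind_nonneg ind_le_one abs_ind_le ind_pos ind_neg)
open Vale.Agent.P092.H978.LimC (ci app_eng)

/-! ### Density -/

section dens

variable {K : Type} [NormedAddCommGroup K] [InnerProductSpace ℂ K] [CompleteSpace K]

theorem dense_tendsto {T : ℕ → (K →L[ℂ] K)} {c : ℝ} (hT : ∀ n ξ, ‖T n ξ‖ ≤ c * ‖ξ‖) {Bd : Set K}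
    (hd : Dense ((Submodule.span ℂ Bd : Submodule ℂ K) : Set K))
    (h : ∀ ξ ∈ Bd, Tendsto (fun n => T n ξ) atTop (𝓝 0)) (ξ : K) :
    Tendsto (fun n => T n ξ) atTop (𝓝 0) := by
  have hc : 0 ≤ |c| := abs_nonneg c
  have hT' : ∀ n ξ, ‖T n ξ‖ ≤ |c| * ‖ξ‖ := fun n ξ =>
    (hT n ξ).trans (mul_le_mul_of_nonneg_right (le_abs_self c) (norm_nonneg _))
  have h1 : ∀ ξ ∈ (Submodule.span ℂ Bd : Submodule ℂ K), Tendsto (fun n => T n ξ) atTop (𝓝 0) := by
    intro ξ hξ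
    induction hξ using Submodule.span_induction with
    | mem x hx => exact h x hx
    | zero => simp
    | add x y _ _ hx hy => simpa using hx.add hy
    | smul a x _ hx => simpa using hx.const_smul a
  rw [Metric.tendsto_nhds]
  intro ε hε
  obtain ⟨ζ, hζ, hd'⟩ := Metric.dense_iff.1 hd ξ (ε / (2 * (|c| + 1))) (by positivity)
  filter_upwards [Metric.tendsto_nhds.1 (h1 ζ hd') (ε / 2) (half_pos hε)] with n hn
  rw [dist_zero_right] at hn ⊢
  have e1 : T n ξ = T n (ξ - ζ) + T n ζ := by rw [map_sub, sub_add_cancel]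
  have e2 : ‖ξ - ζ‖ < ε / (2 * (|c| + 1)) := by
    rw [Metric.mem_ball, dist_eq_norm] at hζ
    rw [norm_sub_rev]; exact hζ
  have e3 : ‖T n (ξ - ζ)‖ ≤ ε / 2 := by
    refine (hT' n _).trans ?_
    calc |c| * ‖ξ - ζ‖ ≤ (|c| + 1) * (ε / (2 * (|c| + 1))) :=
          mul_le_mul (by linarith) e2.le (norm_nonneg _) (by positivity)
      _ = ε / 2 := by field_simp
  calc ‖T n ξ‖ ≤ ‖T n (ξ - ζ)‖ + ‖T n ζ‖ := by rw [e1]; exact norm_add_le _ _
    _ < ε := by linarith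

end dens

/-! ### The letters of the engine -/

section eng

variable {G Γ K : Type} [Group G] [TopologicalSpace G] [Group Γ] [NormedAddCommGroup K]
  [InnerProductSpace ℂ K] [CompleteSpace K] {π : G →* (K →L[ℂ] K)} {lam : Γ →* (K →L[ℂ] K)}
  {W : Set (K →L[ℂ] K)} {mp : (Γ → ℝ) → (K →L[ℂ] K)} {Bd : Set K} {A : Subgroup G} {b : G}

/-- the multiplication operators of sets -/
theorem ms_fn (hf : Fn mp)
    (hcov : ∀ γ (F : Γ → ℝ), (∀ g, |F g| ≤ 1) → lam γ * mp F * lam γ⁻¹ = mp fun g => F (γ⁻¹ * g)) :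
    MS lam (st mp) where
  adj S := hf.adj (abs_ind_le _)
  inter S T := by
    rw [st, st, st, ← hf.mul (abs_ind_le _) (abs_ind_le _)]
    congr 1
    funext g
    by_cases h1 : g ∈ S
    · by_cases h2 : g ∈ T
      · rw [ind_pos (P := fun g => g ∈ S ∩ T) ⟨h1, h2⟩, ind_pos (P := fun g => g ∈ S) h1,
          ind_pos (P := fun g => g ∈ T) h2, one_mul]
      · rw [ind_neg (P := fun g => g ∈ S ∩ T) (fun h => h2 h.2), ind_neg (P := fun g => g ∈ T) h2,
          mul_zero]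
    · rw [ind_neg (P := fun g => g ∈ S ∩ T) (fun h => h1 h.1), ind_neg (P := fun g => g ∈ S) h1,
        zero_mul]
  compl S := by
    have h1 : (fun g => ind (fun g => g ∈ S) g + ind (fun g => g ∈ Sᶜ) g) = fun _ : Γ => (1 : ℝ) := by
      funext g
      by_cases h : g ∈ S
      · rw [ind_pos (P := fun g => g ∈ S) h, ind_neg (P := fun g => g ∈ Sᶜ) (fun h' => h' h),
          add_zero]
      · rw [ind_neg (P := fun g => g ∈ S) h, ind_pos (P := fun g => g ∈ Sᶜ) h, zero_add]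
    have h2 := hf.add (abs_ind_le (fun g => g ∈ S)) (abs_ind_le (fun g => g ∈ Sᶜ))
    rw [h1, hf.one] at h2
    rw [st, st, h2]
    abel
  lam γ S := by
    rw [st, st, hcov γ _ (abs_ind_le _)]
    congr 1
    funext g
    by_cases h : γ⁻¹ * g ∈ S
    · rw [ind_pos (P := fun g => g ∈ S) h, ind_pos (P := fun g => g ∈ γ • S)]
      exact Set.mem_smul_set_iff_inv_smul_mem.2 h
    · rw [ind_neg (P := fun g => g ∈ S) h, ind_neg (P := fun g => g ∈ γ • S)]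
      exact fun h' => h (Set.mem_smul_set_iff_inv_smul_mem.1 h')

variable (P : Pic (fun γ => lam γ) (st mp) (fun g => π g))
  (hd : Dense ((Submodule.span ℂ Bd : Submodule ℂ K) : Set K))
include P hd

theorem nul_esc (he : Esc (st mp) (fun g => π g) Bd A (pw b)) (γ : Γ) :
    Nul (st mp) (fun g => π g) b {γ} := by
  intro ξ
  refine dense_tendsto (T := fun t => st mp {γ} * π (b ^ t)) (c := 1) (fun n ξ => ?_) hd
    (fun ξ hξ => ?_) ξ
  · rw [one_mul]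
    exact (P.norm_m_apply _ _).trans (P.norm_R_apply (b ^ n) _)
  · have h1 := H859.CL.tendsto_pw.1 (he.esc γ ξ hξ)
    exact tendsto_zero_iff_norm_tendsto_zero.2 h1

theorem slow_bd (hs : Slow mp (fun g => π g) Bd) (hmap : ∀ v, ∀ ξ ∈ Bd, π v ξ ∈ Bd)
    {u : ℕ → G} (hu : Tendsto u atTop (𝓝 1)) (S : Set Γ) (ξ : K) :
    Tendsto (fun t : ℕ => (π (u t) * st mp S - st mp S * π (u t)) (π (b ^ t) ξ)) atTop (𝓝 0) := by
  refine dense_tendsto (T := fun t => (π (u t) * st mp S - st mp S * π (u t)) * π (b ^ t))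
    (c := 2) (fun n ξ => ?_) hd (fun ξ hξ => ?_) ξ
  · have h0 := P.norm_R_apply (b ^ n) ξ
    have h1 : ‖π (u n) (st mp S (π (b ^ n) ξ))‖ ≤ ‖ξ‖ :=
      (P.norm_R_apply (u n) _).trans ((P.norm_m_apply _ _).trans h0)
    have h2 : ‖st mp S (π (u n) (π (b ^ n) ξ))‖ ≤ ‖ξ‖ :=
      (P.norm_m_apply _ _).trans ((P.norm_R_apply (u n) _).trans h0)
    calc ‖π (u n) (st mp S (π (b ^ n) ξ)) - st mp S (π (u n) (π (b ^ n) ξ))‖ ≤ ‖ξ‖ + ‖ξ‖ :=
          (norm_sub_le _ _).trans (add_le_add h1 h2)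
      _ = 2 * ‖ξ‖ := by ring
  · rw [Metric.tendsto_nhds]
    intro ε hε
    filter_upwards [hu.eventually (hs (ε / 2) (half_pos hε))] with t ht
    rw [dist_zero_right]
    have h1 := ht (ind fun g => g ∈ S) (abs_ind_le _) (π (b ^ t) ξ) (hmap _ _ hξ)
    refine lt_of_le_of_lt h1 ?_
    linarith

end eng

/-! ### The final form -/

section fin

variable {k : Type} [NontriviallyNormedField k] [ProperSpace k] [IsUltrametricDist k] {m : ℕ}
  [CompactSpace (YY k m)] [ContinuousConstSMul (GG k m) (YY k m)] {Γ K ι : Type} [Group Γ]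
  [NormedAddCommGroup K]
  [InnerProductSpace ℂ K] [CompleteSpace K] [Fintype ι] {π : GG k m →* (K →L[ℂ] K)}
  {lam : Γ →* (K →L[ℂ] K)} {W W' : Set (K →L[ℂ] K)} {Ω : ι → K} {mp : (Γ → ℝ) → (K →L[ℂ] K)}
  {Bd : Set K} {A : Subgroup (GG k m)} [sa : SMul Γ (YY k m)]
  {β : C(YY k m, ℂ) →⋆ₐ[ℂ] (K →L[ℂ] K)} {q : Γ →* GG k m} {w : k}

/-- **The field `hat` at all amplifications, from the output of the engine.** -/
theorem hatF_eng (hm : 2 ≤ m) (hq : Emb q) (hP : PicF π lam W Ω) (hf : Fn mp)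
    (hcov : ∀ γ (F : Γ → ℝ), (∀ g, |F g| ≤ 1) → lam γ * mp F * lam γ⁻¹ = mp fun g => F (γ⁻¹ * g))
    (hM : MsrF lam W Ω (st mp))
    (hw : w ≠ 0) (hw1 : ‖w‖ < 1) (hun : ∀ s : k, s ≠ 0 → ∃ j : ℤ, ‖s‖ = ‖w‖ ^ j)
    (hd : Dense ((Submodule.span ℂ Bd : Submodule ℂ K) : Set K))
    (hmap : ∀ v, ∀ ξ ∈ Bd, π v ξ ∈ Bd) (hs : Slow mp (fun g => π g) Bd)
    (he : Esc (st mp) (fun g => π g) Bd A (pw (bb m hw)))
    (h : EngOut mp (fun g => π g) (fun γ => lam γ) W (bb m hw) (fun γ => g1 (q γ).1)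
      (fun γ => g2 (q γ).1) (fun γ => bp (Nat.succ_pos m) (tg (q γ))) β)
    (hE : RC.Lim π lam W q y0 fun C => β (ci C))
    (hx : RC.Ext π lam W W' y0 fun C => β (ci C))
    (hW' : ∀ 𝒰 : Ultrafilter ℕ, (𝒰 : Filter ℕ) ≤ atTop → ∀ w' ∈ W', ∀ S,
      w' * Eh (st mp) (fun g => π g) 𝒰 (bb m hw) S =
        Eh (st mp) (fun g => π g) 𝒰 (bb m hw) S * w') :
    ∃ U a, RC.HatF π lam W' Ω q cc y0 (fun C => β (ci C)) U a := by
  have hms := ms_fn (lam := lam) hf hcov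
  have P := picF_of hP hms
  -- a unit vector
  obtain ⟨ξ, hξ⟩ : ∃ ξ : K, ξ ≠ 0 := by
    by_contra hcon
    push Not at hcon
    have h1 := hP.nΩ
    have h2 : ∑ i, ‖Ω i‖ ^ 2 = 0 := Finset.sum_eq_zero fun i _ => by rw [hcon (Ω i)]; simp
    rw [h2] at h1
    exact zero_ne_one h1
  have hξ0 : 0 < ‖ξ‖ := norm_pos_iff.2 hξ
  obtain ⟨r, hr⟩ := h.tail ξ (‖ξ‖ / 2) (half_pos hξ0)
  have hsq : ∀ (S : Set Γ) (η : K), ‖st mp S η‖ ^ 2 + ‖st mp Sᶜ η‖ ^ 2 = ‖η‖ ^ 2 := by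
    intro S η
    have e1 := msq_union hms (disjoint_compl_right : Disjoint S Sᶜ) η
    rw [Set.union_compl_self] at e1
    have e2 : st mp (Set.univ : Set Γ) = 1 := by
      have e3 := hms.compl ∅
      rw [Set.compl_empty, mempty hms, sub_zero] at e3
      exact e3
    rw [e2] at e1
    exact e1.symm
  refine hatF_geo hm hq hP hms hM hw hw1 hun hE (fun C ξ => ?_) (nul_esc P hd he)
    (fun u hu S ξ => slow_bd P hd hs hmap hu S ξ) (ξ := ξ) (r := r) (δ := ‖ξ‖ ^ 2 / 2)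
    (by positivity) ?_ hx hW'
  · exact app_eng h hf C ξ
  · filter_upwards [hr] with t ht
    have h1 := hsq {γ | g2 (q γ).1 ≤ r} (π (bb m hw ^ t) ξ)
    have h2 : {γ : Γ | g2 (q γ).1 ≤ r}ᶜ = {γ | r < g2 (q γ).1} := by
      ext γ; simp
    rw [h2, norm_pi P] at h1
    have h3 : ‖st mp {γ | r < g2 (q γ).1} (π (bb m hw ^ t) ξ)‖ ^ 2 ≤ (‖ξ‖ / 2) ^ 2 :=
      pow_le_pow_left₀ (norm_nonneg _) ht 2
    nlinarith

end fin

end Vale.Agent.P092.H448.TF
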