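import Vale.Agent.P092.H448.TF2

/-! # [T-HAT] The extended set `W' = W ∪ range E₂` at all amplifications: `RC.Ext`, the commutation
of the boundary maps of the two legs, and the commutation of `W'` with the Cesàro limits `Ê(S)`,
from the asymptotic commutation of the multiplication operators of the two legs. -/

set_option linter.all false

open scoped InnerProductSpace ENNReal Pointwise
open Filter Topology ContinuousLinearMap TopologicalSpace MeasureTheory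

namespace Vale.Agent.P092.H448.TF

open Vale.Agent.P092.H242.Ces Vale.Agent.P092.H820 Vale.Agent.P092.RC
open Vale.Agent.P092.H242.Hat
open Vale.Agent.P092.H448.Trb
open Vale.Agent.P092.H553 (op_ext_inner)

variable {G Γ Y K ι : Type} [Group G] [TopologicalSpace G] [Group Γ] [TopologicalSpace Y]
  [MulAction G Y] [ContinuousConstSMul G Y]
  [NormedAddCommGroup K] [InnerProductSpace ℂ K] [CompleteSpace K] [Fintype ι]
  {π : G →* (K →L[ℂ] K)} {lam₁ lam₂ : Γ →* (K →L[ℂ] K)} {X W W₂ : Set (K →L[ℂ] K)} {Ω : ι → K}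
  {q₁ q₂ : Γ →* G} {y₀ : Y} {E₁ E₂ : Clopens Y → (K →L[ℂ] K)}
  {m₁ m₂ : Set Γ → (K →L[ℂ] K)} {𝒰 : Ultrafilter ℕ} {b : G} {Bs₁ Bs₂ : Clopens Y → Set Γ}

section asy

variable (P₁ : Pic (fun γ => lam₁ γ) m₁ (fun g => π g)) (P₂ : Pic (fun γ => lam₂ γ) m₂ (fun g => π g))
include P₁ P₂

/-- the difference of the two products of conjugated multiplication operators -/
theorem inner_Pt_comm (S T : Set Γ) (t : ℕ) (ξ η : K) :
    ⟪ξ, (Pt m₁ (fun g => π g) (b ^ t) S * Pt m₂ (fun g => π g) (b ^ t) T) η⟫_ℂ =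
      ⟪m₁ S (π (b ^ t) ξ), m₂ T (π (b ^ t) η)⟫_ℂ := by
  have h1 : π (b ^ t) * π (b ^ t)⁻¹ = 1 := by rw [← map_mul, mul_inv_cancel, map_one]
  have h2 : Pt m₁ (fun g => π g) (b ^ t) S * Pt m₂ (fun g => π g) (b ^ t) T =
      π (b ^ t)⁻¹ * (m₁ S * (m₂ T * π (b ^ t))) := by
    show (π (b ^ t)⁻¹ * m₁ S * π (b ^ t)) * (π (b ^ t)⁻¹ * m₂ T * π (b ^ t)) = _
    calc _ = π (b ^ t)⁻¹ * m₁ S * (π (b ^ t) * π (b ^ t)⁻¹) * m₂ T * π (b ^ t) := by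
          simp only [mul_assoc]
      _ = _ := by rw [h1, mul_one]; simp only [mul_assoc]
  rw [h2]
  have h3 : (π (b ^ t)⁻¹ * (m₁ S * (m₂ T * π (b ^ t)))) η =
      adjoint (π (b ^ t)) (m₁ S (m₂ T (π (b ^ t) η))) := by
    rw [P₁.R_adj]; rfl
  rw [h3, adjoint_inner_right]
  conv_rhs => rw [← P₁.m_adj S]
  rw [adjoint_inner_left]

/-- weak form of the asymptotic commutation -/
theorem wk_comm {S T : Set Γ} (hc : ∀ ξ η : K, Tendsto (fun t : ℕ =>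
      ⟪m₁ S (π (b ^ t) ξ), m₂ T (π (b ^ t) η)⟫_ℂ - ⟪m₂ T (π (b ^ t) ξ), m₁ S (π (b ^ t) η)⟫_ℂ)
      atTop (𝓝 0)) (ξ η : K) :
    Tendsto (fun t : ℕ => ⟪ξ, (Pt m₁ (fun g => π g) (b ^ t) S *
        Pt m₂ (fun g => π g) (b ^ t) T) η⟫_ℂ - ⟪ξ, (Pt m₂ (fun g => π g) (b ^ t) T *
        Pt m₁ (fun g => π g) (b ^ t) S) η⟫_ℂ) atTop (𝓝 0) := by
  refine (hc ξ η).congr fun t => ?_
  rw [inner_Pt_comm P₁ P₂, inner_Pt_comm P₂ P₁]

/-- **The Cesàro limits commute with the strong limits of the other leg.** -/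
theorem Eh_comm₂ (hU : (𝒰 : Filter ℕ) ≤ atTop) {S T : Set Γ} {E : K →L[ℂ] K}
    (hE : ∀ ξ, Tendsto (fun t : ℕ => Pt m₂ (fun g => π g) (b ^ t) T ξ) atTop (𝓝 (E ξ)))
    (hEa : adjoint E = E)
    (hc : ∀ ξ η : K, Tendsto (fun t : ℕ =>
      ⟪m₁ S (π (b ^ t) ξ), m₂ T (π (b ^ t) η)⟫_ℂ - ⟪m₂ T (π (b ^ t) ξ), m₁ S (π (b ^ t) η)⟫_ℂ)
      atTop (𝓝 0)) :
    E * Eh m₁ (fun g => π g) 𝒰 b S = Eh m₁ (fun g => π g) 𝒰 b S * E := by
  have h1 := cl_strong_left (U := 𝒰) hU (fun t => P₁.norm_Pt (b ^ t) S)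
    (E := fun t => Pt m₂ (fun g => π g) (b ^ t) T) (E0 := E) (D := 1) (fun t => P₂.norm_Pt _ T)
    (fun ξ => by
      rw [hEa]
      refine (hE ξ).congr fun n => ?_
      rw [P₂.adj_Pt])
  have h2 := cl_strong_right (U := 𝒰) hU (fun t => P₁.norm_Pt (b ^ t) S)
    (E := fun t => Pt m₂ (fun g => π g) (b ^ t) T) (E0 := E) (D := 1) (fun t => P₂.norm_Pt _ T) hE
  change E * cl 𝒰 _ = cl 𝒰 _ * E
  rw [← h1, ← h2]
  symm
  refine cl_congr hU (C := 1) (C' := 1) (fun t => (norm_mul_le _ _).trans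
    (mul_le_one₀ (P₁.norm_Pt _ _) (norm_nonneg _) (P₂.norm_Pt _ _)))
    (fun t => (norm_mul_le _ _).trans
    (mul_le_one₀ (P₂.norm_Pt _ _) (norm_nonneg _) (P₁.norm_Pt _ _))) fun ξ η => ?_
  exact wk_comm P₁ P₂ hc ξ η

/-- **The boundary maps of the two legs commute.** -/
theorem lim_comm₂ {S T : Set Γ} {E E' : K →L[ℂ] K}
    (hE : ∀ ξ, Tendsto (fun t : ℕ => Pt m₁ (fun g => π g) (b ^ t) S ξ) atTop (𝓝 (E ξ)))
    (hE' : ∀ ξ, Tendsto (fun t : ℕ => Pt m₂ (fun g => π g) (b ^ t) T ξ) atTop (𝓝 (E' ξ)))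
    (hc : ∀ ξ η : K, Tendsto (fun t : ℕ =>
      ⟪m₁ S (π (b ^ t) ξ), m₂ T (π (b ^ t) η)⟫_ℂ - ⟪m₂ T (π (b ^ t) ξ), m₁ S (π (b ^ t) η)⟫_ℂ)
      atTop (𝓝 0)) : E * E' = E' * E := by
  have key : ∀ {A B : ℕ → (K →L[ℂ] K)} {a b : K →L[ℂ] K}, (∀ n, ‖A n‖ ≤ 1) →
      (∀ ξ, Tendsto (fun n => A n ξ) atTop (𝓝 (a ξ))) →
      (∀ ξ, Tendsto (fun n => B n ξ) atTop (𝓝 (b ξ))) →
      ∀ ξ η, Tendsto (fun n => ⟪η, (A n * B n) ξ⟫_ℂ) atTop (𝓝 ⟪η, (a * b) ξ⟫_ℂ) := by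
    intro A B a b hA h1 h2 ξ η
    have h3 : Tendsto (fun n => A n (B n ξ - b ξ)) atTop (𝓝 0) := by
      have h4 : Tendsto (fun n => ‖B n ξ - b ξ‖) atTop (𝓝 0) := by
        have h5 := ((h2 ξ).sub_const (b ξ)).norm
        simpa using h5
      refine squeeze_zero_norm (fun n => ?_) h4
      refine ((A n).le_opNorm _).trans ?_
      have := hA n
      nlinarith [norm_nonneg (B n ξ - b ξ)]
    have h6 := h3.add (h1 (b ξ))
    simp only [map_sub, sub_add_cancel, zero_add] at h6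
    exact tendsto_const_nhds.inner h6
  refine op_ext_inner fun ξ η => ?_
  have h1 := key (fun n => P₁.norm_Pt (b ^ n) S) hE hE' η ξ
  have h2 := key (fun n => P₂.norm_Pt (b ^ n) T) hE' hE η ξ
  have h3 := wk_comm P₁ P₂ hc ξ η
  exact sub_eq_zero.1 (tendsto_nhds_unique (h1.sub h2) h3)

end asy

/-! ### The letters -/

theorem comm_W (hP : PicF π lam₁ W Ω) (hm : MS lam₁ m₁) (hcm : ∀ S, Cm W (m₁ S)) :
    ∀ w ∈ W, ∀ S, w * Eh m₁ (fun g => π g) 𝒰 b S = Eh m₁ (fun g => π g) 𝒰 b S * w := by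
  intro w hw S
  have P := picF_of hP hm
  refine P.Eh_comm fun t => ?_
  have h0 : Cm W (Pt m₁ (fun g => π g) (b ^ t) S) := by
    intro x hx
    obtain ⟨v, hv⟩ : ∃ v, v = b ^ t := ⟨_, rfl⟩
    rw [← hv]
    have h1 := hcm S (π v * x * π v⁻¹) (hP.WP x hx v)
    show π v⁻¹ * m₁ S * π v * x = x * (π v⁻¹ * m₁ S * π v)
    have h2 : π v * x = π v * x * π v⁻¹ * π v := by
      rw [mul_assoc _ (π v⁻¹), ← map_mul, inv_mul_cancel, map_one, mul_one]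
    have h3 : π v⁻¹ * (π v * x * π v⁻¹) = x * π v⁻¹ := by
      rw [← mul_assoc, ← mul_assoc, ← map_mul, inv_mul_cancel, map_one, one_mul]
    calc π v⁻¹ * m₁ S * π v * x = π v⁻¹ * m₁ S * (π v * x) := by rw [mul_assoc]
      _ = π v⁻¹ * (m₁ S * (π v * x * π v⁻¹)) * π v := by
          conv_lhs => rw [h2]
          simp only [mul_assoc]
      _ = (π v⁻¹ * (π v * x * π v⁻¹)) * m₁ S * π v := by rw [h1]; simp only [mul_assoc]
      _ = x * (π v⁻¹ * m₁ S * π v) := by rw [h3]; simp only [mul_assoc]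
  exact (h0 w hw).symm

/-- **[W2] at all amplifications**: the extended set commutes with the Cesàro limits. -/
theorem comm_msF (hP₁ : PicF π lam₁ W Ω) (hP₂ : PicF π lam₂ W₂ Ω) (hm₁ : MS lam₁ m₁)
    (hm₂ : MS lam₂ m₂) (hcm : ∀ S, Cm W (m₁ S)) (hU : (𝒰 : Filter ℕ) ≤ atTop)
    (hEa : ∀ C, adjoint (E₂ C) = E₂ C)
    (hlim : ∀ C ξ, Tendsto (fun t : ℕ => Pt m₂ (fun g => π g) (b ^ t) (Bs₂ C) ξ) atTop
      (𝓝 (E₂ C ξ)))
    (hc : ∀ S C (ξ η : K), Tendsto (fun t : ℕ => ⟪m₁ S (π (b ^ t) ξ), m₂ (Bs₂ C) (π (b ^ t) η)⟫_ℂ -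
      ⟪m₂ (Bs₂ C) (π (b ^ t) ξ), m₁ S (π (b ^ t) η)⟫_ℂ) atTop (𝓝 0)) :
    ∀ w ∈ W ∪ Set.range E₂, ∀ S, w * Eh m₁ (fun g => π g) 𝒰 b S =
      Eh m₁ (fun g => π g) 𝒰 b S * w := by
  rintro w (hw | ⟨C, rfl⟩) S
  · exact comm_W hP₁ hm₁ hcm w hw S
  · exact Eh_comm₂ (picF_of hP₁ hm₁) (picF_of hP₂ hm₂) hU (hlim C) (hEa C) (hc S C)

/-- **[W1] at all amplifications** -/
theorem ext_F (hP : Pic2F π lam₁ lam₂ X Ω) (hE₁ : Lim π lam₁ (X ∪ Set.range lam₂) q₁ y₀ E₁)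
    (hE₂ : Lim π lam₂ (X ∪ Set.range lam₁) q₂ y₀ E₂)
    (hc : ∀ C C', E₁ C * E₂ C' = E₂ C' * E₁ C) :
    Ext π lam₁ (X ∪ Set.range lam₂) (X ∪ Set.range lam₂ ∪ Set.range E₂) y₀ E₁ where
  sub := Set.subset_union_left
  adj := by
    rintro w (hw | ⟨C, rfl⟩)
    · exact Or.inl (hP.leg₁.Wadj w hw)
    · exact Or.inr ⟨C, by rw [← star_eq_adjoint, hE₂.cpv.sa C]⟩
  par := by
    rintro w (hw | ⟨C, rfl⟩) p hp
    · exact Or.inl (hP.leg₁.WP w hw p)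
    · refine Or.inr ⟨C, ?_⟩
      rw [hE₂.par p hp C, mul_assoc, ← map_mul, mul_inv_cancel, map_one, mul_one]
  lam := by
    rintro w (hw | ⟨C, rfl⟩) γ
    · exact hP.leg₁.WL w hw γ
    · exact hE₂.cm C (lam₁ γ) (Or.inr ⟨γ, rfl⟩)
  cE := by
    rintro C w (hw | ⟨C', rfl⟩)
    · exact hE₁.cm C w hw
    · exact hc C C'

end Vale.Agent.P092.H448.TF
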