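import Vale.Agent.P092.H34.AmpF

/-! # [T-HAT] The trace number of the picture does not depend on the Parseval family (finiteness);
`RC.HatF` for one family gives it for every family. -/

set_option linter.all false

open scoped InnerProductSpace ENNReal
open MeasureTheory Filter Topology ContinuousLinearMap TopologicalSpace

namespace Vale.Agent.P092.H448.TF

open Vale.Agent.P092.RC Vale.Agent.P092.H790 Vale.Agent.P092.H85 Vale.Agent.P092.H103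
  Vale.Agent.P092.H34 Vale.Agent.P092.H34.Ind Vale.Agent.P092.H34.Grp Vale.Agent.P092.H34.AmpE
open Vale.Agent.P092.H421.Hs (Pf Frq trq trq_swap trq_indep norm_U cm_ap inv_ap)

section group

variable {E : Type} [Group E] [TopologicalSpace E] [IsTopologicalGroup E] [LocallyCompactSpace E]
  [SecondCountableTopology E] [T2Space E] [MeasurableSpace E] [BorelSpace E]
  {Λ : Subgroup E} [DiscreteTopology Λ] [Countable Λ] [MeasurableSpace (E ⧸ Λ)]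
  [BorelSpace (E ⧸ Λ)] {ν : Measure (E ⧸ Λ)} [IsProbabilityMeasure ν]
  (hν : ∀ g : E, ν.map (fun x => g • x) = ν)
  {ℋ : Type} [NormedAddCommGroup ℋ] [InnerProductSpace ℂ ℋ] [CompleteSpace ℋ]
  {V R₁ R₂ : Λ →* (ℋ →L[ℂ] ℋ)}
  {I : Type} [Countable I] (b : HilbertBasis I ℂ ℋ) {ι κ : Type} [Fintype ι] [Fintype κ]
  {ξ : ι → ℋ} {ζ : κ → ℋ} (h : SR.Tri V R₁ R₂ ξ) (h' : SR.Tri V R₁ R₂ ζ)

include b h h' in
/-- the trace number without the normalisation does not depend on the family -/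
theorem trq_fam {T : Lp ℋ 2 (cdat ν hν).μ →L[ℂ] Lp ℋ 2 (cdat ν hν).μ}
    (hT : Cm (Xset (cdat ν hν) ℋ ∪ Set.range (Ind.lam (cdat ν hν) R₂)) T) :
    trq (cstQ (cdat ν hν) fun q : ι × Λ => R₁ q.2 (ξ q.1)) T =
      trq (cstQ (cdat ν hν) fun q : κ × Λ => R₁ q.2 (ζ q.1)) T := by
  obtain ⟨A, -, m1, h3, h4⟩ := exists_fieldR b ((cm_iff _).1 hT)
  rw [trq_fld h3 m1, trq_fld h3 m1]
  refine lintegral_congr_ae ?_
  filter_upwards [h4] with x hx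
  exact trq_indep h.adj₂ (H421.Hs.tri_frq₂ h') (H421.Hs.tri_frq₂ h) hx

include h in
theorem nrm_ne : ‖((((Real.sqrt (∑ j, ‖ξ j‖ ^ 2))⁻¹ : ℝ) : ℂ))‖ₑ ^ 2 ≠ 0 := by
  intro h0
  have h1 := (pow_eq_zero_iff two_ne_zero).1 h0
  rw [enorm_eq_zero] at h1
  have h2 : (Real.sqrt (∑ j, ‖ξ j‖ ^ 2))⁻¹ = 0 := by exact_mod_cast h1
  have h3 : 0 < ∑ j, ‖ξ j‖ ^ 2 := by
    obtain ⟨i, hi⟩ := h.ne
    exact Finset.sum_pos' (fun _ _ => sq_nonneg _)
      ⟨i, Finset.mem_univ _, by have := norm_pos_iff.2 hi; positivity⟩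
  have h4 : 0 < (Real.sqrt (∑ j, ‖ξ j‖ ^ 2))⁻¹ := by positivity
  exact h4.ne' h2

include b h h' in
/-- **finiteness of the trace number does not depend on the family** -/
theorem trnf_fam {T : Lp ℋ 2 (cdat ν hν).μ →L[ℂ] Lp ℋ 2 (cdat ν hν).μ}
    (hT : Cm (Xset (cdat ν hν) ℋ ∪ Set.range (Ind.lam (cdat ν hν) R₂)) T)
    (hf : TRNF (Ind.lam (cdat ν hν) R₁) (nrm hν ζ) T < ∞) :
    TRNF (Ind.lam (cdat ν hν) R₁) (nrm hν ξ) T < ∞ := by
  rw [trnf_nrm] at hf ⊢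
  rw [trq_fam hν b h h' hT]
  refine ENNReal.mul_lt_top (ENNReal.pow_lt_top enorm_lt_top) ?_
  rw [lt_top_iff_ne_top]
  intro h0
  rw [h0, ENNReal.mul_top (nrm_ne h')] at hf
  exact lt_irrefl _ hf

variable {G₀ Y : Type} [TopologicalSpace Y] [MulAction E Y] [ContinuousConstSMul E Y] [Group G₀]
  [TopologicalSpace G₀] {π : E →* (Lp ℋ 2 (cdat ν hν).μ →L[ℂ] Lp ℋ 2 (cdat ν hν).μ)}
  {W' : Set (Lp ℋ 2 (cdat ν hν).μ →L[ℂ] Lp ℋ 2 (cdat ν hν).μ)}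
  {q : Λ →* E} {c : E → Y → G₀} {y₀ : Y}
  {F : Clopens Y → (Lp ℋ 2 (cdat ν hν).μ →L[ℂ] Lp ℋ 2 (cdat ν hν).μ)} {U : Subgroup G₀}
  {a : G₀ → (Lp ℋ 2 (cdat ν hν).μ →L[ℂ] Lp ℋ 2 (cdat ν hν).μ)}

theorem cm_mul {K : Type} [NormedAddCommGroup K] [InnerProductSpace ℂ K] [CompleteSpace K]
    {W : Set (K →L[ℂ] K)} {S T : K →L[ℂ] K} (hS : Cm W S) (hT : Cm W T) : Cm W (S * T) :=
  fun w hw => by rw [mul_assoc, hT w hw, ← mul_assoc, hS w hw, mul_assoc]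

theorem cm_conjG {G K : Type} [Group G] [NormedAddCommGroup K] [InnerProductSpace ℂ K]
    [CompleteSpace K] {W : Set (K →L[ℂ] K)} {π : G →* (K →L[ℂ] K)}
    (hW : ∀ w ∈ W, ∀ g, π g * w * π g⁻¹ ∈ W) {T : K →L[ℂ] K} (hT : Cm W T) (g : G) :
    Cm W (π g * T * π g⁻¹) := by
  intro w hw
  have h1 := hT _ (hW w hw g⁻¹)
  rw [inv_inv] at h1
  have h2 : π g * π g⁻¹ = 1 := by rw [← map_mul, mul_inv_cancel, map_one]
  calc π g * T * π g⁻¹ * w = π g * T * π g⁻¹ * w * (π g * π g⁻¹) := by rw [h2, mul_one]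
    _ = π g * (T * (π g⁻¹ * w * π g)) * π g⁻¹ := by simp only [mul_assoc]
    _ = π g * (π g⁻¹ * w * π g * T) * π g⁻¹ := by rw [h1]
    _ = (π g * π g⁻¹) * w * (π g * T * π g⁻¹) := by simp only [mul_assoc]
    _ = w * (π g * T * π g⁻¹) := by rw [h2, one_mul]

include b h h' in
/-- **`HatF` for one Parseval family gives `HatF` for every Parseval family.** -/
theorem hatF_fam
    (hWP : ∀ w ∈ (Xset (cdat ν hν) ℋ ∪ Set.range (Ind.lam (cdat ν hν) R₂)), ∀ g,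
      π g * w * π g⁻¹ ∈ (Xset (cdat ν hν) ℋ ∪ Set.range (Ind.lam (cdat ν hν) R₂)))
    (hsub : (Xset (cdat ν hν) ℋ ∪ Set.range (Ind.lam (cdat ν hν) R₂)) ⊆ W')
    (hF : ∀ C, Cm (Xset (cdat ν hν) ℋ ∪ Set.range (Ind.lam (cdat ν hν) R₂)) (F C))
    (hh : HatF π (Ind.lam (cdat ν hν) R₁) W' (nrm hν ζ) q c y₀ F U a) :
    HatF π (Ind.lam (cdat ν hν) R₁) W' (nrm hν ξ) q c y₀ F U a where
  cos := hh.cos
  res := hh.res
  pos := hh.pos
  ne := hh.ne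
  sum := hh.sum
  smooth := hh.smooth
  tb g hg C C' hC g₁ g₂ := by
    have ha : ∀ x, Cm (Xset (cdat ν hν) ℋ ∪ Set.range (Ind.lam (cdat ν hν) R₂)) (a x) :=
      fun x w hw => hh.res.cm x w (hsub hw)
    refine trnf_fam hν b h h' (cm_mul (cm_conjG hWP (cm_mul (ha _) (hF _)) g)
      (cm_mul (ha _) (hF _))) (hh.tb g hg C C' hC g₁ g₂)

end group

end Vale.Agent.P092.H448.TF
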