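import Vale.Agent.P092.H448.TrC
import Vale.Agent.P092.H242.Sct
import Vale.Agent.P092.H575.Geo5

/-! # [C-TR] The trace bound, part 7: the counting bound for the concrete cones. -/

set_option linter.all false

open scoped LinearAlgebra.Projectivization
open Filter Topology TopologicalSpace Matrix

namespace Vale.Agent.P092.H448.Trb

open Vale.Agent.P092.RC (GG YY PG Emb nv)
open Vale.Agent.P092.H242.Sct
open Vale.Agent.P092.H575 (Bd Cone)

variable {k : Type} [NontriviallyNormedField k] [IsUltrametricDist k] [ProperSpace k] {m : ℕ}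

/-- the matrices `s(y) diag(1, h)`, `y ∈ C` -/
def DC (C : Set (YY k m)) (h : (Matrix (Fin m) (Fin m) k)ˣ) :
    Set (Matrix (Fin (m + 1)) (Fin (m + 1)) k)ˣ := {g | ∃ y ∈ C, g = sg y * lf h}

theorem col_DC (y : YY k m) (h : (Matrix (Fin m) (Fin m) k)ˣ) :
    col (0 : Fin (m + 1)) (sg y * lf h).1 = nv y := by
  funext a
  change (sg y * lf h).1 a 0 = nv y a
  rw [Units.val_mul, Matrix.mul_apply, Fin.sum_univ_succ, lf_val, lm_00, mul_one, sg_val, sct_zero]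
  rw [Finset.sum_eq_zero fun i _ => ?_, add_zero]
  rw [lm_s0, mul_zero]

theorem mk_DC (y : YY k m) (h : (Matrix (Fin m) (Fin m) k)ˣ) :
    Projectivization.mk k (col (0 : Fin (m + 1)) (sg y * lf h).1) (col_ne 0 (sg y * lf h)) = y := by
  conv_rhs => rw [← mk_nv y]
  congr 1
  exact col_DC y h

theorem bd_DC (h : (Matrix (Fin m) (Fin m) k)ˣ) : ∃ B : ℝ, 1 ≤ B ∧
    ∀ C : Set (YY k m), ∀ g ∈ DC C h, Bd B g := by
  obtain ⟨B, hB, hb⟩ := exists_bd h
  refine ⟨B, hB, ?_⟩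
  rintro C _ ⟨y, _, rfl⟩
  have h1 := (bd_sg y).mul (bd_lf hB hb)
  rwa [one_mul] at h1

theorem bd_mono {ι : Type*} [Fintype ι] [DecidableEq ι] {B B' : ℝ} (h : B ≤ B')
    {g : (Matrix ι ι k)ˣ} (hg : Bd B g) : Bd B' g :=
  ⟨fun i j => (hg.1 i j).trans h, fun i j => (hg.2 i j).trans h⟩

/-- **The counting bound for the concrete cones** (the hypothesis `hcount` of `ahat_tb`). -/
theorem count_inst {Γ : Type} [Group Γ] (hm : 2 ≤ m) {q : Γ →* GG k m} (hq : Emb q)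
    {C C' : Set (YY k m)} (hC : IsClosed C) (hC' : IsClosed C') (hd : Disjoint C C')
    (h h' : (Matrix (Fin m) (Fin m) k)ˣ) {T T' : ℝ} (hT : 1 ≤ T) (hT' : 1 ≤ T') :
    ∃ N : ℕ, ∀ η : Γ, {γ : Γ | tg (q γ) ∈ Cone (0 : Fin (m + 1)) T (DC C h) ∧
      tg (q (γ * η)) ∈ Cone (0 : Fin (m + 1)) T' (DC C' h')}.encard ≤ N := by
  obtain ⟨B, hB, hb⟩ := bd_DC (k := k) h
  obtain ⟨B', hB', hb'⟩ := bd_DC (k := k) h'
  have h3 : 2 < Fintype.card (Fin (m + 1)) := by rw [Fintype.card_fin]; omega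
  have hfin : ∀ B : ℝ, {γ : Γ | ∃ (z : kˣ) (g : (Matrix (Fin (m + 1)) (Fin (m + 1)) k)ˣ),
      ((tg.comp q) γ).1 = (z : k) • g.1 ∧ Bd B g}.Finite := by
    intro B
    refine (H575.sl_fin (k := k) (n := m + 1) (by omega) q hq.inj hq.lat.disc B).subset ?_
    rintro γ ⟨z, g, h1, h2⟩
    exact ⟨z, g, h2, h1⟩
  obtain ⟨N, hN⟩ := cone_card (k := k) (0 : Fin (m + 1)) h3 (tg.comp q) hfin
    (hB.trans (le_max_left B B')) hT hT'
    (D := DC C h) (D' := DC C' h') (fun c hc => bd_mono (le_max_left _ _) (hb C c hc))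
    (fun c hc => bd_mono (le_max_right _ _) (hb' C' c hc)) hC hC' hd
    (by
      rintro _ ⟨y, hy, rfl⟩
      rw [mk_DC]
      exact hy)
    (by
      rintro _ ⟨y, hy, rfl⟩
      rw [mk_DC]
      exact hy)
  exact ⟨N, hN⟩

end Vale.Agent.P092.H448.Trb
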