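import Vale.Agent.P092.H448.TrH
import Vale.Agent.P092.H242.Hat4

/-! # [C-TR] The trace bound, part 6: the hypothesis `htb` of `H242.Hat.hat_of'`
(Haar averages over a compact group). -/

set_option linter.all false

open scoped InnerProductSpace ENNReal Pointwise
open Filter Topology ContinuousLinearMap TopologicalSpace MeasureTheory

namespace Vale.Agent.P092.H448.Trb

open Vale.Agent.P092.RC (Cm TRN sm)
open Vale.Agent.P092.H242.Hat (Pt Eh Eqn MS iE ihat pic_of hp_one ur_of)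
open Vale.Agent.P092.H242.Avg

section avg

variable {Γ L K : Type} [Group L] [TopologicalSpace L] [IsTopologicalGroup L] [CompactSpace L]
  [MeasurableSpace L] [BorelSpace L] [NormedAddCommGroup K] [InnerProductSpace ℂ K]
  [CompleteSpace K] {u : L →* (K →L[ℂ] K)} {μ : Measure L} [IsProbabilityMeasure μ]

theorem Dom.iav (hu : Ur u) {A : K →L[ℂ] K} {S : Set (K →L[ℂ] K)}
    (h : ∀ l, Dom Γ S 1 (u l * A * u l⁻¹)) : Dom Γ S 1 (iav hu μ A) := by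
  classical
  intro s ξ ε hε
  have hc : ∀ i, Continuous fun l => ‖A (u l⁻¹ (ξ i))‖ ^ 2 := fun i =>
    ((A.continuous.comp ((hu.cont (ξ i)).comp continuous_inv)).norm).pow 2
  have hi : ∀ i ∈ s, Integrable (fun l => ‖A (u l⁻¹ (ξ i))‖ ^ 2) μ := fun i _ =>
    (hc i).integrable_of_hasCompactSupport (HasCompactSupport.of_compactSpace _)
  obtain ⟨l₀, hl⟩ := exists_integral_le (μ := μ)
    (f := fun l => ∑ i ∈ s, ‖A (u l⁻¹ (ξ i))‖ ^ 2) (integrable_finset_sum _ hi)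
  obtain ⟨X, hX, h1⟩ := h l₀ s ξ ε hε
  refine ⟨X, hX, le_trans ?_ h1⟩
  have h2 : ∑ i ∈ s, ‖H242.Avg.iav hu μ A (ξ i)‖ ^ 2 ≤
      ∑ i ∈ s, ‖(u l₀ * A * u l₀⁻¹) (ξ i)‖ ^ 2 := by
    calc ∑ i ∈ s, ‖H242.Avg.iav hu μ A (ξ i)‖ ^ 2 ≤
        ∑ i ∈ s, ∫ l, ‖A (u l⁻¹ (ξ i))‖ ^ 2 ∂μ :=
          Finset.sum_le_sum fun i _ => norm_sq_iav hu A (ξ i)
      _ = ∫ l, ∑ i ∈ s, ‖A (u l⁻¹ (ξ i))‖ ^ 2 ∂μ := (integral_finset_sum _ hi).symm
      _ ≤ ∑ i ∈ s, ‖A (u l₀⁻¹ (ξ i))‖ ^ 2 := hl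
      _ = _ := by
          refine Finset.sum_congr rfl fun i _ => ?_
          show _ = ‖u l₀ (A (u l₀⁻¹ (ξ i)))‖ ^ 2
          rw [hu.norm]
  have h3 := ENNReal.ofReal_le_ofReal h2
  rw [ENNReal.ofReal_sum_of_nonneg fun _ _ => by positivity,
    ENNReal.ofReal_sum_of_nonneg fun _ _ => by positivity] at h3
  simpa only [ofReal_sq] using h3

end avg

variable {G Γ K L : Type} [Group G] [TopologicalSpace G] [Group Γ] [NormedAddCommGroup K]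
  [InnerProductSpace ℂ K] [CompleteSpace K] [Group L] [TopologicalSpace L]
  [IsTopologicalGroup L] [CompactSpace L] [MeasurableSpace L] [BorelSpace L]
  {π : G →* (K →L[ℂ] K)} {lam : Γ →* (K →L[ℂ] K)} {W : Set (K →L[ℂ] K)} {Ω : K}
  {m : Set Γ → (K →L[ℂ] K)} {ρ : L →* G} {μ : Measure L} [IsProbabilityMeasure μ]

section conj

variable (P : H242.Hat.Pic (fun γ => lam γ) m (fun g => π g))
include P

theorem dom_iE (hu : Ur (π.comp ρ)) {𝒰 : Ultrafilter ℕ} (hU : (𝒰 : Filter ℕ) ≤ atTop) (b : G)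
    (S : Set Γ) : Dom Γ (Fam π m S) 1 (iE hu μ m 𝒰 b S) := by
  refine Dom.iav hu fun l => ?_
  have h1 := dom_conj P ((dom_Eh P hU b S).mono (F' := Fam π m S) ?_) (ρ l)
  · show Dom Γ (Fam π m S) 1 (π (ρ l) * Eh m (fun g => π g) 𝒰 b S * π (ρ l⁻¹))
    rwa [map_inv]
  · rintro _ ⟨t, rfl⟩
    exact ⟨b ^ t, rfl⟩

theorem adj_iE (hu : Ur (π.comp ρ)) {𝒰 : Ultrafilter ℕ} (b : G) (S : Set Γ) :
    adjoint (iE hu μ m 𝒰 b S) = iE hu μ m 𝒰 b S := by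
  rw [iE, adj_iav, P.Eh_adj]

theorem cm_iE (hP : RC.Pic π lam W Ω) (hM : Msr lam W Ω m) (hu : Ur (π.comp ρ))
    {𝒰 : Ultrafilter ℕ} (b : G) (S : Set Γ) : Cm W (iE hu μ m 𝒰 b S) := by
  have h0 : ∀ w ∈ W, Eh m (fun g => π g) 𝒰 b S * w = w * Eh m (fun g => π g) 𝒰 b S := by
    intro w hw
    exact (P.Eh_comm fun t => (cm_Pt P hP hM (b ^ t) S w hw).symm).symm
  intro w hw
  symm
  refine iav_comm hu fun l => ?_
  show w * (π (ρ l) * Eh m (fun g => π g) 𝒰 b S * π (ρ l⁻¹)) =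
    π (ρ l) * Eh m (fun g => π g) 𝒰 b S * π (ρ l⁻¹) * w
  obtain ⟨f, hf⟩ : ∃ f, f = ρ l := ⟨_, rfl⟩
  obtain ⟨A, hA⟩ : ∃ A, A = Eh m (fun g => π g) 𝒰 b S := ⟨_, rfl⟩
  rw [map_inv, ← hf, ← hA]
  rw [← hA] at h0
  have h1 := h0 (π f⁻¹ * w * π f) (by simpa using hP.WP w hw f⁻¹)
  have h2 : π f * π f⁻¹ = 1 := by rw [← map_mul, mul_inv_cancel, map_one]
  symm
  calc π f * A * π f⁻¹ * w = π f * A * π f⁻¹ * w * (π f * π f⁻¹) := by rw [h2, mul_one]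
    _ = π f * (A * (π f⁻¹ * w * π f)) * π f⁻¹ := by simp only [mul_assoc]
    _ = π f * (π f⁻¹ * w * π f * A) * π f⁻¹ := by rw [h1]
    _ = (π f * π f⁻¹) * w * (π f * A * π f⁻¹) := by simp only [mul_assoc]
    _ = w * (π f * A * π f⁻¹) := by rw [h2, one_mul]

/-- **Trace bound for the Haar averages.** -/
theorem iE_tb (hP : RC.Pic π lam W Ω) (hM : Msr lam W Ω m) (hu : Ur (π.comp ρ))
    {𝒰 : Ultrafilter ℕ} (hU : (𝒰 : Filter ℕ) ≤ atTop) (b : G) {S S' : Set Γ} {N : ℕ}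
    (hN : ∀ η : Γ, {γ : Γ | γ ∈ S ∧ γ * η ∈ S'}.encard ≤ N) (g : G) :
    TRN lam Ω (π g * iE hu μ m 𝒰 b S' * π g⁻¹ * iE hu μ m 𝒰 b S) ≤ N := by
  have h := tb_abs hP (dom_iE (μ := μ) P hu hU b S) (dom_conj P (dom_iE (μ := μ) P hu hU b S') g)
    (cm_iE (μ := μ) P hP hM hu b S) (adj_iE (μ := μ) P hu b S) (N := (N : ℝ≥0∞)) ?_ ?_
  · simpa using h
  · rintro _ ⟨v, rfl⟩
    exact ⟨cm_Pt P hP hM _ _, P.adj_Pt _ _⟩
  · rintro _ ⟨v, rfl⟩ _ ⟨v', rfl⟩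
    exact pre P hP hM hN _ _

end conj

variable {Y G₀ : Type} [TopologicalSpace Y] [MulAction G Y] [ContinuousConstSMul G Y] [Group G₀]
  [TopologicalSpace G₀] {q : Γ →* G} {y₀ : Y} {E : Clopens Y → (K →L[ℂ] K)}
  {Bs : Clopens Y → Set Γ} {CN : G₀ → Set Γ}

/-- **The hypothesis `htb` of `H242.Hat.hat_of'`** (Haar averages).  The sets `CN h ∩ Bs C` may be
changed by null sets. -/
theorem ihat_tb (hP : RC.Pic π lam W Ω) (hm : MS lam m) (hM : Msr lam W Ω m) {𝒰 : Ultrafilter ℕ}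
    (hU : (𝒰 : Filter ℕ) ≤ atTop) {b : G}
    (hlim : ∀ A ξ, Tendsto (fun t : ℕ => Pt m (fun g => π g) (b ^ t) (Bs A) ξ) atTop (𝓝 (E A ξ)))
    (hu : Ur (π.comp ρ)) (hρy : ∀ l, ρ l • y₀ = y₀)
    (hE : RC.Lim π lam W q y₀ E)
    (hcount : ∀ C C' : Clopens Y, Disjoint C C' → ∀ h h' : G₀, ∃ (S S' : Set Γ) (N : ℕ),
      Eqn m (fun g => π g) b (CN h ∩ Bs C) S ∧ Eqn m (fun g => π g) b (CN h' ∩ Bs C') S' ∧
      ∀ η : Γ, {γ : Γ | γ ∈ S ∧ γ * η ∈ S'}.encard ≤ N) :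
    ∀ g : G, g • y₀ ≠ y₀ → ∀ C C' : Clopens Y, Disjoint C C' → ∀ h h' : G₀,
      TRN lam Ω (π g * (ihat hu μ m 𝒰 b CN h' * E C') * π g⁻¹ * (ihat hu μ m 𝒰 b CN h * E C)) <
        ⊤ := by
  intro g _ C C' hd h h'
  have P := pic_of hP hm
  obtain ⟨S, S', N, h1, h2, hN⟩ := hcount C C' hd h h'
  have h0 : ∀ (h : G₀) (C : Clopens Y) (S : Set Γ), Eqn m (fun g => π g) b (CN h ∩ Bs C) S →
      ihat hu μ m 𝒰 b CN h * E C = iE hu μ m 𝒰 b S := by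
    intro h C S hS
    rw [ihat, H242.Hat.ihat_mul hP hm hU hlim hu hρy hE]
    exact H242.Hat.iE_congr hP hm hU hu hS
  rw [h0 h C S h1, h0 h' C' S' h2]
  exact (iE_tb P hP hM hu hU b hN g).trans_lt (ENNReal.natCast_lt_top N)

end Vale.Agent.P092.H448.Trb
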