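import Vale.Agent.P092.H156.Sm

/-!
P092 (helper448), team A: nonzero smooth fields from an equivariant family of bounded vectors.

`ξ : G → K` is the vector `x ↦ b x ω` of the field `b` with `b x (ρ γ⁻¹ ω) = ρ γ⁻¹ (ξ (ι γ * x))`.
`Bd C ξ` says that this field is bounded by `C`.  If `ψ : H → L²(G; K)` is bounded, measurable,
with values in `Bd C`, equivariant for `U v` (= conjugation of the field by `V v`) and not zero,
then averaging over compact sets of `H` and of `G` gives a nonzero smooth field.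
-/

set_option linter.all false

open scoped InnerProductSpace Topology ENNReal Pointwise symmDiff
open Filter ContinuousLinearMap MeasureTheory Set
open Vale.Agent.P092.H160 Vale.Agent.P092.H156.Sm

namespace Vale.Agent.P092.H448

section val

variable {Γ G K : Type} [Group Γ] [Group G]
  [NormedAddCommGroup K] [InnerProductSpace ℂ K] [CompleteSpace K]
  {ρ : Γ →* (K →L[ℂ] K)} {ω : K} {ι : Γ →* G}

/-- `T` is the value at `x` of the field with vector `ξ`. -/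
def Vl (ι : Γ →* G) (ρ : Γ →* (K →L[ℂ] K)) (ω : K) (ξ : G → K) (x : G) (T : K →L[ℂ] K) : Prop :=
  ∀ γ, T (ρ γ⁻¹ ω) = ρ γ⁻¹ (ξ (ι γ * x))

theorem Vl.unique (h : RegRep ρ ω) {ξ : G → K} {x : G} {T S : K →L[ℂ] K} (hT : Vl ι ρ ω ξ x T)
    (hS : Vl ι ρ ω ξ x S) : T = S := by
  refine h.ext_op fun g => ?_
  have h1 := hT g⁻¹
  have h2 := hS g⁻¹
  rw [inv_inv] at h1 h2
  rw [h1, h2]

theorem Vl.omega {ξ : G → K} {x : G} {T : K →L[ℂ] K} (hT : Vl ι ρ ω ξ x T) : T ω = ξ x := by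
  have h1 := hT 1
  rw [inv_one, map_one, map_one, one_mul] at h1
  exact h1

theorem Vl.congr {ξ η : G → K} {x : G} {T : K →L[ℂ] K} (hT : Vl ι ρ ω ξ x T)
    (he : ∀ γ, ξ (ι γ * x) = η (ι γ * x)) : Vl ι ρ ω η x T := fun γ => by rw [hT, he]

theorem Vl.add {ξ η ζ : G → K} {x : G} {T S : K →L[ℂ] K} (hT : Vl ι ρ ω ξ x T)
    (hS : Vl ι ρ ω η x S) (he : ∀ γ, ζ (ι γ * x) = ξ (ι γ * x) + η (ι γ * x)) :
    Vl ι ρ ω ζ x (T + S) := fun γ => by
  rw [add_apply, hT, hS, he, map_add]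

theorem Vl.sub {ξ η ζ : G → K} {x : G} {T S : K →L[ℂ] K} (hT : Vl ι ρ ω ξ x T)
    (hS : Vl ι ρ ω η x S) (he : ∀ γ, ζ (ι γ * x) = ξ (ι γ * x) - η (ι γ * x)) :
    Vl ι ρ ω ζ x (T - S) := fun γ => by
  rw [sub_apply, hT, hS, he, map_sub]

theorem Vl.smul {ξ ζ : G → K} {x : G} {T : K →L[ℂ] K} (c : ℂ) (hT : Vl ι ρ ω ξ x T)
    (he : ∀ γ, ζ (ι γ * x) = c • ξ (ι γ * x)) :
    Vl ι ρ ω ζ x (c • T) := fun γ => by
  rw [smul_apply, hT, he, map_smul]

theorem Vl.trans (h : RegRep ρ ω) {ξ : G → K} {x : G} {T : K →L[ℂ] K} (hT : Vl ι ρ ω ξ x T)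
    (δ : Γ) : Vl ι ρ ω ξ (ι δ * x) (ρ δ * T * ρ δ⁻¹) := fun γ => by
  rw [mul_ap, mul_ap, ← mul_ap (ρ δ⁻¹) (ρ γ⁻¹), ← map_mul, ← mul_inv_rev, hT, ← mul_ap, ← map_mul,
    map_mul ι, mul_assoc]
  congr 2
  group

/-- Operators are given by their values on the basis. -/
theorem exists_op_iff (h : RegRep ρ ω) (w : Γ → K) {C : ℝ} (hC : 0 ≤ C) :
    (∃ T : K →L[ℂ] K, ‖T‖ ≤ C ∧ ∀ γ, T (ρ γ⁻¹ ω) = w γ) ↔
      ∀ c : Γ →₀ ℂ, ‖Finsupp.linearCombination ℂ w c‖ ≤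
        C * ‖Finsupp.linearCombination ℂ (fun γ => ρ γ⁻¹ ω) c‖ := by
  constructor
  · rintro ⟨T, hT, hw⟩ c
    have e : Finsupp.linearCombination ℂ w c =
        T (Finsupp.linearCombination ℂ (fun γ => ρ γ⁻¹ ω) c) := by
      rw [Finsupp.linearCombination_apply, Finsupp.linearCombination_apply, Finsupp.sum,
        Finsupp.sum, map_sum]
      refine Finset.sum_congr rfl fun γ _ => ?_
      rw [map_smul, hw]
    rw [e]
    exact (T.le_opNorm _).trans (by gcongr)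
  · intro hc
    have hd : DenseRange (Finsupp.linearCombination ℂ (fun γ => ρ γ⁻¹ ω) : (Γ →₀ ℂ) →ₗ[ℂ] K) := by
      have h1 : (LinearMap.range (Finsupp.linearCombination ℂ (fun γ => ρ γ⁻¹ ω) :
          (Γ →₀ ℂ) →ₗ[ℂ] K)).topologicalClosure = ⊤ := by
        rw [Submodule.topologicalClosure_eq_top_iff, Submodule.eq_bot_iff]
        intro v hv
        refine h.total v fun g => ?_
        rw [Submodule.mem_orthogonal] at hv
        refine hv _ ⟨Finsupp.single g⁻¹ 1, ?_⟩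
        rw [Finsupp.linearCombination_single, one_smul, inv_inv]
      have h2 := (Submodule.dense_iff_topologicalClosure_eq_top).2 h1
      intro x
      have h3 := h2 x
      rwa [LinearMap.coe_range] at h3
    refine ⟨LinearMap.extendOfNorm (Finsupp.linearCombination ℂ w)
      (Finsupp.linearCombination ℂ (fun γ => ρ γ⁻¹ ω)),
      LinearMap.opNorm_extendOfNorm_le hd hC hc, fun γ => ?_⟩
    have h3 := LinearMap.extendOfNorm_eq (f := Finsupp.linearCombination ℂ w)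
      (e := Finsupp.linearCombination ℂ (fun γ => ρ γ⁻¹ ω)) hd ⟨C, hc⟩ (Finsupp.single γ 1)
    rw [Finsupp.linearCombination_single, Finsupp.linearCombination_single, one_smul,
      one_smul] at h3
    exact h3

end val

section bd

variable {Γ G K : Type} [Group Γ] [Countable Γ] [Group G] [TopologicalSpace G]
  [IsTopologicalGroup G] [MeasurableSpace G] [BorelSpace G] [SecondCountableTopology G]
  [NormedAddCommGroup K] [InnerProductSpace ℂ K] [CompleteSpace K]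
  {ρ : Γ →* (K →L[ℂ] K)} {ω : K} {ι : Γ →* G} {μ : Measure G} [μ.IsMulLeftInvariant]

/-- The field of the vector `ξ` is bounded by `C`. -/
def Bd (ι : Γ →* G) (ρ : Γ →* (K →L[ℂ] K)) (ω : K) (μ : Measure G) (C : ℝ) (ξ : G → K) : Prop :=
  ∀ᵐ x ∂μ, ∃ T : K →L[ℂ] K, ‖T‖ ≤ C ∧ Vl ι ρ ω ξ x T

theorem ae_trans {P : G → Prop} (hP : ∀ᵐ x ∂μ, P x) : ∀ᵐ x ∂μ, ∀ γ : Γ, P (ι γ * x) := by
  rw [ae_all_iff]
  intro γ
  exact (measurePreserving_mul_left μ (ι γ)).quasiMeasurePreserving.ae hP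

theorem Bd.congr {C : ℝ} {ξ η : G → K} (h : Bd ι ρ ω μ C ξ) (he : ξ =ᵐ[μ] η) :
    Bd ι ρ ω μ C η := by
  have h1 := ae_trans (ι := ι) he
  filter_upwards [h, h1] with x hx hx1
  obtain ⟨T, hT, hT2⟩ := hx
  exact ⟨T, hT, hT2.congr hx1⟩

theorem Bd.mono {C D : ℝ} {ξ : G → K} (h : Bd ι ρ ω μ C ξ) (hCD : C ≤ D) :
    Bd ι ρ ω μ D ξ := by
  filter_upwards [h] with x hx
  obtain ⟨T, hT, hT2⟩ := hx
  exact ⟨T, hT.trans hCD, hT2⟩

theorem Bd.zero {C : ℝ} (hC : 0 ≤ C) : Bd ι ρ ω μ C (fun _ : G => (0 : K)) := by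
  refine Eventually.of_forall fun x => ⟨0, by rw [norm_zero]; exact hC, fun γ => ?_⟩
  rw [zero_apply, map_zero]

theorem Bd.add {C D : ℝ} {ξ η ζ : G → K} (h : Bd ι ρ ω μ C ξ) (h' : Bd ι ρ ω μ D η)
    (he : ∀ᵐ x ∂μ, ζ x = ξ x + η x) : Bd ι ρ ω μ (C + D) ζ := by
  filter_upwards [h, h', ae_trans (ι := ι) he] with x hx hx' hx1
  obtain ⟨T, hT, hT2⟩ := hx
  obtain ⟨S, hS, hS2⟩ := hx'
  exact ⟨T + S, (norm_add_le _ _).trans (add_le_add hT hS), hT2.add hS2 hx1⟩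

theorem Bd.sub {C D : ℝ} {ξ η ζ : G → K} (h : Bd ι ρ ω μ C ξ) (h' : Bd ι ρ ω μ D η)
    (he : ∀ᵐ x ∂μ, ζ x = ξ x - η x) : Bd ι ρ ω μ (C + D) ζ := by
  filter_upwards [h, h', ae_trans (ι := ι) he] with x hx hx' hx1
  obtain ⟨T, hT, hT2⟩ := hx
  obtain ⟨S, hS, hS2⟩ := hx'
  exact ⟨T - S, (norm_sub_le _ _).trans (add_le_add hT hS), hT2.sub hS2 hx1⟩

theorem Bd.smul {C : ℝ} {ξ ζ : G → K} (c : ℂ) (h : Bd ι ρ ω μ C ξ)
    (he : ∀ᵐ x ∂μ, ζ x = c • ξ x) : Bd ι ρ ω μ (‖c‖ * C) ζ := by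
  filter_upwards [h, ae_trans (ι := ι) he] with x hx hx1
  obtain ⟨T, hT, hT2⟩ := hx
  exact ⟨c • T, by rw [norm_smul]; gcongr, hT2.smul c hx1⟩

/-- The bounded vectors as a set of `L²(G; K)`. -/
def BdS (ι : Γ →* G) (ρ : Γ →* (K →L[ℂ] K)) (ω : K) (μ : Measure G) (C : ℝ) : Set (Lp K 2 μ) :=
  {ξ | Bd ι ρ ω μ C ξ}

/-- The finite sum inequality. -/
theorem bd_iff (h : RegRep ρ ω) {C : ℝ} (hC : 0 ≤ C) (ξ : G → K) : Bd ι ρ ω μ C ξ ↔
    ∀ᵐ x ∂μ, ∀ c : Γ →₀ ℂ, ‖Finsupp.linearCombination ℂ (fun γ => ρ γ⁻¹ (ξ (ι γ * x))) c‖ ≤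
        C * ‖Finsupp.linearCombination ℂ (fun γ => ρ γ⁻¹ ω) c‖ := by
  unfold Bd Vl
  constructor
  · intro h1
    filter_upwards [h1] with x hx
    exact (exists_op_iff h _ hC).1 hx
  · intro h1
    filter_upwards [h1] with x hx
    exact (exists_op_iff h _ hC).2 hx

theorem isClosed_bdS (h : RegRep ρ ω) {C : ℝ} (hC : 0 ≤ C) : IsClosed (BdS ι ρ ω μ C) := by
  refine IsSeqClosed.isClosed ?_
  intro u ξ hu hlim
  have h1 := tendstoInMeasure_of_tendsto_Lp hlim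
  obtain ⟨ns, -, hns⟩ := h1.exists_seq_tendsto_ae
  have h2 : ∀ᵐ x ∂μ, ∀ n, ∀ c : Γ →₀ ℂ,
      ‖Finsupp.linearCombination ℂ (fun γ => ρ γ⁻¹ (u n (ι γ * x))) c‖ ≤
        C * ‖Finsupp.linearCombination ℂ (fun γ => ρ γ⁻¹ ω) c‖ := by
    rw [ae_all_iff]
    intro n
    exact (bd_iff h hC _).1 (hu n)
  change Bd ι ρ ω μ C ξ
  rw [bd_iff h hC]
  filter_upwards [h2, ae_trans (ι := ι) hns] with x hx hx1
  intro c
  refine le_of_tendsto (f := fun i => ‖Finsupp.linearCombination ℂ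
    (fun γ => ρ γ⁻¹ (u (ns i) (ι γ * x))) c‖) (x := atTop) ?_
    (Eventually.of_forall fun i => hx (ns i) c)
  refine Tendsto.norm ?_
  simp only [Finsupp.linearCombination_apply, Finsupp.sum]
  refine tendsto_finset_sum _ fun γ _ => ?_
  exact ((ρ γ⁻¹).continuous.tendsto _).comp (hx1 γ) |>.const_smul _

theorem convex_bdS (C : ℝ) : Convex ℝ (BdS (K := K) ι ρ ω μ C) := by
  intro ξ hξ η hη a b ha hb hab
  have h1 : Bd ι ρ ω μ (‖(a : ℂ)‖ * C) (fun x => (a : ℂ) • ξ x) :=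
    Bd.smul (a : ℂ) hξ (Eventually.of_forall fun x => rfl)
  have h2 : Bd ι ρ ω μ (‖(b : ℂ)‖ * C) (fun x => (b : ℂ) • η x) :=
    Bd.smul (b : ℂ) hη (Eventually.of_forall fun x => rfl)
  have h3 : Bd ι ρ ω μ (‖(a : ℂ)‖ * C + ‖(b : ℂ)‖ * C) (a • ξ + b • η : Lp K 2 μ) := by
    refine Bd.add h1 h2 ?_
    filter_upwards [Lp.coeFn_add (a • ξ) (b • η), Lp.coeFn_smul a ξ, Lp.coeFn_smul b η] with x e1 e2 e3
    rw [e1, Pi.add_apply, e2, e3, Pi.smul_apply, Pi.smul_apply]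
    rfl
  refine Bd.mono h3 (le_of_eq ?_)
  rw [Complex.norm_of_nonneg ha, Complex.norm_of_nonneg hb, ← add_mul, hab, one_mul]

/-- Averages of bounded vectors are bounded vectors. -/
theorem bd_setIntegral (h : RegRep ρ ω) {Y : Type} [MeasurableSpace Y] {m : Measure Y}
    {ψ : Y → Lp K 2 μ} {C R : ℝ} (hC : 0 ≤ C) (hψ : StronglyMeasurable ψ) (hR : ∀ y, ‖ψ y‖ ≤ R)
    (hB : ∀ᵐ y ∂m, ψ y ∈ BdS ι ρ ω μ C) {A : Set Y} (hA : m A ≠ ∞) :
    Bd ι ρ ω μ ((m A).toReal * C) (∫ y in A, ψ y ∂m : Lp K 2 μ) := by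
  haveI : IsFiniteMeasure (m.restrict A) := ⟨by rw [Measure.restrict_apply_univ]; exact hA.lt_top⟩
  have hint : IntegrableOn ψ A m :=
    Integrable.of_bound hψ.aestronglyMeasurable R (Eventually.of_forall hR)
  by_cases h0 : m A = 0
  · have e : ∫ y in A, ψ y ∂m = 0 := by
      rw [Measure.restrict_eq_zero.2 h0, integral_zero_measure]
    rw [e, h0, ENNReal.toReal_zero, zero_mul]
    refine (Bd.zero (μ := μ) (ι := ι) (ρ := ρ) (ω := ω) le_rfl).congr ?_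
    exact (Lp.coeFn_zero _ _ _).symm
  · have hcv : Convex ℝ (BdS ι ρ ω μ C) := convex_bdS (ι := ι) (ρ := ρ) (ω := ω) (μ := μ) C
    have hcl : IsClosed (BdS ι ρ ω μ C) := isClosed_bdS h hC
    have h1 : (⨍ y in A, ψ y ∂m) ∈ BdS ι ρ ω μ C :=
      Convex.set_average_mem hcv hcl h0 hA (ae_restrict_of_ae hB) hint
    have h2 : Bd ι ρ ω μ (‖(((m A).toReal : ℝ) : ℂ)‖ * C) (∫ y in A, ψ y ∂m : Lp K 2 μ) := by
      refine Bd.smul _ h1 ?_
      have e : (∫ y in A, ψ y ∂m) = (m A).toReal • (⨍ y in A, ψ y ∂m) := by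
        rw [setAverage_eq, smul_smul, Measure.real, mul_inv_cancel₀, one_smul]
        exact (ENNReal.toReal_pos h0 hA).ne'
      rw [e]
      filter_upwards [Lp.coeFn_smul (m A).toReal (⨍ y in A, ψ y ∂m)] with x hx
      rw [hx, Pi.smul_apply]
      rfl
    rwa [Complex.norm_of_nonneg ENNReal.toReal_nonneg] at h2

/-- The field of a vector. -/
noncomputable def fld (ι : Γ →* G) (ρ : Γ →* (K →L[ℂ] K)) (ω : K) (ξ : G → K) (x : G) :
    K →L[ℂ] K :=
  open Classical in if h : ∃ T, Vl ι ρ ω ξ x T then h.choose else 0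

theorem fld_eq (h : RegRep ρ ω) {ξ : G → K} {x : G} {T : K →L[ℂ] K} (hT : Vl ι ρ ω ξ x T) :
    fld ι ρ ω ξ x = T := by
  have h1 : ∃ T, Vl ι ρ ω ξ x T := ⟨T, hT⟩
  rw [fld, dif_pos h1]
  exact h1.choose_spec.unique h hT

theorem fld_spec (h : RegRep ρ ω) {C : ℝ} {ξ : G → K} (hξ : Bd ι ρ ω μ C ξ) :
    ∀ᵐ x ∂μ, Vl ι ρ ω ξ x (fld ι ρ ω ξ x) ∧ ‖fld ι ρ ω ξ x‖ ≤ C := by
  filter_upwards [hξ] with x hx
  obtain ⟨T, hT, hT2⟩ := hx
  rw [fld_eq h hT2]
  exact ⟨hT2, hT⟩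

theorem fld_meas (h : RegRep ρ ω) {C : ℝ} {ξ : G → K} (hξ : Bd ι ρ ω μ C ξ)
    (hm : StronglyMeasurable ξ) (ζ : K) : AEStronglyMeasurable (fun x => fld ι ρ ω ξ x ζ) μ := by
  refine aestronglyMeasurable_of_tendsto_ae (atTop : Filter (Finset Γ))
    (f := fun s x => ∑ g ∈ s, h.basis.repr ζ g • ρ g (ξ (ι g⁻¹ * x))) (fun s => ?_) ?_
  · refine Finset.aestronglyMeasurable_fun_sum s fun g _ => ?_
    refine StronglyMeasurable.aestronglyMeasurable ?_
    refine StronglyMeasurable.const_smul ?_ _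
    exact (ρ g).continuous.comp_stronglyMeasurable
      (hm.comp_measurable (measurable_const_mul (ι g⁻¹)))
  · filter_upwards [fld_spec h hξ] with x hx
    have h1 := (fld ι ρ ω ξ x).hasSum (h.basis.hasSum_repr ζ)
    have e : (fun g => h.basis.repr ζ g • ρ g (ξ (ι g⁻¹ * x))) =
        fun g => fld ι ρ ω ξ x (h.basis.repr ζ g • h.basis g) := by
      funext g
      have h3 := hx.1 g⁻¹
      rw [inv_inv] at h3
      rw [map_smul, h.basis_apply, h3]
    rw [← e] at h1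
    exact h1

end bd

section avg

variable {Y E : Type} [MeasurableSpace Y] [NormedAddCommGroup E] [NormedSpace ℝ E]

theorem setIntegral_sub_eq {m : Measure Y} {f : Y → E} {S T : Set Y} (hS : MeasurableSet S)
    (hT : MeasurableSet T) (hfS : IntegrableOn f S m) (hfT : IntegrableOn f T m) :
    (∫ y in S, f y ∂m) - (∫ y in T, f y ∂m) = (∫ y in S \ T, f y ∂m) - ∫ y in T \ S, f y ∂m := by
  rw [← integral_inter_add_sdiff hT hfS, ← integral_inter_add_sdiff hS hfT, inter_comm T S]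
  abel

theorem norm_setIntegral_sub_le {m : Measure Y} {f : Y → E} {M : ℝ} (hM0 : 0 ≤ M) {S T : Set Y}
    (hS : MeasurableSet S) (hT : MeasurableSet T) (hSf : m S ≠ ∞) (hTf : m T ≠ ∞)
    (hf : AEStronglyMeasurable f m) (hM : ∀ᵐ y ∂m, ‖f y‖ ≤ M) :
    ‖(∫ y in S, f y ∂m) - (∫ y in T, f y ∂m)‖ ≤ M * (m (S ∆ T)).toReal := by
  have hint : ∀ {A : Set Y}, m A ≠ ∞ → IntegrableOn f A m := by
    intro A hA
    haveI : IsFiniteMeasure (m.restrict A) := ⟨by rw [Measure.restrict_apply_univ]; exact hA.lt_top⟩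
    exact Integrable.of_bound hf.restrict M (ae_restrict_of_ae hM)
  rw [setIntegral_sub_eq hS hT (hint hSf) (hint hTf)]
  have h1 : m (S \ T) ≠ ∞ := ne_top_of_le_ne_top hSf (measure_mono diff_subset)
  have h2 : m (T \ S) ≠ ∞ := ne_top_of_le_ne_top hTf (measure_mono diff_subset)
  have h3 := norm_setIntegral_le_of_norm_le_const_ae (μ := m) (f := f) (s := S \ T) (C := M)
    h1.lt_top (ae_restrict_of_ae hM)
  have h4 := norm_setIntegral_le_of_norm_le_const_ae (μ := m) (f := f) (s := T \ S) (C := M)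
    h2.lt_top (ae_restrict_of_ae hM)
  have h5 : (m (S ∆ T)).toReal = m.real (S \ T) + m.real (T \ S) := by
    rw [Set.symmDiff_def, measure_union disjoint_sdiff_sdiff (hT.diff hS),
      ENNReal.toReal_add h1 h2]
    rfl
  rw [h5, mul_add]
  exact (norm_sub_le _ _).trans (add_le_add h3 h4)

end avg

section avgop

variable {Y K : Type} [MeasurableSpace Y] [NormedAddCommGroup K] [InnerProductSpace ℂ K]
  [CompleteSpace K]

theorem exists_avg_op {m : Measure Y} {β : Y → K →L[ℂ] K} {S : Set Y} (hS : m S ≠ ∞)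
    (hm : ∀ ζ, AEStronglyMeasurable (fun y => β y ζ) m) {C : ℝ} (hC : ∀ᵐ y ∂m, ‖β y‖ ≤ C) :
    ∃ B : K →L[ℂ] K, ∀ ζ, B ζ = ∫ y in S, β y ζ ∂m := by
  haveI : IsFiniteMeasure (m.restrict S) := ⟨by rw [Measure.restrict_apply_univ]; exact hS.lt_top⟩
  have hb : ∀ ζ, ∀ᵐ y ∂(m.restrict S), ‖β y ζ‖ ≤ C * ‖ζ‖ := by
    intro ζ
    filter_upwards [ae_restrict_of_ae hC] with y hy
    exact ((β y).le_opNorm ζ).trans (by gcongr)
  have hint : ∀ ζ, Integrable (fun y => β y ζ) (m.restrict S) := fun ζ =>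
    Integrable.of_bound (hm ζ).restrict (C * ‖ζ‖) (hb ζ)
  let L : K →ₗ[ℂ] K :=
    { toFun := fun ζ => ∫ y in S, β y ζ ∂m
      map_add' := fun ζ η => by
        simp only [map_add]
        exact integral_add (hint ζ) (hint η)
      map_smul' := fun c ζ => by
        simp only [map_smul, RingHom.id_apply]
        exact integral_smul c _ }
  refine ⟨L.mkContinuous (C * m.real S) fun ζ => ?_, fun ζ => rfl⟩
  have h1 := norm_setIntegral_le_of_norm_le_const_ae (μ := m) (f := fun y => β y ζ) (s := S)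
    (C := C * ‖ζ‖) hS.lt_top (hb ζ)
  refine h1.trans (le_of_eq ?_)
  ring

end avgop

section cont

variable {E : Type} [Group E] [TopologicalSpace E] [IsTopologicalGroup E]
  [LocallyCompactSpace E] [SecondCountableTopology E] [T2Space E] [MeasurableSpace E]
  [BorelSpace E]

theorem tendsto_left {μ : Measure E} [μ.IsHaarMeasure] {B : Set E} (hB : IsCompact B) :
    Tendsto (fun z : E => μ (((fun y => z⁻¹ * y) ⁻¹' B) ∆ B)) (𝓝 1) (𝓝 0) := by
  obtain ⟨f, hf⟩ : ∃ f : E → C(E, E), f = fun z => ⟨fun y => z⁻¹ * y, by fun_prop⟩ := ⟨_, rfl⟩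
  have hc : Continuous f := by
    refine ContinuousMap.continuous_of_continuous_uncurry _ ?_
    rw [hf]
    change Continuous fun p : E × E => p.1⁻¹ * p.2
    fun_prop
  have h1 := tendsto_measure_symmDiff_preimage_nhds_zero (μ := μ) (ν := μ) (f := f)
    (g := f 1) (s := B) (hc.tendsto 1) (Eventually.of_forall fun z => by
      rw [hf]; exact measurePreserving_mul_left μ z⁻¹) (by
      rw [hf]; exact measurePreserving_mul_left μ (1 : E)⁻¹) hB.measurableSet.nullMeasurableSet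
      hB.measure_lt_top.ne
  refine h1.congr fun z => ?_
  have e : (f 1 ⁻¹' B) = B := by
    rw [hf]
    ext y
    change (1 : E)⁻¹ * y ∈ B ↔ y ∈ B
    rw [inv_one, one_mul]
  rw [e, hf]
  rfl

theorem tendsto_right {m : Measure E} [m.IsMulRightInvariant] [IsFiniteMeasureOnCompacts m]
    {B : Set E} (hB : IsCompact B) :
    Tendsto (fun z : E => m (((fun y => y * z) ⁻¹' B) ∆ B)) (𝓝 1) (𝓝 0) := by
  obtain ⟨f, hf⟩ : ∃ f : E → C(E, E), f = fun z => ⟨fun y => y * z, by fun_prop⟩ := ⟨_, rfl⟩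
  have hc : Continuous f := by
    refine ContinuousMap.continuous_of_continuous_uncurry _ ?_
    rw [hf]
    change Continuous fun p : E × E => p.2 * p.1
    fun_prop
  haveI : m.InnerRegularCompactLTTop := by infer_instance
  have h1 := tendsto_measure_symmDiff_preimage_nhds_zero (μ := m) (ν := m) (f := f)
    (g := f 1) (s := B) (hc.tendsto 1) (Eventually.of_forall fun z => by
      rw [hf]; exact measurePreserving_mul_right m z) (by
      rw [hf]; exact measurePreserving_mul_right m (1 : E)) hB.measurableSet.nullMeasurableSet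
      hB.measure_lt_top.ne
  refine h1.congr fun z => ?_
  have e : (f 1 ⁻¹' B) = B := by
    rw [hf]
    ext y
    change y * (1 : E) ∈ B ↔ y ∈ B
    rw [mul_one]
  rw [e, hf]
  rfl

end cont

section mk

variable {Γ Λ G H K : Type} [Group Γ] [Countable Γ] [Group Λ]
  [Group G] [TopologicalSpace G] [IsTopologicalGroup G] [LocallyCompactSpace G]
  [SecondCountableTopology G] [T2Space G] [MeasurableSpace G] [BorelSpace G]
  [NormedAddCommGroup K] [InnerProductSpace ℂ K] [CompleteSpace K]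
  {ρ : Γ →* (K →L[ℂ] K)} {V : Λ →* (K →L[ℂ] K)} {ω : K} {ι : Γ →* G}
  {μ : Measure G} [μ.IsHaarMeasure]

theorem preim_symm (B : Set G) (x z : G) :
    ((fun y => (x * z)⁻¹ * y) ⁻¹' B) ∆ ((fun y => x⁻¹ * y) ⁻¹' B) =
      (fun y => x⁻¹ * y) ⁻¹' (((fun y => z⁻¹ * y) ⁻¹' B) ∆ B) := by
  ext y
  rw [mem_preimage, Set.mem_symmDiff, Set.mem_symmDiff]
  simp only [mem_preimage]
  rw [mul_inv_rev, mul_assoc]

theorem lsq_le {m : Measure G} {S : Set G} {f : G → ℝ≥0∞} (hf : AEMeasurable f m) :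
    (∫⁻ y in S, f y ∂m) ^ 2 ≤ m S * ∫⁻ y in S, f y ^ 2 ∂m := by
  have h1 := ENNReal.lintegral_mul_le_Lp_mul_Lq (m.restrict S)
    (p := 2) (q := 2) Real.HolderConjugate.two_two (f := fun _ => (1 : ℝ≥0∞)) (g := f)
    aemeasurable_const hf.restrict
  have e1 : ∫⁻ y in S, ((fun _ : G => (1 : ℝ≥0∞)) * f) y ∂m = ∫⁻ y in S, f y ∂m :=
    lintegral_congr fun y => by rw [Pi.mul_apply, one_mul]
  have e2 : ∫⁻ y in S, ((fun _ : G => (1 : ℝ≥0∞)) y) ^ (2 : ℝ) ∂m = m S := by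
    simp
  have e3 : ∫⁻ y in S, (f y) ^ (2 : ℝ) ∂m = ∫⁻ y in S, f y ^ 2 ∂m :=
    lintegral_congr fun y => ENNReal.rpow_two _
  rw [e1, e2, e3] at h1
  calc (∫⁻ y in S, f y ∂m) ^ 2
      ≤ (m S ^ (1 / 2 : ℝ) * (∫⁻ y in S, f y ^ 2 ∂m) ^ (1 / 2 : ℝ)) ^ 2 := by gcongr
    _ = m S * ∫⁻ y in S, f y ^ 2 ∂m := by
      rw [mul_pow, ← ENNReal.rpow_two, ← ENNReal.rpow_two, ← ENNReal.rpow_mul, ← ENNReal.rpow_mul]
      norm_num

/-- The averages of a bounded vector over the translates of a compact set. -/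
theorem exists_field (h : RegRep ρ ω) {ξ : G → K} {C : ℝ} (hC0 : 0 ≤ C)
    (hξm : StronglyMeasurable ξ) (hξ2 : MemLp ξ 2 μ) (hξ : Bd ι ρ ω μ C ξ) {B : Set G}
    (hB : IsCompact B) :
    ∃ b : G → K →L[ℂ] K, Fd ι ρ b ∧ L2 ω μ b ∧
      ∀ x ζ, b x ζ = ∫ y in (fun y => x⁻¹ * y) ⁻¹' B, fld ι ρ ω ξ y ζ ∂μ := by
  obtain ⟨β, hβ⟩ : ∃ β : G → K →L[ℂ] K, β = fld ι ρ ω ξ := ⟨_, rfl⟩
  have hsp : ∀ᵐ x ∂μ, Vl ι ρ ω ξ x (β x) ∧ ‖β x‖ ≤ C := by rw [hβ]; exact fld_spec h hξ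
  have hm : ∀ ζ, AEStronglyMeasurable (fun x => β x ζ) μ := by
    rw [hβ]; exact fld_meas h hξ hξm
  have hβC : ∀ᵐ x ∂μ, ‖β x‖ ≤ C := hsp.mono fun x hx => hx.2
  have hBm : MeasurableSet B := hB.measurableSet
  have hSm : ∀ x : G, MeasurableSet ((fun y => x⁻¹ * y) ⁻¹' B) := fun x =>
    hBm.preimage (measurable_const_mul _)
  have hSv : ∀ x : G, μ ((fun y => x⁻¹ * y) ⁻¹' B) = μ B := fun x => measure_preimage_mul μ _ _
  have hBt : μ B ≠ ∞ := hB.measure_lt_top.ne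
  have hSt : ∀ x : G, μ ((fun y => x⁻¹ * y) ⁻¹' B) ≠ ∞ := fun x => by rw [hSv]; exact hBt
  have hex := fun x : G => exists_avg_op (hSt x) hm hβC
  choose b hb using hex
  rw [← hβ]
  have heq : ∀ᵐ y ∂μ, ∀ γ, β (ι γ * y) = ρ γ * β y * ρ γ⁻¹ := by
    filter_upwards [hsp, ae_trans (ι := ι) hsp] with y hy hy1
    intro γ
    exact (hy1 γ).1.unique h (hy.1.trans h γ)
  have hζ : ∀ ζ, ∀ᵐ y ∂μ, ‖β y ζ‖ ≤ C * ‖ζ‖ := by
    intro ζ
    filter_upwards [hβC] with y hy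
    exact ((β y).le_opNorm ζ).trans (by gcongr)
  have hFd : Fd ι ρ b := by
    refine ⟨fun γ x => ?_, ⟨C * (μ B).toReal, fun x => ?_⟩, fun ε hε => ?_⟩
    · ext ζ
      rw [mul_ap, mul_ap, hb, hb]
      have h1 := (measurePreserving_mul_left μ (ι γ)).setIntegral_preimage_emb
        (MeasurableEquiv.mulLeft (ι γ)).measurableEmbedding (fun y => β y ζ)
        ((fun y => (ι γ * x)⁻¹ * y) ⁻¹' B)
      rw [← h1]
      have e : (fun y => ι γ * y) ⁻¹' ((fun y => (ι γ * x)⁻¹ * y) ⁻¹' B) =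
          (fun y => x⁻¹ * y) ⁻¹' B := by
        ext y
        simp only [mem_preimage]
        rw [mul_inv_rev, mul_assoc, inv_mul_cancel_left]
      rw [e]
      haveI : IsFiniteMeasure (μ.restrict ((fun y => x⁻¹ * y) ⁻¹' B)) :=
        ⟨by rw [Measure.restrict_apply_univ]; exact (hSt x).lt_top⟩
      have hint : Integrable (fun y => β y (ρ γ⁻¹ ζ)) (μ.restrict ((fun y => x⁻¹ * y) ⁻¹' B)) :=
        Integrable.of_bound (hm _).restrict (C * ‖ρ γ⁻¹ ζ‖) (ae_restrict_of_ae (hζ _))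
      rw [← ContinuousLinearMap.integral_comp_comm _ hint]
      refine integral_congr_ae ?_
      filter_upwards [ae_restrict_of_ae heq] with y hy
      rw [hy]
      rfl
    · refine ContinuousLinearMap.opNorm_le_bound _ (by positivity) fun ζ => ?_
      rw [hb]
      have h1 := norm_setIntegral_le_of_norm_le_const_ae (μ := μ) (f := fun y => β y ζ)
        (s := (fun y => x⁻¹ * y) ⁻¹' B) (C := C * ‖ζ‖) (hSt x).lt_top (ae_restrict_of_ae (hζ ζ))
      refine h1.trans (le_of_eq ?_)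
      rw [Measure.real, hSv]
      ring
    · have h1 := tendsto_left (μ := μ) hB
      have hδ : 0 < ENNReal.ofReal (ε / (C + 1)) := by
        rw [ENNReal.ofReal_pos]; positivity
      have h2 := (ENNReal.tendsto_nhds_zero.1 h1) _ hδ
      refine ⟨_, h2, fun z hz x => ?_⟩
      have hz' : μ (((fun y => z⁻¹ * y) ⁻¹' B) ∆ B) ≤ ENNReal.ofReal (ε / (C + 1)) := hz
      refine ContinuousLinearMap.opNorm_le_bound _ hε.le fun ζ => ?_
      rw [sub_apply, hb, hb]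
      refine (norm_setIntegral_sub_le (by positivity) (hSm _) (hSm _) (hSt _) (hSt _) (hm ζ)
        (hζ ζ)).trans ?_
      rw [preim_symm, measure_preimage_mul]
      have h3 : (μ (((fun y => z⁻¹ * y) ⁻¹' B) ∆ B)).toReal ≤ ε / (C + 1) :=
        ENNReal.toReal_le_of_le_ofReal (by positivity) hz'
      calc C * ‖ζ‖ * (μ (((fun y => z⁻¹ * y) ⁻¹' B) ∆ B)).toReal
          ≤ (C + 1) * ‖ζ‖ * (ε / (C + 1)) := by
            gcongr
            linarith
        _ = ε * ‖ζ‖ := by field_simp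
  refine ⟨b, hFd, ?_, hb⟩
  have hbω : ∀ x, b x ω = ∫ y in (fun y => x⁻¹ * y) ⁻¹' B, ξ y ∂μ := by
    intro x
    rw [hb]
    refine integral_congr_ae ?_
    filter_upwards [ae_restrict_of_ae hsp] with y hy
    exact hy.1.omega
  refine ⟨(hFd.continuous_apply ω).aestronglyMeasurable, ?_⟩
  obtain ⟨g, hg⟩ : ∃ g : G → ℝ≥0∞, g = fun y => ‖ξ y‖ₑ := ⟨_, rfl⟩
  have hgm : Measurable g := by rw [hg]; exact hξm.enorm
  have h2 : (2 : ℝ≥0∞) ≠ 0 := two_ne_zero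
  have h2' : (2 : ℝ≥0∞) ≠ ∞ := ENNReal.ofNat_ne_top
  have hg2 : ∫⁻ y, g y ^ 2 ∂μ < ∞ := by
    have h3 := (eLpNorm_lt_top_iff_lintegral_rpow_enorm_lt_top h2 h2').1 hξ2.2
    rw [ENNReal.toReal_ofNat] at h3
    refine lt_of_eq_of_lt (lintegral_congr fun y => ?_) h3
    rw [hg, ENNReal.rpow_ofNat]
  rw [eLpNorm_lt_top_iff_lintegral_rpow_enorm_lt_top h2 h2', ENNReal.toReal_ofNat]
  have hpt : ∀ x, ‖b x ω‖ₑ ^ (2 : ℝ) ≤
      μ B * ∫⁻ y, B.indicator 1 (x⁻¹ * y) * g y ^ 2 ∂μ := by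
    intro x
    rw [ENNReal.rpow_ofNat, hbω]
    calc ‖∫ y in (fun y => x⁻¹ * y) ⁻¹' B, ξ y ∂μ‖ₑ ^ 2
        ≤ (∫⁻ y in (fun y => x⁻¹ * y) ⁻¹' B, g y ∂μ) ^ 2 := by
          gcongr
          rw [hg]
          exact enorm_integral_le_lintegral_enorm _
      _ ≤ μ ((fun y => x⁻¹ * y) ⁻¹' B) * ∫⁻ y in (fun y => x⁻¹ * y) ⁻¹' B, g y ^ 2 ∂μ :=
          lsq_le hgm.aemeasurable
      _ = μ B * ∫⁻ y, B.indicator 1 (x⁻¹ * y) * g y ^ 2 ∂μ := by
          rw [hSv, ← lintegral_indicator (hSm x)]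
          congr 1
          refine lintegral_congr fun y => ?_
          by_cases hy : x⁻¹ * y ∈ B
          · rw [indicator_of_mem (by exact hy), indicator_of_mem hy, Pi.one_apply, one_mul]
          · rw [indicator_of_notMem (by exact hy), indicator_of_notMem hy, zero_mul]
  have hmm : Measurable fun p : G × G => B.indicator (1 : G → ℝ≥0∞) (p.1⁻¹ * p.2) * g p.2 ^ 2 := by
    refine Measurable.mul ?_ ((hgm.comp measurable_snd).pow_const 2)
    exact (measurable_one.indicator hBm).comp (measurable_fst.inv.mul measurable_snd)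
  have hin : ∀ y, ∫⁻ x, B.indicator (1 : G → ℝ≥0∞) (x⁻¹ * y) * g y ^ 2 ∂μ = μ B⁻¹ * g y ^ 2 := by
    intro y
    have hmy : Measurable fun x : G => B.indicator (1 : G → ℝ≥0∞) (x⁻¹ * y) :=
      (measurable_one.indicator hBm).comp (measurable_id.inv.mul measurable_const)
    rw [lintegral_mul_const _ hmy]
    congr 1
    have e : (fun x => B.indicator (1 : G → ℝ≥0∞) (x⁻¹ * y)) =
        ((fun x => y⁻¹ * x) ⁻¹' B⁻¹).indicator 1 := by
      funext x
      by_cases hx : x⁻¹ * y ∈ B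
      · rw [indicator_of_mem hx, indicator_of_mem, Pi.one_apply, Pi.one_apply]
        rw [mem_preimage, Set.mem_inv, mul_inv_rev, inv_inv]
        exact hx
      · rw [indicator_of_notMem hx, indicator_of_notMem]
        rw [mem_preimage, Set.mem_inv, mul_inv_rev, inv_inv]
        exact hx
    rw [e, lintegral_indicator_one (hBm.inv.preimage (measurable_const_mul _)),
      measure_preimage_mul]
  calc ∫⁻ x, ‖b x ω‖ₑ ^ (2 : ℝ) ∂μ
      ≤ ∫⁻ x, μ B * ∫⁻ y, B.indicator 1 (x⁻¹ * y) * g y ^ 2 ∂μ ∂μ := lintegral_mono hpt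
    _ = μ B * ∫⁻ x, ∫⁻ y, B.indicator 1 (x⁻¹ * y) * g y ^ 2 ∂μ ∂μ :=
        lintegral_const_mul' _ _ hBt
    _ = μ B * ∫⁻ y, ∫⁻ x, B.indicator 1 (x⁻¹ * y) * g y ^ 2 ∂μ ∂μ := by
        rw [lintegral_lintegral_swap hmm.aemeasurable]
    _ = μ B * (μ B⁻¹ * ∫⁻ y, g y ^ 2 ∂μ) := by
        rw [lintegral_congr hin, lintegral_const_mul _ (hgm.pow_const 2)]
    _ < ∞ := ENNReal.mul_lt_top hBt.lt_top (ENNReal.mul_lt_top hB.inv.measure_lt_top hg2)

end mk

section main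

variable {Γ Λ G H K : Type} [Group Γ] [Countable Γ] [Group Λ]
  [Group G] [TopologicalSpace G] [IsTopologicalGroup G] [LocallyCompactSpace G]
  [SecondCountableTopology G] [T2Space G] [MeasurableSpace G] [BorelSpace G]
  [Group H] [TopologicalSpace H] [IsTopologicalGroup H] [LocallyCompactSpace H]
  [SecondCountableTopology H] [T2Space H] [MeasurableSpace H] [BorelSpace H]
  [NormedAddCommGroup K] [InnerProductSpace ℂ K] [CompleteSpace K]
  {ρ : Γ →* (K →L[ℂ] K)} {V : Λ →* (K →L[ℂ] K)} {ω : K} {ι : Γ →* G} {κ : Λ →* H}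
  {μ : Measure G} [μ.IsHaarMeasure]

/-- **A-SMOOTH.** -/
theorem smooth_of_family (h : Frm ρ V ω) {U : Λ →* (Lp K 2 μ →L[ℂ] Lp K 2 μ)} {C R : ℝ}
    (hC : 0 ≤ C)
    (hU : ∀ (v : Λ) (ξ : Lp K 2 μ) (D : ℝ), Bd ι ρ ω μ D ξ → ∀ᵐ x ∂μ, ∀ T : K →L[ℂ] K,
      Vl ι ρ ω ξ x T → Vl ι ρ ω (U v ξ : Lp K 2 μ) x (V v * T * V v⁻¹))
    {ψ : H → Lp K 2 μ} (hψ : StronglyMeasurable ψ) (hR : ∀ y, ‖ψ y‖ ≤ R)
    (hB : ∀ᵐ y ∂(Measure.haar : Measure H), ψ y ∈ BdS ι ρ ω μ C)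
    (h0 : ¬ (ψ =ᵐ[(Measure.haar : Measure H)] 0))
    (he : ∀ v : Λ, ∀ᵐ y ∂(Measure.haar : Measure H), ψ (y * κ v) = U v⁻¹ (ψ y)) :
    ∃ b : G → K →L[ℂ] K, Smo ι κ ρ V ω μ b ∧ b 1 ω ≠ 0 := by
  obtain ⟨m, hm⟩ : ∃ m : Measure H, m = (Measure.haar : Measure H).inv := ⟨_, rfl⟩
  haveI hri : m.IsMulRightInvariant := by rw [hm]; infer_instance
  haveI hfc : IsFiniteMeasureOnCompacts m := by rw [hm]; infer_instance
  have hnull : ∀ {P : H → Prop}, (∀ᵐ y ∂(Measure.haar : Measure H), P y) ↔ ∀ᵐ y ∂m, P y := by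
    intro P
    rw [ae_iff, ae_iff, hm, Measure.inv_apply, measure_inv_null]
  have h0' : ¬ (ψ =ᵐ[m] 0) := fun h' => h0 (hnull.2 h')
  have hB' : ∀ᵐ y ∂m, ψ y ∈ BdS ι ρ ω μ C := hnull.1 hB
  have he' : ∀ v : Λ, ∀ᵐ y ∂m, ψ (y * κ v) = U v⁻¹ (ψ y) := fun v => hnull.1 (he v)
  -- a compact set in `H`
  have hA : ∃ A : Set H, IsCompact A ∧ ∫ y in A, ψ y ∂m ≠ 0 := by
    by_contra hcon
    push Not at hcon
    refine h0' (ae_eq_zero_of_forall_setIntegral_isCompact_eq_zero' ?_ hcon)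
    refine (locallyIntegrable_const R).mono hψ.aestronglyMeasurable (Eventually.of_forall fun y => ?_)
    exact (hR y).trans (le_abs_self R)
  obtain ⟨A, hA1, hA2⟩ := hA
  obtain ⟨ξ, hξ⟩ : ∃ ξ : Lp K 2 μ, ξ = ∫ y in A, ψ y ∂m := ⟨_, rfl⟩
  rw [← hξ] at hA2
  have hAm : MeasurableSet A := hA1.measurableSet
  have hAt : m A ≠ ∞ := hA1.measure_lt_top.ne
  have hbd : Bd ι ρ ω μ ((m A).toReal * C) ξ := by
    rw [hξ]; exact bd_setIntegral h.reg hC hψ hR hB' hAt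
  -- a compact set in `G`
  have hBx : ∃ B : Set G, IsCompact B ∧ ∫ y in B, ξ y ∂μ ≠ 0 := by
    by_contra hcon
    push Not at hcon
    refine hA2 ?_
    rw [Lp.eq_zero_iff_ae_eq_zero]
    refine ae_eq_zero_of_forall_setIntegral_isCompact_eq_zero' ?_ hcon
    exact (Lp.memLp ξ).locallyIntegrable one_le_two
  obtain ⟨B, hB1, hB2⟩ := hBx
  obtain ⟨b, hb1, hb2, hb3⟩ := exists_field h.reg (by positivity) (Lp.stronglyMeasurable ξ)
    (Lp.memLp ξ) hbd hB1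
  refine ⟨b, ⟨hb1, ?_, hb2⟩, ?_⟩
  · intro ε hε
    have h1 := tendsto_right (m := m) hA1
    have hδ : 0 < ENNReal.ofReal (ε / ((C + 1) * ((μ B).toReal + 1))) := by
      rw [ENNReal.ofReal_pos]; positivity
    have h2 := (ENNReal.tendsto_nhds_zero.1 h1) _ hδ
    refine ⟨_, h2, fun v hv x => ?_⟩
    obtain ⟨A', hA'⟩ : ∃ A' : Set H, A' = (fun y => y * κ v) ⁻¹' A := ⟨_, rfl⟩
    have hv' : m (A' ∆ A) ≤ ENNReal.ofReal (ε / ((C + 1) * ((μ B).toReal + 1))) := by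
      rw [hA']; exact hv
    have hA'm : MeasurableSet A' := by rw [hA']; exact hAm.preimage (measurable_mul_const _)
    have hA't : m A' ≠ ∞ := by rw [hA', measure_preimage_mul_right]; exact hAt
    have hint : ∀ {S : Set H}, m S ≠ ∞ → IntegrableOn ψ S m := by
      intro S hS
      haveI : IsFiniteMeasure (m.restrict S) :=
        ⟨by rw [Measure.restrict_apply_univ]; exact hS.lt_top⟩
      exact Integrable.of_bound hψ.aestronglyMeasurable R (Eventually.of_forall hR)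
    have hUξ : U v ξ = ∫ y in A', ψ y ∂m := by
      rw [hξ, ← ContinuousLinearMap.integral_comp_comm _ (hint hAt)]
      have h3 := (measurePreserving_mul_right m (κ v⁻¹)).setIntegral_preimage_emb
        (MeasurableEquiv.mulRight (κ v⁻¹)).measurableEmbedding ψ A'
      have e : (fun y => y * κ v⁻¹) ⁻¹' A' = A := by
        rw [hA']
        ext y
        simp only [mem_preimage]
        rw [mul_assoc, ← map_mul, inv_mul_cancel, map_one, mul_one]
      rw [e] at h3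
      rw [← h3]
      refine integral_congr_ae ?_
      filter_upwards [ae_restrict_of_ae (he' v⁻¹)] with y hy
      rw [hy, inv_inv]
    have hdiff : U v ξ - ξ = (∫ y in A' \ A, ψ y ∂m) - ∫ y in A \ A', ψ y ∂m := by
      rw [hUξ, hξ]
      exact setIntegral_sub_eq hA'm hAm (hint hA't) (hint hAt)
    have t1 : m (A' \ A) ≠ ∞ := ne_top_of_le_ne_top hA't (measure_mono diff_subset)
    have t2 : m (A \ A') ≠ ∞ := ne_top_of_le_ne_top hAt (measure_mono diff_subset)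
    have hbd2 : Bd ι ρ ω μ ((m (A' ∆ A)).toReal * C) (U v ξ - ξ : Lp K 2 μ) := by
      have h3 := bd_setIntegral h.reg hC hψ hR hB' t1
      have h4 := bd_setIntegral h.reg hC hψ hR hB' t2
      have h5 : Bd ι ρ ω μ ((m (A' \ A)).toReal * C + (m (A \ A')).toReal * C)
          (U v ξ - ξ : Lp K 2 μ) := by
        refine Bd.sub h3 h4 ?_
        rw [hdiff]
        exact Lp.coeFn_sub _ _
      refine h5.mono (le_of_eq ?_)
      rw [Set.symmDiff_def, measure_union disjoint_sdiff_sdiff (hAm.diff hA'm),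
        ENNReal.toReal_add t1 t2, add_mul]
    have hfl := fld_spec h.reg hbd
    have hnorm : ∀ᵐ y ∂μ, ‖V v * fld ι ρ ω ξ y * V v⁻¹ - fld ι ρ ω ξ y‖ ≤
        (m (A' ∆ A)).toReal * C := by
      filter_upwards [hfl, hU v ξ _ hbd, hbd2, ae_trans (ι := ι) (Lp.coeFn_sub (U v ξ) ξ)]
        with y h3 h4 h5 h6
      obtain ⟨T, hT1, hT2⟩ := h5
      have h7 : Vl ι ρ ω (U v ξ - ξ : Lp K 2 μ) y
          (V v * fld ι ρ ω ξ y * V v⁻¹ - fld ι ρ ω ξ y) := (h4 _ h3.1).sub h3.1 h6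
      rw [h7.unique h.reg hT2]
      exact hT1
    have hmz : ∀ ζ, AEStronglyMeasurable (fun y => fld ι ρ ω ξ y ζ) μ :=
      fld_meas h.reg hbd (Lp.stronglyMeasurable ξ)
    have hSt : μ ((fun y => x⁻¹ * y) ⁻¹' B) ≠ ∞ := by
      rw [measure_preimage_mul]; exact hB1.measure_lt_top.ne
    haveI : IsFiniteMeasure (μ.restrict ((fun y => x⁻¹ * y) ⁻¹' B)) :=
      ⟨by rw [Measure.restrict_apply_univ]; exact hSt.lt_top⟩
    have hiz : ∀ ζ, Integrable (fun y => fld ι ρ ω ξ y ζ)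
        (μ.restrict ((fun y => x⁻¹ * y) ⁻¹' B)) := by
      intro ζ
      refine Integrable.of_bound (hmz ζ).restrict ((m A).toReal * C * ‖ζ‖) ?_
      filter_upwards [ae_restrict_of_ae hfl] with y hy
      exact ((fld ι ρ ω ξ y).le_opNorm ζ).trans (by gcongr; exact hy.2)
    refine ContinuousLinearMap.opNorm_le_bound _ hε.le fun ζ => ?_
    have e1 : (V v * b x * V v⁻¹ - b x) ζ = ∫ y in (fun y => x⁻¹ * y) ⁻¹' B,
        (V v * fld ι ρ ω ξ y * V v⁻¹ - fld ι ρ ω ξ y) ζ ∂μ := by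
      rw [sub_apply, mul_ap, mul_ap, hb3, hb3, ← ContinuousLinearMap.integral_comp_comm _ (hiz _),
        ← integral_sub ((V v).integrable_comp (hiz _)) (hiz _)]
      rfl
    rw [e1]
    have h8 := norm_setIntegral_le_of_norm_le_const_ae (μ := μ)
      (f := fun y => (V v * fld ι ρ ω ξ y * V v⁻¹ - fld ι ρ ω ξ y) ζ)
      (s := (fun y => x⁻¹ * y) ⁻¹' B) (C := (m (A' ∆ A)).toReal * C * ‖ζ‖) hSt.lt_top (by
        filter_upwards [ae_restrict_of_ae hnorm] with y hy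
        exact (ContinuousLinearMap.le_opNorm _ ζ).trans (by gcongr))
    refine h8.trans ?_
    rw [Measure.real, measure_preimage_mul]
    have h9 : (m (A' ∆ A)).toReal ≤ ε / ((C + 1) * ((μ B).toReal + 1)) :=
      ENNReal.toReal_le_of_le_ofReal (by positivity) hv'
    calc (m (A' ∆ A)).toReal * C * ‖ζ‖ * (μ B).toReal
        ≤ (ε / ((C + 1) * ((μ B).toReal + 1))) * (C + 1) * ‖ζ‖ * ((μ B).toReal + 1) := by
          gcongr
          · linarith
          · linarith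
      _ = ε * ‖ζ‖ := by
          have : (μ B).toReal + 1 ≠ 0 := by positivity
          field_simp
  · rw [hb3]
    have e : (fun y : G => (1 : G)⁻¹ * y) ⁻¹' B = B := by
      ext y
      simp only [mem_preimage]
      rw [inv_one, one_mul]
    rw [e]
    have e2 : ∫ y in B, fld ι ρ ω ξ y ω ∂μ = ∫ y in B, ξ y ∂μ := by
      refine integral_congr_ae ?_
      filter_upwards [ae_restrict_of_ae (fld_spec h.reg hbd)] with y hy
      exact hy.1.omega
    rw [e2]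
    exact hB2

end main

end Vale.Agent.P092.H448
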