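import Vale.Agent.P092.H448.ErgLit2
import Vale.Agent.P092.Q.Final
import Vale.Agent.P092.H866.ErgL
import Vale.Agent.P092.H945.TorStmt
import Vale.Agent.P092.PA.FacInst

/-!
P092 (helper448), project Q: [Q-ERG], ergodicity at all places, for every ICC group `Λ`.
-/

set_option linter.all false

open scoped InnerProductSpace Topology
open Filter ContinuousLinearMap Matrix MeasureTheory

namespace Vale.Agent.P092.H448

open Vale.Agent.P092.H160 Vale.Agent.P092.SR Vale.Agent.P092.H776
open Vale.Agent.P092.H971 (pj pjq)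
open Vale.Agent.P092.H515.St

/-- the two copies of the definition of a local field -/
theorem locK_of {k : Type} [NontriviallyNormedField k] (h : LocK k) : H933.LocK k := by
  rcases h with ⟨φ, h⟩ | ⟨φ, h⟩ | h
  · exact H933.LocK.real φ h
  · exact H933.LocK.cplx φ h
  · exact H933.LocK.ultra h

/-- Relative ICC at the place `i`, all local fields, reducible lattices allowed. -/
theorem ricc_loc {I : Type} [Finite I] {n : I → ℕ} {k : I → Type}
    [∀ i, NontriviallyNormedField (k i)] [∀ i, ProperSpace (k i)] (hk : ∀ i, H933.LocK (k i))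
    (hn : ∀ i, 2 ≤ n i) (Γ : Subgroup (∀ i, SpecialLinearGroup (Fin (n i)) (k i)))
    (hlat : IsLattice Γ) (i : I) (hd : DenseRange (pj Γ i))
    (hicc : ∀ g : Γ, g ≠ 1 → Set.Infinite {y : Γ | ∃ h, y = h * g * h⁻¹}) {h : Γ} (hh : h ≠ 1) :
    ∀ U ∈ 𝓝 (1 : SR.PSLk (n i) (k i)), {y : Γ | ∃ θ : Γ, pjq Γ i θ ∈ U ∧
      y = θ * h * θ⁻¹}.Infinite := by
  have := fun i => H971.lc_sl (n i) (k i)
  have := fun i => H971.sc_sl (n i) (k i)
  exact H971.ricc_quot (pj Γ) (H971.pj_inj Γ) (by rw [H971.pi_pj]; exact hlat) hicc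
    (fun i => H793.finite_center.isCompact) (fun i => (PA.facS_psl (hk i) (hn i)).recu) i hd
    (PA.facS_psl (hk i) (hn i)).cent hh

/-- **[Q-ERG]** -/
theorem ergStmt : Q.ErgStmt := by
  intro I _ n k _ _ hk' hn Γ hlat hd hicc Λ _ _ α hΛ hα i
  have hk : ∀ i, H933.LocK (k i) := fun i => locK_of (hk' i)
  rcases H866.conn_or_ultra (hk i) with h | h
  · haveI := h
    haveI : Nontrivial (Fin (n i)) := Fin.nontrivial_iff_two_le.2 (hn i)
    haveI := H866.preconnected_psl (n := Fin (n i)) (k := k i)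
    exact H866.erg_icc (PA.facS_psl (hk i) (hn i)) hicc hΛ hα
      ((QuotientGroup.mk'_surjective _).denseRange.comp (hd i) continuous_quotient_mk')
  · haveI := h
    exact erg_psl' (Or.inr H945.torStmt) (hn i) hα hicc (hd i)
      (fun g hg => ricc_loc hk hn Γ hlat i (hd i) hicc hg)

end Vale.Agent.P092.H448
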