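import Vale.Agent.P092.H734.QDbl
import Vale.Agent.P092.H465.ErgCont
import Vale.Agent.P092.H776.ErgM

/-!
P092 (helper448), project Q, [Q-ERG-LIT]: ergodicity at a totally disconnected place, in the
literal form of `H734.Q.Erg`.
-/

set_option linter.all false

open scoped InnerProductSpace Topology
open Filter ContinuousLinearMap

namespace Vale.Agent.P092.H448

open Vale.Agent.P092.H160 Vale.Agent.P092.SR Vale.Agent.P092.H776
open Vale.Agent.P092.H734.Q (Erg)

variable {Γ Λ H : Type} [Group Γ] [Group Λ] [Group H] [TopologicalSpace H]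
  {α : Γ →* (Ell2 Λ →L[ℂ] Ell2 Λ)}

/-- Ergodicity at a place with a basis of open subgroups, from relative ICC and the absence of
the exceptional class (`NoCls`). -/
theorem erg_td (hα : Frame α)
    (hb : ∀ W ∈ 𝓝 (1 : H), ∃ U : Subgroup H, IsOpen (U : Set H) ∧ (U : Set H) ⊆ W)
    {p : Γ →* H}
    (ho : ∀ U : Subgroup H, IsOpen (U : Set H) → ∀ g : Γ, g ≠ 1 →
      Set.Infinite {y : Γ | ∃ k ∈ U.comap p, y = k * g * k⁻¹})
    (hN : ∀ U : Subgroup H, IsOpen (U : Set H) → NoCls α (U.comap p : Set Γ)) :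
    Erg p (RRR α) (VV α) (dl (1 : Λ × Λ)) := by
  intro T hT hcont
  have hfr := H734.Q.frm hα
  refine H465.erg_cont (V := VV α) hfr.reg hfr.adj hfr.comm hT ?_
  intro ε hε
  obtain ⟨W, hW, hW'⟩ := hcont ε hε
  obtain ⟨U, hU, hUW⟩ := hb W hW
  refine ⟨U.comap p, ?_, ?_⟩
  · intro y hy hyV
    refine erg_model_of hα (U.comap p : Set Γ) (fun k hk => (U.comap p).inv_mem hk) (ho U hU)
      (hN U hU) (fun k hk => hyV k hk) (fun g => ?_) (fun g => ?_)
    · have := hy (g, 1)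
      rwa [RRR_apply, map_one, mul_one] at this
    · have := hy (1, g)
      rwa [RRR_apply, map_one, one_mul] at this
  · intro θ hθ
    have := hW' θ (hUW hθ)
    rwa [sub_apply] at this

/-- The same for `Λ` torsion-free. -/
theorem erg_td_tf (hα : Frame α)
    (hinf : ∀ s : Λ, s ≠ 1 → ∀ n : ℕ, 0 < n → s ^ n ≠ 1)
    (hb : ∀ W ∈ 𝓝 (1 : H), ∃ U : Subgroup H, IsOpen (U : Set H) ∧ (U : Set H) ⊆ W)
    {p : Γ →* H}
    (ho : ∀ U : Subgroup H, IsOpen (U : Set H) → ∀ g : Γ, g ≠ 1 →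
      Set.Infinite {y : Γ | ∃ k ∈ U.comap p, y = k * g * k⁻¹}) :
    Erg p (RRR α) (VV α) (dl (1 : Λ × Λ)) :=
  erg_td hα hb ho fun U hU => noCls_of_torsionFree hα hinf
    (fun k hk => (U.comap p).inv_mem hk) (ho U hU)

end Vale.Agent.P092.H448
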