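import Vale.Agent.P092.H448.ErgLit
import Vale.Agent.P092.H805.Res
import Vale.Agent.P092.H628.TorGlue
import Vale.Agent.P092.H971.PlcSL

/-!
P092 (helper448), project Q, [Q-ERG-LIT]: ergodicity at a nonarchimedean place `SL_N(k)` or
`PSL_N(k)`; `Λ` arbitrary (with the torsion theorem), or `Λ` torsion-free.
-/

set_option linter.all false

open scoped InnerProductSpace Topology
open Filter ContinuousLinearMap Matrix

namespace Vale.Agent.P092.H448

open Vale.Agent.P092.H160 Vale.Agent.P092.SR Vale.Agent.P092.H776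
open Vale.Agent.P092.H734.Q (Erg)

variable {Γ Λ : Type} [Group Γ] [Group Λ] {α : Γ →* (Ell2 Λ →L[ℂ] Ell2 Λ)}
variable {k : Type} [NontriviallyNormedField k] [IsUltrametricDist k] [ProperSpace k] {N : ℕ}

/-- The setting of the torsion theorem, from the relative ICC property. -/
theorem sys_of_orb {H : Type} [NormedAddCommGroup H] [InnerProductSpace ℂ H] [CompleteSpace H]
    {lam : Γ →* (H →L[ℂ] H)} {R : Λ →* (H →L[ℂ] H)} {ξ : H} (h1 : RegRep lam ξ) (h2 : RegRep R ξ)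
    (hc : ∀ g v, lam g * R v = R v * lam g) {p : Γ →* SpecialLinearGroup (Fin N) k}
    (ho : ∀ U : Subgroup (SpecialLinearGroup (Fin N) k),
      IsOpen (U : Set (SpecialLinearGroup (Fin N) k)) → ∀ g : Γ, g ≠ 1 →
      Set.Infinite {y : Γ | ∃ k ∈ U.comap p, y = k * g * k⁻¹}) :
    H628.Sys lam R ξ (H632.flt p) where
  regL := h1
  regR := h2
  comm := hc
  ne := ⟨(H632.int N k).comap p, H632.int N k, H632.isOpen_int, H632.isCompact_int, le_rfl⟩
  up := fun U hU S hS => H632.flt_up hU hS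
  inf := fun U hU U' hU' => H632.flt_inf hU hU'
  conj := fun U hU g => H632.flt_conj hU g
  orb := by
    rintro U ⟨K, hK, -, hKU⟩ g hg
    refine (ho K hK g hg).mono ?_
    rintro y ⟨h, hh, rfl⟩
    exact ⟨h, hKU hh, rfl⟩

/-- No exceptional operators, `Λ` arbitrary, from the torsion theorem. -/
theorem noCls_of_orb (hTor : H628.TorStmt) (hN : 2 ≤ N) (hα : Frame α)
    (hicc : ∀ g : Γ, g ≠ 1 → Set.Infinite {y : Γ | ∃ h, y = h * g * h⁻¹})
    {p : Γ →* SpecialLinearGroup (Fin N) k} (hp : DenseRange p)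
    (ho : ∀ U : Subgroup (SpecialLinearGroup (Fin N) k),
      IsOpen (U : Set (SpecialLinearGroup (Fin N) k)) → ∀ g : Γ, g ≠ 1 →
      Set.Infinite {y : Γ | ∃ k ∈ U.comap p, y = k * g * k⁻¹})
    {U : Subgroup (SpecialLinearGroup (Fin N) k)}
    (hU : IsOpen (U : Set (SpecialLinearGroup (Fin N) k))) :
    NoCls α (U.comap p : Set Γ) := by
  intro s hs S hS
  have hsys : H628.Sys α rhoH (dl (1 : Λ)) (H632.flt p) :=
    sys_of_orb hα.reg regRep_rho (fun g v => hα.comm g v) ho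
  refine hTor α rhoH (dl 1) (H632.flt p) _ hsys (H632.volBd hN hp) (H628.icc_of_frame hα hicc) s
    hs S ⟨U.comap p, H628.open_mem_flt p hU, fun g hg => hS.ca _ ⟨⟨g, hg⟩, rfl⟩,
      fun c hc => hS.cr c hc, ?_⟩
  have h1 := hS.fin
  have h2 : H628.nn rhoH (Subgroup.centralizer {s}) (dl (1 : Λ)) S
      = ENNReal.ofReal (∑' i : Λ ⧸ Subgroup.centralizer {s}, ‖S (rhoH (i.out)⁻¹ (dl 1))‖ ^ 2) := by
    rw [ENNReal.ofReal_tsum_of_nonneg (fun _ => by positivity) h1]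
    unfold H628.nn H628.sq H628.fn
    exact tsum_congr fun q => H628.esq _
  rw [h2]
  exact ENNReal.ofReal_ne_top

/-- the projection modulo the centre -/
def qp (p : Γ →* SpecialLinearGroup (Fin N) k) : Γ →* SR.PSLk N k :=
  (QuotientGroup.mk' (Subgroup.center (SpecialLinearGroup (Fin N) k))).comp p

/-- `NoCls` as a condition on `Λ`: `Λ` torsion-free, or the torsion theorem. -/
def NoTor (Λ : Type) [Group Λ] : Prop :=
  (∀ s : Λ, s ≠ 1 → ∀ n : ℕ, 0 < n → s ^ n ≠ 1) ∨ H628.TorStmt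

/-- **Ergodicity at a nonarchimedean place** `PSL_N(k)`. -/
theorem erg_psl (hT : NoTor Λ) (hN : 2 ≤ N) (hα : Frame α)
    (hicc : ∀ g : Γ, g ≠ 1 → Set.Infinite {y : Γ | ∃ h, y = h * g * h⁻¹})
    {p : Γ →* SpecialLinearGroup (Fin N) k} (hp : DenseRange p)
    (hf : ∀ h : Γ, h ≠ 1 → ∀ U ∈ 𝓝 (1 : SR.PSLk N k),
      {y : Γ | ∃ θ : Γ, qp p θ ∈ U ∧ y = θ * h * θ⁻¹}.Infinite) :
    Erg (qp p) (RRR α) (VV α) (dl (1 : Λ × Λ)) := by
  have ho' : ∀ U : Subgroup (SR.PSLk N k), IsOpen (U : Set (SR.PSLk N k)) → ∀ g : Γ, g ≠ 1 →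
      Set.Infinite {y : Γ | ∃ k ∈ U.comap (qp p), y = k * g * k⁻¹} := by
    intro U hU g hg
    refine (hf g hg U (hU.mem_nhds U.one_mem)).mono ?_
    rintro y ⟨θ, h1, h2⟩
    exact ⟨θ, h1, h2⟩
  have ho : ∀ U : Subgroup (SpecialLinearGroup (Fin N) k),
      IsOpen (U : Set (SpecialLinearGroup (Fin N) k)) → ∀ g : Γ, g ≠ 1 →
      Set.Infinite {y : Γ | ∃ k ∈ U.comap p, y = k * g * k⁻¹} := by
    intro U hU g hg
    refine H971.infinite_lift p
      (QuotientGroup.mk' (Subgroup.center (SpecialLinearGroup (Fin N) k)))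
      (QuotientGroup.isOpenMap_coe) ?_ (fun U hU => hf g hg U hU) U hU
    rw [QuotientGroup.ker_mk']
    exact H793.finite_center
  refine erg_td hα ?_ ho' ?_
  · intro W hW
    obtain ⟨W', hW', ho, h1⟩ := mem_nhds_iff.1 hW
    obtain ⟨K, hK, hKW⟩ := (H971.gfStmt N k hN).basis W' ho h1
    exact ⟨K, hK.2, hKW.trans hW'⟩
  · intro U hU
    have e : U.comap (qp p) = (U.comap (QuotientGroup.mk'
        (Subgroup.center (SpecialLinearGroup (Fin N) k)))).comap p := rfl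
    rw [e]
    have hU' : IsOpen ((U.comap (QuotientGroup.mk'
        (Subgroup.center (SpecialLinearGroup (Fin N) k))) :
        Subgroup (SpecialLinearGroup (Fin N) k)) : Set (SpecialLinearGroup (Fin N) k)) :=
      hU.preimage continuous_quotient_mk'
    rcases hT with hinf | hTor
    · exact noCls_of_torsionFree hα hinf (fun k hk => Subgroup.inv_mem _ hk) (ho _ hU')
    · exact noCls_of_orb hTor hN hα hicc hp ho hU'

/-- The same in the letters of `H805`. -/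
theorem erg_psl' (hT : NoTor Λ) (hN : 2 ≤ N) (hα : Frame α)
    (hicc : ∀ g : Γ, g ≠ 1 → Set.Infinite {y : Γ | ∃ h, y = h * g * h⁻¹})
    {p : Γ →* SpecialLinearGroup (Fin N) k} (hp : DenseRange p)
    (hf : ∀ h : Γ, h ≠ 1 → ∀ U ∈ 𝓝 (1 : SR.PSLk N k),
      {y : Γ | ∃ θ : Γ, qp p θ ∈ U ∧ y = θ * h * θ⁻¹}.Infinite) :
    H805.Erg (qp p) (RRR α) (VV α) (dl (1 : Λ × Λ)) :=
  erg_psl hT hN hα hicc hp hf

end Vale.Agent.P092.H448
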