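import Mathlib

/-!
P092, TEAM N, block [N-EXP] (helper448), part 1.
Universal absolutely summable expansion of smooth functions on a small box of `d → ℝ`
(`exp_real`): one fixed family of bounded functions, one fixed summable sequence of bounds, for
every function with bounded derivatives of order `≤ 2 * card d`.
-/

namespace Vale.Agent.P092.H448.Exp

open MeasureTheory UnitAddTorus
open scoped ContDiff

noncomputable section

local instance : MeasureSpace UnitAddCircle := ⟨AddCircle.haarAddCircle⟩

local instance : Measure.IsAddHaarMeasure (volume : Measure UnitAddCircle) :=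
  inferInstanceAs (Measure.IsAddHaarMeasure AddCircle.haarAddCircle)

local instance : IsProbabilityMeasure (volume : Measure UnitAddCircle) :=
  inferInstanceAs (IsProbabilityMeasure AddCircle.haarAddCircle)

variable {d : Type*} [Fintype d]

/-! ### Summability over `d → ℤ` -/

theorem summable_pi {b : ℤ → ℝ} (hb : ∀ m, 0 ≤ b m) (hs : Summable b) :
    Summable fun n : d → ℤ => ∏ i, b (n i) := by
  classical
  refine summable_of_sum_le (c := ∏ _i : d, ∑' m, b m)
    (fun n => Finset.prod_nonneg fun i _ => hb _) fun s => ?_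
  let t : Finset ℤ := Finset.univ.biUnion fun i : d => s.image fun n => n i
  have hst : s ⊆ Fintype.piFinset fun _ : d => t := by
    intro n hn
    rw [Fintype.mem_piFinset]
    intro i
    exact Finset.mem_biUnion.2 ⟨i, Finset.mem_univ _, Finset.mem_image_of_mem _ hn⟩
  calc ∑ n ∈ s, ∏ i, b (n i) ≤ ∑ n ∈ Fintype.piFinset (fun _ : d => t), ∏ i, b (n i) :=
        Finset.sum_le_sum_of_subset_of_nonneg hst fun n _ _ =>
          Finset.prod_nonneg fun i _ => hb _
    _ = ∏ _i : d, ∑ m ∈ t, b m := (Finset.prod_univ_sum (fun _ => t) fun _ m => b m).symm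
    _ ≤ ∏ _i : d, ∑' m, b m := Finset.prod_le_prod
        (fun i _ => Finset.sum_nonneg fun m _ => hb m)
        fun i _ => hs.sum_le_tsum _ fun m _ => hb m

/-- the one variable bound -/
def bz (m : ℤ) : ℝ := if m = 0 then 1 else 1 / (m : ℝ) ^ 2

lemma bz_nonneg (m : ℤ) : 0 ≤ bz m := by
  unfold bz
  split_ifs
  · exact zero_le_one
  · positivity

lemma summable_bz : Summable bz := by
  have h : Summable fun m : ℤ => 1 / (m : ℝ) ^ 2 :=
    Real.summable_one_div_int_pow.2 one_lt_two
  refine (summable_congr_cofinite ?_).1 h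
  refine (Set.finite_singleton (0 : ℤ)).subset ?_
  intro m hm
  by_contra h0
  apply hm
  have : m ≠ 0 := h0
  simp [bz, this]

/-! ### Translations and Fourier coefficients -/

lemma mF_add (n : d → ℤ) (x y : UnitAddTorus d) :
    mFourier n (x + y) = mFourier n x * mFourier n y := by
  simp only [mFourier, ContinuousMap.coe_mk, ← Finset.prod_mul_distrib]
  refine Finset.prod_congr rfl fun i _ => ?_
  simp only [Pi.add_apply, fourier_apply, smul_add, AddCircle.toCircle_add, Circle.coe_mul]

lemma mF_neg_mul (n : d → ℤ) (x : UnitAddTorus d) : mFourier (-n) x * mFourier n x = 1 := by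
  rw [← mFourier_add, neg_add_cancel, mFourier_zero, ContinuousMap.one_apply]

/-- difference of a function on an additive group -/
def Df {A : Type*} [Add A] (h : A) (F : A → ℂ) : A → ℂ := fun x => F (x + h) - F x

/-- iterated difference -/
def Dl {A : Type*} [Add A] (L : List A) (F : A → ℂ) : A → ℂ := L.foldr Df F

omit [Fintype d] in
lemma Df_continuous {h : UnitAddTorus d} {F : UnitAddTorus d → ℂ} (hF : Continuous F) :
    Continuous (Df h F) := by
  unfold Df
  exact (hF.comp (continuous_add_const h)).sub hF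

omit [Fintype d] in
lemma Dl_continuous {L : List (UnitAddTorus d)} {F : UnitAddTorus d → ℂ} (hF : Continuous F) :
    Continuous (Dl L F) := by
  induction L with
  | nil => exact hF
  | cons h L ih => exact Df_continuous ih

lemma coeff_Df {h : UnitAddTorus d} {F : UnitAddTorus d → ℂ} (hF : Continuous F) (n : d → ℤ) :
    mFourierCoeff (Df h F) n = (mFourier n h - 1) * mFourierCoeff F n := by
  have hc : ∀ G : UnitAddTorus d → ℂ, Continuous G →
      Integrable (fun t => mFourier (-n) t • G t) volume := by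
    intro G hG
    refine Continuous.integrable_of_hasCompactSupport ?_ ?_
    · exact (mFourier (-n)).continuous.smul hG
    · exact HasCompactSupport.of_compactSpace _
  unfold mFourierCoeff
  have h1 : (fun t => mFourier (-n) t • Df h F t) =
      fun t => mFourier (-n) t • F (t + h) - mFourier (-n) t • F t := by
    funext t
    simp only [Df, smul_sub]
  have hi : Integrable (fun t => mFourier (-n) t • F (t + h)) volume :=
    hc (fun t => F (t + h)) (hF.comp (continuous_add_const h))
  rw [h1, integral_sub hi (hc _ hF), sub_mul, one_mul]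
  congr 1
  have h2 : (fun t => mFourier (-n) t • F (t + h)) =
      fun t => (fun s => mFourier n h * (mFourier (-n) s • F s)) (t + h) := by
    funext t
    simp only [smul_eq_mul]
    rw [mF_add (-n) t h]
    have := mF_neg_mul n h
    linear_combination (-(mFourier (-n) t * F (t + h))) * this
  rw [h2, integral_add_right_eq_self (fun s => mFourier n h * (mFourier (-n) s • F s)) h,
    integral_const_mul]

lemma coeff_Dl {F : UnitAddTorus d → ℂ} (hF : Continuous F) (n : d → ℤ)
    (L : List (UnitAddTorus d)) :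
    mFourierCoeff (Dl L F) n = (L.map fun h => mFourier n h - 1).prod * mFourierCoeff F n := by
  induction L with
  | nil => simp [Dl]
  | cons h L ih =>
      have : Dl (h :: L) F = Df h (Dl L F) := rfl
      rw [this, coeff_Df (Dl_continuous hF), ih, List.map_cons, List.prod_cons, mul_assoc]

lemma coeff_le {F : UnitAddTorus d → ℂ} {C : ℝ} (hF : ∀ x, ‖F x‖ ≤ C) (n : d → ℤ) :
    ‖mFourierCoeff F n‖ ≤ C := by
  unfold mFourierCoeff
  refine (norm_integral_le_of_norm_le_const (C := C) (Filter.Eventually.of_forall fun t => ?_)).trans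
    ?_
  · rw [norm_smul]
    have h1 : ‖mFourier (-n) t‖ ≤ 1 := by
      refine ((mFourier (-n)).norm_coe_le_norm t).trans ?_
      rw [mFourier_norm]
    calc ‖mFourier (-n) t‖ * ‖F t‖ ≤ 1 * ‖F t‖ :=
          mul_le_mul_of_nonneg_right h1 (norm_nonneg _)
      _ ≤ C := by rw [one_mul]; exact hF t
  · simp

/-! ### Differences of functions with bounded derivatives -/

section Diff

variable {E : Type*} [NormedAddCommGroup E] [NormedSpace ℝ E]

lemma Df_contDiff {h : E} {F : E → ℂ} {m : ℕ} (hF : ContDiff ℝ m F) : ContDiff ℝ m (Df h F) := by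
  unfold Df
  exact (hF.comp (contDiff_id.add contDiff_const)).sub hF

lemma Dl_contDiff {L : List E} {F : E → ℂ} {m : ℕ} (hF : ContDiff ℝ m F) :
    ContDiff ℝ m (Dl L F) := by
  induction L with
  | nil => exact hF
  | cons h L ih => exact Df_contDiff ih

lemma iter_Df {h : E} {F : E → ℂ} {m : ℕ} (hF : ContDiff ℝ m F) (j : ℕ) (hj : j + 1 ≤ m) {C : ℝ}
    (hC : ∀ x, ‖iteratedFDeriv ℝ (j + 1) F x‖ ≤ C) (x : E) :
    ‖iteratedFDeriv ℝ j (Df h F) x‖ ≤ ‖h‖ * C := by
  have hj' : ContDiff ℝ j F := hF.of_le (by exact_mod_cast (by omega : j ≤ m))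
  have h1 : iteratedFDeriv ℝ j (Df h F) x =
      iteratedFDeriv ℝ j F (x + h) - iteratedFDeriv ℝ j F x := by
    have h2 : Df h F = (fun z => F (z + h)) - F := rfl
    rw [h2, iteratedFDeriv_sub_apply, iteratedFDeriv_comp_add_right]
    · exact (hj'.comp (contDiff_id.add contDiff_const)).contDiffAt
    · exact hj'.contDiffAt
  rw [h1]
  have hdiff : Differentiable ℝ (iteratedFDeriv ℝ j F) := by
    refine hF.differentiable_iteratedFDeriv ?_
    exact_mod_cast (by omega : j < m)
  have := (convex_univ (𝕜 := ℝ) (E := E)).norm_image_sub_le_of_norm_fderiv_le (𝕜 := ℝ)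
    (f := iteratedFDeriv ℝ j F) (C := C) (fun x _ => hdiff x)
    (fun x _ => by rw [norm_fderiv_iteratedFDeriv]; exact hC x) (Set.mem_univ x)
    (Set.mem_univ (x + h))
  refine this.trans (le_of_eq ?_)
  rw [add_sub_cancel_left, mul_comm]

lemma iter_Dl {F : E → ℂ} {m : ℕ} (hF : ContDiff ℝ m F) {C : ℝ}
    (hC : ∀ j ≤ m, ∀ x, ‖iteratedFDeriv ℝ j F x‖ ≤ C) (L : List E) :
    ∀ j, j + L.length ≤ m → ∀ x, ‖iteratedFDeriv ℝ j (Dl L F) x‖ ≤ (L.map norm).prod * C := by
  induction L with
  | nil =>
      intro j hj x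
      simpa [Dl] using hC j (by simpa using hj) x
  | cons h L ih =>
      intro j hj x
      have hj' : j + 1 + L.length ≤ m := by
        rw [List.length_cons] at hj
        omega
      have := iter_Df (h := h) (Dl_contDiff (L := L) hF) j (by omega) (ih (j + 1) hj') x
      rw [List.map_cons, List.prod_cons, mul_assoc]
      exact this

lemma Dl_le {F : E → ℂ} {m : ℕ} (hF : ContDiff ℝ m F) {C : ℝ}
    (hC : ∀ j ≤ m, ∀ x, ‖iteratedFDeriv ℝ j F x‖ ≤ C) (L : List E) (hL : L.length ≤ m) (x : E) :
    ‖Dl L F x‖ ≤ (L.map norm).prod * C := by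
  have := iter_Dl hF hC L 0 (by simpa using hL) x
  rwa [norm_iteratedFDeriv_zero] at this

end Diff

/-! ### The periodic change of variable -/

section Per

/-- a smooth function equal to `arcsin / 2π` near `0` -/
def psi : ℝ → ℝ := fun u =>
  (⟨1 / 2, 3 / 4, by norm_num, by norm_num⟩ : ContDiffBump (0 : ℝ)) u *
    (Real.arcsin u / (2 * Real.pi))

lemma psi_contDiff : ContDiff ℝ ∞ psi := by
  rw [contDiff_iff_contDiffAt]
  intro u
  rcases lt_or_ge |u| 1 with hu | hu
  · rw [abs_lt] at hu
    refine ContDiffAt.mul (ContDiffBump.contDiffAt _) ?_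
    refine (Real.contDiffAt_arcsin ?_ ?_).div_const _
    · exact ne_of_gt hu.1
    · exact ne_of_lt hu.2
  · have h1 : ∀ᶠ v in nhds u, psi v = 0 := by
      have h2 : {v : ℝ | 3 / 4 < |v|} ∈ nhds u :=
        (isOpen_lt continuous_const continuous_abs).mem_nhds
          (by simp only [Set.mem_ofPred_eq]; linarith)
      filter_upwards [h2] with v hv
      have h3 : (⟨1 / 2, 3 / 4, by norm_num, by norm_num⟩ : ContDiffBump (0 : ℝ)) v = 0 := by
        refine ContDiffBump.zero_of_le_dist _ ?_
        rw [Real.dist_eq, sub_zero]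
        exact le_of_lt hv
      unfold psi
      rw [h3, zero_mul]
    exact contDiffAt_const.congr_of_eventuallyEq h1

lemma psi_eq {u : ℝ} (hu : |u| ≤ 1 / 2) : psi u = Real.arcsin u / (2 * Real.pi) := by
  have h3 : (⟨1 / 2, 3 / 4, by norm_num, by norm_num⟩ : ContDiffBump (0 : ℝ)) u = 1 := by
    refine ContDiffBump.one_of_mem_closedBall _ ?_
    rw [Metric.mem_closedBall, Real.dist_eq, sub_zero]
    exact hu
  unfold psi
  rw [h3, one_mul]

lemma psi_le (u : ℝ) : |psi u| ≤ 1 := by
  unfold psi
  rw [abs_mul, abs_div]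
  have h1 : |(⟨1 / 2, 3 / 4, by norm_num, by norm_num⟩ : ContDiffBump (0 : ℝ)) u| ≤ 1 := by
    rw [abs_of_nonneg (ContDiffBump.nonneg _)]
    exact ContDiffBump.le_one _
  have h2 : |Real.arcsin u| / |2 * Real.pi| ≤ 1 := by
    rw [abs_of_pos (by positivity : (0 : ℝ) < 2 * Real.pi), div_le_one (by positivity), abs_le]
    have := Real.pi_pos
    constructor
    · linarith [Real.neg_pi_div_two_le_arcsin u]
    · linarith [Real.arcsin_le_pi_div_two u]
  calc _ ≤ 1 * 1 := mul_le_mul h1 h2 (by positivity) zero_le_one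
    _ = 1 := one_mul 1

lemma psi_sin {t : ℝ} (ht : |t| ≤ 1 / 12) : psi (Real.sin (2 * Real.pi * t)) = t := by
  have hpi := Real.pi_pos
  rw [abs_le] at ht
  have h1 : -(Real.pi / 6) ≤ 2 * Real.pi * t := by nlinarith [ht.1]
  have h2 : 2 * Real.pi * t ≤ Real.pi / 6 := by nlinarith [ht.2]
  have h3 : |Real.sin (2 * Real.pi * t)| ≤ 1 / 2 := by
    rw [abs_le]
    constructor
    · have := Real.sin_le_sin_of_le_of_le_pi_div_two (x := -(Real.pi / 6))
        (y := 2 * Real.pi * t) (by linarith) (by linarith) h1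
      rw [Real.sin_neg, Real.sin_pi_div_six] at this
      exact this
    · have := Real.sin_le_sin_of_le_of_le_pi_div_two (x := 2 * Real.pi * t)
        (y := Real.pi / 6) (by linarith) (by linarith) h2
      rw [Real.sin_pi_div_six] at this
      exact this
  rw [psi_eq h3, Real.arcsin_sin (by linarith) (by linarith)]
  field_simp

/-- the periodic change of variable on `d → ℝ` -/
def Psi (w : d → ℝ) : d → ℝ := fun i => psi (Real.sin (2 * Real.pi * w i))

lemma Psi_contDiff : ContDiff ℝ ∞ (Psi : (d → ℝ) → d → ℝ) := by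
  rw [contDiff_pi]
  intro i
  refine psi_contDiff.comp (Real.contDiff_sin.comp (contDiff_const.mul ?_))
  exact contDiff_apply ℝ ℝ i

lemma Psi_eq {w : d → ℝ} (hw : ‖w‖ ≤ 1 / 12) : Psi w = w := by
  funext i
  exact psi_sin ((norm_le_pi_norm w i).trans hw)

lemma Psi_norm (w : d → ℝ) : ‖Psi w‖ ≤ 1 :=
  (pi_norm_le_iff_of_nonneg zero_le_one).2 fun _ => psi_le _

omit [Fintype d] in
lemma Psi_per (w : d → ℝ) (m : d → ℤ) : Psi (fun i => w i + m i) = Psi w := by
  funext i
  simp only [Psi]
  congr 1
  have : 2 * Real.pi * (w i + m i) = 2 * Real.pi * w i + m i * (2 * Real.pi) := by ring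
  rw [this, Real.sin_add_int_mul_two_pi]

lemma Psi_iter_bdd (N : ℕ) : ∃ D : ℝ, 1 ≤ D ∧ ∀ j ≤ N, ∀ x : d → ℝ,
    ‖iteratedFDeriv ℝ j (Psi : (d → ℝ) → d → ℝ) x‖ ≤ D := by
  have h1 : ∀ j : ℕ, ∃ D : ℝ, ∀ x : d → ℝ,
      ‖iteratedFDeriv ℝ j (Psi : (d → ℝ) → d → ℝ) x‖ ≤ D := by
    intro j
    have hcont : Continuous (iteratedFDeriv ℝ j (Psi : (d → ℝ) → d → ℝ)) :=
      Psi_contDiff.continuous_iteratedFDeriv (by exact_mod_cast le_top)
    have hK : IsCompact (Set.pi Set.univ fun _ : d => Set.Icc (0 : ℝ) 1) :=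
      isCompact_univ_pi fun _ => isCompact_Icc
    obtain ⟨D, hD⟩ := hK.exists_bound_of_continuousOn hcont.continuousOn
    refine ⟨D, fun x => ?_⟩
    have hx := hD (fun i => Int.fract (x i)) (by
      intro _ _
      exact ⟨Int.fract_nonneg _, (Int.fract_lt_one _).le⟩)
    have h2 : (Psi : (d → ℝ) → d → ℝ) = fun z => Psi (z + fun i => ((⌊x i⌋ : ℤ) : ℝ)) := by
      funext z
      exact (Psi_per z fun i => ⌊x i⌋).symm
    have h3 : iteratedFDeriv ℝ j (Psi : (d → ℝ) → d → ℝ) (fun i => Int.fract (x i)) =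
        iteratedFDeriv ℝ j (Psi : (d → ℝ) → d → ℝ) x := by
      conv_lhs => rw [h2]
      rw [iteratedFDeriv_comp_add_right]
      congr 1
      funext i
      exact Int.fract_add_floor (x i)
    rwa [h3] at hx
  choose D hD using h1
  refine ⟨1 + ∑ j ∈ Finset.range (N + 1), |D j|, ?_, ?_⟩
  · have : 0 ≤ ∑ j ∈ Finset.range (N + 1), |D j| := Finset.sum_nonneg fun _ _ => abs_nonneg _
    linarith
  · intro j hj x
    refine (hD j x).trans ((le_abs_self _).trans ?_)
    have := Finset.single_le_sum (f := fun j => |D j|) (fun _ _ => abs_nonneg _)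
      (Finset.mem_range.2 (Nat.lt_succ_of_le hj))
    linarith

end Per

/-! ### The expansion -/

section Main

/-- the covering map of the torus -/
def tc (w : d → ℝ) : UnitAddTorus d := fun i => (w i : UnitAddCircle)

omit [Fintype d] in
lemma tc_add (v w : d → ℝ) : tc (v + w) = tc v + tc w := by
  funext i
  simp [tc]

omit [Fintype d] in
lemma tc_surj (x : UnitAddTorus d) : ∃ w : d → ℝ, tc w = x := by
  choose w hw using fun i => QuotientAddGroup.mk_surjective (x i)
  exact ⟨w, funext hw⟩

omit [Fintype d] in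
lemma tc_continuous : Continuous (tc : (d → ℝ) → UnitAddTorus d) :=
  continuous_pi fun i => (AddCircle.continuous_mk' 1).comp (continuous_apply i)

omit [Fintype d] in
lemma Dl_tc (L : List (d → ℝ)) (F : UnitAddTorus d → ℂ) (x : d → ℝ) :
    Dl (L.map tc) F (tc x) = Dl L (F ∘ tc) x := by
  induction L generalizing x with
  | nil => rfl
  | cons h L ih =>
      have h1 : Dl ((h :: L).map tc) F (tc x) =
        Dl (L.map tc) F (tc x + tc h) - Dl (L.map tc) F (tc x) := rfl
      have h2 : Dl (h :: L) (F ∘ tc) x = Dl L (F ∘ tc) (x + h) - Dl L (F ∘ tc) x := rfl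
      rw [h1, h2, ← tc_add, ih, ih]

lemma mF_single [DecidableEq d] (n : d → ℤ) (i : d) (hi : n i ≠ 0) :
    mFourier n (tc (Pi.single i (1 / (2 * (n i : ℝ))))) = -1 := by
  have h1 : mFourier n (tc (Pi.single i (1 / (2 * (n i : ℝ))))) =
      ∏ j, fourier (n j) ((Pi.single i (1 / (2 * (n i : ℝ))) : d → ℝ) j : UnitAddCircle) := rfl
  rw [h1, Finset.prod_eq_single i]
  · rw [Pi.single_eq_same, fourier_coe_apply]
    have h2 : 2 * (Real.pi : ℂ) * Complex.I * (n i : ℂ) * ((1 / (2 * (n i : ℝ)) : ℝ) : ℂ) /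
        ((1 : ℝ) : ℂ) = Real.pi * Complex.I := by
      have : (n i : ℂ) ≠ 0 := by exact_mod_cast hi
      push_cast
      field_simp
    rw [h2, Complex.exp_pi_mul_I]
  · intro j _ hj
    rw [Pi.single_eq_of_ne hj]
    simp
  · intro h
    exact absurd (Finset.mem_univ i) h

lemma prod_flatMap_map {A B M : Type*} [CommMonoid M] (l : List A) (q : A → List B) (φ : B → M) :
    ((l.flatMap q).map φ).prod = (l.map fun i => ((q i).map φ).prod).prod := by
  induction l with
  | nil => simp
  | cons a l ih => simp [ih]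

lemma length_flatMap_le {A B : Type*} (l : List A) (q : A → List B) {c : ℕ}
    (h : ∀ a, (q a).length ≤ c) : (l.flatMap q).length ≤ c * l.length := by
  induction l with
  | nil => simp
  | cons a l ih =>
      simp only [List.flatMap_cons, List.length_append, List.length_cons]
      have := h a
      nlinarith

/-- the list of increments used for the coefficient `n` -/
def inc [DecidableEq d] (n : d → ℤ) : List (d → ℝ) :=
  (Finset.univ : Finset d).toList.flatMap fun i =>
    if n i = 0 then [] else [Pi.single i (1 / (2 * (n i : ℝ))), Pi.single i (1 / (2 * (n i : ℝ)))]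

lemma inc_length [DecidableEq d] (n : d → ℤ) : (inc n).length ≤ 2 * Fintype.card d := by
  have := length_flatMap_le (Finset.univ : Finset d).toList (fun i => if n i = 0 then [] else
    [(Pi.single i (1 / (2 * (n i : ℝ))) : d → ℝ), Pi.single i (1 / (2 * (n i : ℝ)))]) (c := 2)
    (fun a => by
      split_ifs <;> simp)
  rw [Finset.length_toList, Finset.card_univ] at this
  exact this

lemma inc_norm [DecidableEq d] (n : d → ℤ) :
    ((inc n).map norm).prod = ∏ i, (if n i = 0 then 1 else 1 / (4 * (n i : ℝ) ^ 2)) := by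
  unfold inc
  rw [prod_flatMap_map, Finset.prod_map_toList]
  refine Finset.prod_congr rfl fun i _ => ?_
  split_ifs with h
  · simp
  · have h0 : (n i : ℝ) ≠ 0 := by exact_mod_cast h
    simp only [List.map_cons, List.map_nil, List.prod_cons, List.prod_nil, mul_one,
      Pi.norm_single, Real.norm_eq_abs]
    rw [← pow_two, sq_abs]
    field_simp
    norm_num

lemma inc_four [DecidableEq d] (n : d → ℤ) :
    (((inc n).map tc).map fun h => mFourier n h - 1).prod =
      ∏ i, (if n i = 0 then (1 : ℂ) else 4) := by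
  unfold inc
  rw [List.map_map, prod_flatMap_map, Finset.prod_map_toList]
  refine Finset.prod_congr rfl fun i _ => ?_
  split_ifs with h
  · simp
  · simp only [List.map_cons, List.map_nil, List.prod_cons, List.prod_nil, mul_one,
      Function.comp_apply]
    rw [mF_single n i h]
    norm_num

/-- **Universal expansion.**  Every smooth function with bounded derivatives of order
`≤ 2 * card d` on the unit box is, on the box of radius `1 / 12`, an absolutely convergent sum of
the fixed characters with a fixed summable bound of the coefficients. -/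
theorem exp_real : ∃ K : ℝ, 0 ≤ K ∧ ∀ (g : (d → ℝ) → ℂ) (C : ℝ),
    ContDiff ℝ (2 * Fintype.card d : ℕ) g →
    (∀ j ≤ 2 * Fintype.card d, ∀ x, ‖x‖ ≤ 1 → ‖iteratedFDeriv ℝ j g x‖ ≤ C) →
    ∃ c : (d → ℤ) → ℂ, (∀ n, ‖c n‖ ≤ C * (K * ∏ i, bz (n i))) ∧
      ∀ w : d → ℝ, ‖w‖ ≤ 1 / 12 → HasSum (fun n => c n * mFourier n (tc w)) (g w) := by
  classical
  obtain ⟨D, hD1, hD⟩ := Psi_iter_bdd (d := d) (2 * Fintype.card d)
  let N := 2 * Fintype.card d
  refine ⟨N.factorial * D ^ N, by positivity, ?_⟩
  intro g C hg hC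
  have hC0 : 0 ≤ C := (norm_nonneg _).trans (hC 0 (Nat.zero_le _) 0 (by simp))
  -- the function on the torus
  let G : C(UnitAddTorus d, ℂ) :=
    ⟨fun x => g fun i => psi (fourier 1 (x i)).im, by
      refine hg.continuous.comp (continuous_pi fun i => ?_)
      exact psi_contDiff.continuous.comp
        (Complex.continuous_im.comp ((fourier 1).continuous.comp (continuous_apply i)))⟩
  have hG : (⇑G) ∘ tc = g ∘ Psi := by
    funext w
    simp only [Function.comp_apply, G, ContinuousMap.coe_mk, tc]
    congr 1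
    funext i
    congr 1
    rw [fourier_coe_apply]
    have : 2 * (Real.pi : ℂ) * Complex.I * ((1 : ℤ) : ℂ) * (w i : ℂ) / ((1 : ℝ) : ℂ) =
        ((2 * Real.pi * w i : ℝ) : ℂ) * Complex.I := by
      push_cast
      ring
    rw [this, Complex.exp_ofReal_mul_I_im]
  have hN : ((N : ℕ) : ℕ∞ω) ≤ ∞ := by exact_mod_cast le_top
  have hsm : ContDiff ℝ N (g ∘ Psi) := hg.comp (Psi_contDiff.of_le hN)
  have hbd : ∀ j ≤ N, ∀ x, ‖iteratedFDeriv ℝ j (g ∘ Psi) x‖ ≤ N.factorial * D ^ N * C := by
    intro j hj x
    have h1 := norm_iteratedFDeriv_comp_le (𝕜 := ℝ) (g := g) (f := Psi) (n := j) (N := (N : ℕ∞ω))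
      hg (Psi_contDiff.of_le hN) (by exact_mod_cast hj) x (C := C)
      (D := D) (fun i hi => hC i (hi.trans hj) _ (Psi_norm x))
      (fun i hi1 hi2 => (hD i (hi2.trans hj) x).trans (by
        calc D = D ^ 1 := (pow_one D).symm
          _ ≤ D ^ i := pow_le_pow_right₀ hD1 hi1))
    refine h1.trans ?_
    have h2 : (j.factorial : ℝ) ≤ N.factorial := by exact_mod_cast Nat.factorial_le hj
    have h3 : D ^ j ≤ D ^ N := pow_le_pow_right₀ hD1 hj
    calc (j.factorial : ℝ) * C * D ^ j ≤ N.factorial * C * D ^ N := by gcongr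
      _ = N.factorial * D ^ N * C := by ring
  have hcoef : ∀ n : d → ℤ, ‖mFourierCoeff G n‖ ≤
      C * (N.factorial * D ^ N * ∏ i, bz (n i)) := by
    intro n
    have h1 : ∀ y, ‖Dl ((inc n).map tc) G y‖ ≤
        ((inc n).map norm).prod * (N.factorial * D ^ N * C) := by
      intro y
      obtain ⟨x, rfl⟩ := tc_surj y
      rw [Dl_tc, hG]
      exact Dl_le hsm hbd (inc n) (inc_length n) x
    have h2 := coeff_le h1 n
    rw [coeff_Dl G.continuous, inc_four, norm_mul, norm_prod, inc_norm] at h2
    have h3 : (∏ i, ‖(if n i = 0 then (1 : ℂ) else 4)‖) = ∏ i, (if n i = 0 then (1 : ℝ) else 4) :=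
      Finset.prod_congr rfl fun i _ => by
        split_ifs <;> simp
    rw [h3] at h2
    have h4 : (1 : ℝ) ≤ ∏ i, (if n i = 0 then (1 : ℝ) else 4) := by
      rw [← Finset.prod_const_one (s := (Finset.univ : Finset d))]
      refine Finset.prod_le_prod (fun _ _ => zero_le_one) fun i _ => ?_
      split_ifs <;> norm_num
    have h5 : (∏ i, (if n i = 0 then (1 : ℝ) else 1 / (4 * (n i : ℝ) ^ 2))) ≤
        ∏ i, bz (n i) := by
      refine Finset.prod_le_prod (fun i _ => ?_) fun i _ => ?_
      · split_ifs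
        · exact zero_le_one
        · positivity
      · unfold bz
        split_ifs with h
        · exact le_rfl
        · have h0 : (0 : ℝ) < (n i : ℝ) ^ 2 := by
            have : (n i : ℝ) ≠ 0 := by exact_mod_cast h
            positivity
          exact one_div_le_one_div_of_le h0 (by linarith)
    calc ‖mFourierCoeff G n‖ = 1 * ‖mFourierCoeff G n‖ := (one_mul _).symm
      _ ≤ (∏ i, (if n i = 0 then (1 : ℝ) else 4)) * ‖mFourierCoeff G n‖ :=
          mul_le_mul_of_nonneg_right h4 (norm_nonneg _)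
      _ ≤ (∏ i, (if n i = 0 then (1 : ℝ) else 1 / (4 * (n i : ℝ) ^ 2))) *
          (N.factorial * D ^ N * C) := h2
      _ ≤ (∏ i, bz (n i)) * (N.factorial * D ^ N * C) :=
          mul_le_mul_of_nonneg_right h5 (by positivity)
      _ = C * (N.factorial * D ^ N * ∏ i, bz (n i)) := by ring
  have hsum : Summable (mFourierCoeff G) := by
    refine Summable.of_norm_bounded ?_ hcoef
    exact ((summable_pi bz_nonneg summable_bz).mul_left _).mul_left _
  refine ⟨mFourierCoeff G, hcoef, fun w hw => ?_⟩
  have h1 := hasSum_mFourier_series_apply_of_summable hsum (tc w)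
  have h2 : G (tc w) = g w := by
    have := congrFun hG w
    rw [Function.comp_apply, Function.comp_apply, Psi_eq hw] at this
    exact this
  rw [h2] at h1
  simpa only [smul_eq_mul] using h1

end Main

end

end Vale.Agent.P092.H448.Exp
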