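import Vale.Agent.P092.H448.TrK
import Vale.Agent.P092.H962.C.Amp

/-! # [T-HAT] The trace bound at all amplifications: a finite family of vectors `Ω : ι → K`
(`RC.TRNF`, `RC.PicF`). -/

set_option linter.all false

open scoped InnerProductSpace ENNReal Pointwise
open Filter Topology ContinuousLinearMap TopologicalSpace MeasureTheory

namespace Vale.Agent.P092.H448.TF

open Vale.Agent.P092.RC (Cm TRN TRNF PicF sm)
open Vale.Agent.P092.H242.Hat (Pt Eh Eqn MS)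
open Vale.Agent.P092.H242.Avg
open Vale.Agent.P092.H448.Trb

/-! ### Domination, any index set -/

section dom

variable {G Γ K J L : Type} [Group G] [TopologicalSpace G] [Group Γ] [NormedAddCommGroup K]
  [InnerProductSpace ℂ K] [CompleteSpace K] [Group L] [TopologicalSpace L]
  [IsTopologicalGroup L] [CompactSpace L] [MeasurableSpace L] [BorelSpace L]
  {π : G →* (K →L[ℂ] K)} {lam : Γ →* (K →L[ℂ] K)}
  {m : Set Γ → (K →L[ℂ] K)} {ρ : L →* G} {μ : Measure L} [IsProbabilityMeasure μ]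
  (P : H242.Hat.Pic (fun γ => lam γ) m (fun g => π g))

include P

theorem domJ_Eh {U : Ultrafilter ℕ} (hU : (U : Filter ℕ) ≤ atTop) (b : G) (S : Set Γ) :
    Dom J (Set.range fun t : ℕ => Pt m (fun g => π g) (b ^ t) S) 1
      (Eh m (fun g => π g) U b S) := by
  intro s ξ ε hε
  by_contra hcon
  push Not at hcon
  have hcon' : ∀ t : ℕ, 1 * ∑ i ∈ s, ‖Pt m (fun g => π g) (b ^ t) S (ξ i)‖ₑ ^ 2 + ε <
      ∑ i ∈ s, ‖Eh m (fun g => π g) U b S (ξ i)‖ₑ ^ 2 := fun t => hcon _ ⟨t, rfl⟩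
  -- real form
  set c : ℝ := ∑ i ∈ s, ‖Eh m (fun g => π g) U b S (ξ i)‖ ^ 2 with hc
  have hce : ∑ i ∈ s, ‖Eh m (fun g => π g) U b S (ξ i)‖ₑ ^ 2 = ENNReal.ofReal c := by
    rw [hc, ENNReal.ofReal_sum_of_nonneg fun _ _ => by positivity]
    refine Finset.sum_congr rfl fun i _ => ?_
    rw [ENNReal.ofReal_pow (norm_nonneg _), ofReal_norm]
  have hε' : ε ≠ ∞ := by
    intro h
    have := hcon' 0
    rw [h, add_top, hce] at this
    exact not_top_lt this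
  have hte : ∀ t : ℕ, ∑ i ∈ s, ‖m S (π (b ^ t) (ξ i))‖ ^ 2 ≤ c - ε.toReal := by
    intro t
    have h1 := hcon' t
    rw [hce, one_mul] at h1
    have h2 : ∑ i ∈ s, ‖Pt m (fun g => π g) (b ^ t) S (ξ i)‖ₑ ^ 2 =
        ENNReal.ofReal (∑ i ∈ s, ‖m S (π (b ^ t) (ξ i))‖ ^ 2) := by
      rw [ENNReal.ofReal_sum_of_nonneg fun _ _ => by positivity]
      refine Finset.sum_congr rfl fun i _ => ?_
      rw [ENNReal.ofReal_pow (norm_nonneg _), ofReal_norm, ← ofReal_norm, norm_Pt_eq P,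
        ofReal_norm]
    rw [h2, ← ENNReal.ofReal_toReal hε', ← ENNReal.ofReal_add (Finset.sum_nonneg fun _ _ => by
      positivity) ENNReal.toReal_nonneg] at h1
    have h3 := (ENNReal.ofReal_lt_ofReal_iff_of_nonneg (by positivity)).1 h1
    linarith
  -- the limit
  have hlim : Tendsto (fun N => ∑ i ∈ s, (⟪ξ i, H242.Ces.cav (fun t => Pt m (fun g => π g) (b ^ t) S)
      N (ξ i)⟫_ℂ).re) U (𝓝 (∑ i ∈ s, (⟪ξ i, Eh m (fun g => π g) U b S (ξ i)⟫_ℂ).re)) := by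
    refine tendsto_finsetSum s fun i _ => ?_
    exact (Complex.continuous_re.tendsto _).comp
      (H242.Ces.cl_spec (fun t => P.norm_Pt (b ^ t) S) (ξ i) (ξ i))
  have hle : ∀ N, ∑ i ∈ s, (⟪ξ i, H242.Ces.cav (fun t => Pt m (fun g => π g) (b ^ t) S)
      N (ξ i)⟫_ℂ).re ≤ c - ε.toReal := by
    intro N
    have e1 : ∀ i, (⟪ξ i, H242.Ces.cav (fun t => Pt m (fun g => π g) (b ^ t) S) N (ξ i)⟫_ℂ).re =
        ((N : ℝ) + 1)⁻¹ * ∑ t ∈ Finset.range (N + 1), ‖m S (π (b ^ t) (ξ i))‖ ^ 2 := by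
      intro i
      rw [H242.Ces.inner_cav, ← Complex.ofReal_inv, Complex.re_ofReal_mul, Complex.re_sum]
      congr 1
      refine Finset.sum_congr rfl fun t _ => ?_
      exact P.inner_Pt_re _ _ _
    rw [Finset.sum_congr rfl fun i _ => e1 i, ← Finset.mul_sum, Finset.sum_comm]
    have h2 : ∑ t ∈ Finset.range (N + 1), ∑ i ∈ s, ‖m S (π (b ^ t) (ξ i))‖ ^ 2 ≤
        ((N : ℝ) + 1) * (c - ε.toReal) := by
      refine (Finset.sum_le_sum fun t _ => hte t).trans (le_of_eq ?_)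
      rw [Finset.sum_const, Finset.card_range, nsmul_eq_mul]
      push_cast
      ring
    have h3 := H242.Ces.np N
    rw [inv_mul_le_iff₀ h3]
    exact h2
  have h5 := le_of_tendsto' hlim hle
  have h6 : c ≤ ∑ i ∈ s, (⟪ξ i, Eh m (fun g => π g) U b S (ξ i)⟫_ℂ).re :=
    Finset.sum_le_sum fun i _ => sq_le_of_pos P (fun ζ => P.Eh_nonneg hU S ζ)
      (fun ζ => P.Eh_le hU S ζ) (P.Eh_adj S) (ξ i)
  have h7 : 0 < ε.toReal := ENNReal.toReal_pos hε hε'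
  linarith

theorem domJ_conj {A : K →L[ℂ] K} {S : Set Γ} (h : Dom J (Fam π m S) 1 A) (g : G) :
    Dom J (Fam π m S) 1 (π g * A * π g⁻¹) := by
  intro s ξ ε hε
  obtain ⟨X, ⟨v, rfl⟩, h1⟩ := h s (fun i => π g⁻¹ (ξ i)) ε hε
  refine ⟨_, ⟨v * g⁻¹, rfl⟩, ?_⟩
  have e1 : ∀ i, ‖(π g * A * π g⁻¹) (ξ i)‖ₑ = ‖A (π g⁻¹ (ξ i))‖ₑ := by
    intro i
    rw [← ofReal_norm, ← ofReal_norm]
    exact congrArg ENNReal.ofReal (norm_pi P g _)
  have e2 : ∀ i, ‖Pt m (fun g => π g) (v * g⁻¹) S (ξ i)‖ₑ =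
      ‖Pt m (fun g => π g) v S (π g⁻¹ (ξ i))‖ₑ := by
    intro i
    rw [← conj_Pt P, ← ofReal_norm, ← ofReal_norm]
    exact congrArg ENNReal.ofReal (norm_pi P g _)
  simp only [e1, e2]
  exact h1

theorem domJ_iE (hu : Ur (π.comp ρ)) {𝒰 : Ultrafilter ℕ} (hU : (𝒰 : Filter ℕ) ≤ atTop) (b : G)
    (S : Set Γ) : Dom J (Fam π m S) 1 (iav hu μ (Eh m (fun g => π g) 𝒰 b S)) := by
  refine Dom.iav hu fun l => ?_
  have h1 := domJ_conj P ((domJ_Eh (J := J) P hU b S).mono (F' := Fam π m S) ?_) (ρ l)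
  · show Dom J (Fam π m S) 1 (π (ρ l) * Eh m (fun g => π g) 𝒰 b S * π (ρ l⁻¹))
    rwa [map_inv]
  · rintro _ ⟨t, rfl⟩
    exact ⟨b ^ t, rfl⟩

end dom

/-! ### The multiplication operators and a family of vectors -/

variable {G Γ K L ι : Type} [Group G] [TopologicalSpace G] [Group Γ] [NormedAddCommGroup K]
  [InnerProductSpace ℂ K] [CompleteSpace K] [Group L] [TopologicalSpace L]
  [IsTopologicalGroup L] [CompactSpace L] [MeasurableSpace L] [BorelSpace L] [Fintype ι]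
  {π : G →* (K →L[ℂ] K)} {lam : Γ →* (K →L[ℂ] K)} {W : Set (K →L[ℂ] K)} {Ω : ι → K}
  {m : Set Γ → (K →L[ℂ] K)} {ρ : L →* G} {μ : Measure L} [IsProbabilityMeasure μ]

/-- The multiplication operators: normality, the vectors `Ω i`, and the commutation with `W`. -/
structure MsrF (lam : Γ →* (K →L[ℂ] K)) (W : Set (K →L[ℂ] K)) (Ω : ι → K)
    (m : Set Γ → (K →L[ℂ] K)) : Prop where
  cm : ∀ S, Cm W (m S)
  om : ∀ i, m {1} (Ω i) = Ω i
  sig : ∀ S ξ, ‖m S ξ‖ₑ ^ 2 ≤ ∑' γ, S.indicator (fun γ => ‖m {γ} ξ‖ₑ ^ 2) γ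

theorem picF_of (hP : PicF π lam W Ω) (hm : MS lam m) :
    H242.Hat.Pic (fun γ => lam γ) m (fun g => π g) where
  m_adj := hm.adj
  m_inter := hm.inter
  m_compl := hm.compl
  R_mul := fun v w => map_mul π v w
  R_adj := hP.adjP
  lx_mul := fun s t => map_mul lam s t
  lx_one := map_one lam
  lx_adj := hP.adjL
  lx_R := fun s v => (hP.comm v s).symm
  lx_m := hm.lam

theorem urF_of (hP : PicF π lam W Ω) (hρ : Continuous ρ) : Ur (π.comp ρ) where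
  adj l := by
    show adjoint (π (ρ l)) = π (ρ l⁻¹)
    rw [hP.adjP, map_inv ρ]
  cont ξ := (hP.contP ξ).comp hρ

theorem trnf_eq (T : K →L[ℂ] K) :
    TRNF lam Ω T = ∑' p : ι × Γ, ‖T (lam p.2 (Ω p.1))‖ₑ ^ 2 := by
  rw [ENNReal.tsum_prod (f := fun (i : ι) (γ : Γ) => ‖T (lam γ (Ω i))‖ₑ ^ 2), tsum_fintype]
  rfl

theorem Dom.trnF {F : Set (K →L[ℂ] K)} {c : ℝ≥0∞} {A T : K →L[ℂ] K} (h : Dom (ι × Γ) F c A)
    {N : ℝ≥0∞} (hN : ∀ X ∈ F, TRNF lam Ω (X * T) ≤ N) : TRNF lam Ω (A * T) ≤ c * N := by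
  rw [trnf_eq, ENNReal.tsum_eq_iSup_sum]
  refine iSup_le fun s => ?_
  refine le_of_forall_pos_le_add fun ε hε => ?_
  obtain ⟨X, hX, h1⟩ := h s (fun p => T (lam p.2 (Ω p.1))) ε hε.ne'
  refine h1.trans (add_le_add ?_ le_rfl)
  refine mul_le_mul_right ?_ _
  have h2 := hN X hX
  rw [trnf_eq] at h2
  exact (ENNReal.sum_le_tsum s).trans h2

/-- **The trace bound passes to dominated operators.** -/
theorem tb_absF (hP : PicF π lam W Ω) {F F' : Set (K →L[ℂ] K)} {c c' N : ℝ≥0∞}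
    {A B : K →L[ℂ] K} (hA : Dom (ι × Γ) F c A) (hB : Dom (ι × Γ) F' c' B) (hAc : Cm W A)
    (hAa : adjoint A = A) (hF' : ∀ Y ∈ F', Cm W Y ∧ adjoint Y = Y)
    (hN : ∀ X ∈ F, ∀ Y ∈ F', TRNF lam Ω (X * Y) ≤ N) :
    TRNF lam Ω (B * A) ≤ c' * (c * N) := by
  refine Dom.trnF hB fun Y hY => ?_
  have h1 : TRNF lam Ω (A * Y) ≤ c * N := Dom.trnF hA fun X hX => hN X hX Y hY
  have h2 : Cm W (A * Y) := fun w hw => by
    rw [mul_assoc, (hF' Y hY).1 w hw, ← mul_assoc, hAc w hw, mul_assoc]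
  have h3 := hP.tr_adj (A * Y) h2
  have h4 : adjoint (A * Y) = Y * A := by
    rw [← star_eq_adjoint, star_mul, star_eq_adjoint, star_eq_adjoint, hAa, (hF' Y hY).2]
  rw [h4] at h3
  rw [h3]
  exact h1

/-- the multiplication operators at one vector -/
theorem m_lam_om (P : H242.Hat.Pic (fun γ => lam γ) m (fun g => π g)) {ω : K}
    (hω : m {1} ω = ω) (S : Set Γ) (γ : Γ) :
    m S (lam γ ω) = S.indicator (fun _ => lam γ ω) γ := by
  have h1 : m {γ} (lam γ ω) = lam γ ω := by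
    have h2 := m_single_lam P γ 1 ω
    rw [mul_one, hω] at h2
    exact h2
  by_cases h : γ ∈ S
  · rw [Set.indicator_of_mem h, ← h1, ← ContinuousLinearMap.mul_apply, ← P.m_inter,
      Set.inter_eq_right.2 (Set.singleton_subset_iff.2 h)]
  · rw [Set.indicator_of_notMem h, ← h1, ← ContinuousLinearMap.mul_apply, ← P.m_inter]
    have h3 : S ∩ {γ} = ∅ := by
      rw [Set.inter_singleton_eq_empty]; exact h
    rw [h3, P.m_empty]
    rfl

/-- **The numerical inequality at one vector.** -/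
theorem num1 (P : H242.Hat.Pic (fun γ => lam γ) m (fun g => π g))
    (sig : ∀ S ξ, ‖m S ξ‖ₑ ^ 2 ≤ ∑' γ, S.indicator (fun γ => ‖m {γ} ξ‖ₑ ^ 2) γ)
    {S S' : Set Γ} {N : ℕ} (hN : ∀ η : Γ, {γ : Γ | γ ∈ S ∧ γ * η ∈ S'}.encard ≤ N)
    {u : K →L[ℂ] K} (hul : ∀ γ, u * lam γ = lam γ * u) {ω : K} (hω : m {1} ω = ω) :
    TRN lam ω (m S' * (u * m S)) ≤ N * ‖u ω‖ₑ ^ 2 := by
  have h5 : ∀ γ, ‖(m S' * (u * m S)) (lam γ ω)‖ₑ ^ 2 ≤
      ∑' γ', S.indicator 1 γ * S'.indicator 1 γ' * (fun η => ‖m {η} (u ω)‖ₑ ^ 2) (γ⁻¹ * γ') := by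
    intro γ
    show ‖m S' (u (m S (lam γ ω)))‖ₑ ^ 2 ≤ _
    rw [m_lam_om P hω]
    by_cases h : γ ∈ S
    · rw [Set.indicator_of_mem h]
      refine (sig S' _).trans (ENNReal.tsum_le_tsum fun γ' => ?_)
      by_cases h' : γ' ∈ S'
      · rw [Set.indicator_of_mem h', Set.indicator_of_mem h, Set.indicator_of_mem h']
        have e1 : u (lam γ ω) = lam γ (u ω) := congrArg (fun T : K →L[ℂ] K => T ω) (hul γ)
        have e2 := m_single_lam P γ (γ⁻¹ * γ') (u ω)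
        rw [mul_inv_cancel_left] at e2
        rw [e1, e2]
        simp only [Pi.one_apply, one_mul]
        rw [← ofReal_norm, ← ofReal_norm, lx_norm P]
      · rw [Set.indicator_of_notMem h']
        exact bot_le
    · rw [Set.indicator_of_notMem h]
      simp
  refine (ENNReal.tsum_le_tsum h5).trans ?_
  refine (tsum_le hN (fun _ => le_rfl) (fun _ => le_rfl)
    (fun η => ‖m {η} (u ω)‖ₑ ^ 2)).trans ?_
  exact mul_le_mul_right (bessel P _) _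

section conj

variable (P : H242.Hat.Pic (fun γ => lam γ) m (fun g => π g))
include P

theorem cmF_Pt (hP : PicF π lam W Ω) (hM : MsrF lam W Ω m) (v : G) (S : Set Γ) :
    Cm W (Pt m (fun g => π g) v S) := by
  intro x hx
  have h1 := hM.cm S (π v * x * π v⁻¹) (hP.WP x hx v)
  show π v⁻¹ * m S * π v * x = x * (π v⁻¹ * m S * π v)
  have h2 : π v * x = π v * x * π v⁻¹ * π v := by
    rw [mul_assoc _ (π v⁻¹), ← map_mul, inv_mul_cancel, map_one, mul_one]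
  have h3 : π v⁻¹ * (π v * x * π v⁻¹) = x * π v⁻¹ := by
    rw [← mul_assoc, ← mul_assoc, ← map_mul, inv_mul_cancel, map_one, one_mul]
  calc π v⁻¹ * m S * π v * x = π v⁻¹ * m S * (π v * x) := by rw [mul_assoc]
    _ = π v⁻¹ * (m S * (π v * x * π v⁻¹)) * π v := by
        conv_lhs => rw [h2]
        simp only [mul_assoc]
    _ = (π v⁻¹ * (π v * x * π v⁻¹)) * m S * π v := by rw [h1]; simp only [mul_assoc]
    _ = x * (π v⁻¹ * m S * π v) := by rw [h3]; simp only [mul_assoc]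

/-- **The trace bound before the limit.** -/
theorem preF (hP : PicF π lam W Ω) (hM : MsrF lam W Ω m) {S S' : Set Γ} {N : ℕ}
    (hN : ∀ η : Γ, {γ : Γ | γ ∈ S ∧ γ * η ∈ S'}.encard ≤ N) (v w : G) :
    TRNF lam Ω (Pt m (fun g => π g) v S * Pt m (fun g => π g) w S') ≤ N := by
  have hcm := cmF_Pt P hP hM
  have hcm2 : Cm W (Pt m (fun g => π g) v S * Pt m (fun g => π g) w S') := fun x hx => by
    rw [mul_assoc, hcm w S' x hx, ← mul_assoc, hcm v S x hx, mul_assoc]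
  have h1 := hP.tr_adj _ hcm2
  have h2 : adjoint (Pt m (fun g => π g) v S * Pt m (fun g => π g) w S') =
      Pt m (fun g => π g) w S' * Pt m (fun g => π g) v S := by
    rw [H242.Hat.adj_mul, P.adj_Pt, P.adj_Pt]
  rw [h2] at h1
  rw [← h1]
  have hcm3 : Cm W (Pt m (fun g => π g) w S' * Pt m (fun g => π g) v S) := fun x hx => by
    rw [mul_assoc, hcm v S x hx, ← mul_assoc, hcm w S' x hx, mul_assoc]
  rw [← hP.tr_conj _ hcm3 v]
  have hinv : π v * π v⁻¹ = 1 := by rw [← map_mul, mul_inv_cancel, map_one]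
  have h3 : π v * (Pt m (fun g => π g) w S' * Pt m (fun g => π g) v S) * π v⁻¹ =
      π v * π w⁻¹ * (m S' * ((π w * π v⁻¹) * m S)) := by
    show π v * (π w⁻¹ * m S' * π w * (π v⁻¹ * m S * π v)) * π v⁻¹ = _
    calc _ = π v * π w⁻¹ * (m S' * ((π w * π v⁻¹) * m S)) * (π v * π v⁻¹) := by
          simp only [mul_assoc]
      _ = _ := by rw [hinv, mul_one]
  rw [h3]
  obtain ⟨u, hu⟩ : ∃ u : K →L[ℂ] K, u = π w * π v⁻¹ := ⟨_, rfl⟩
  have hul : ∀ γ, u * lam γ = lam γ * u := by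
    intro γ
    rw [hu, mul_assoc, hP.comm, ← mul_assoc, hP.comm, mul_assoc]
  have hun : ∀ ξ, ‖u ξ‖ ≤ ‖ξ‖ := by
    intro ξ
    rw [hu]
    exact (P.norm_R_apply w _).trans (P.norm_R_apply v⁻¹ _)
  rw [← hu]
  -- contraction on the left, one vector
  have h4 : ∀ i, TRN lam (Ω i) (π v * π w⁻¹ * (m S' * (u * m S))) ≤ N * ‖Ω i‖ₑ ^ 2 := by
    intro i
    have e1 : TRN lam (Ω i) (π v * π w⁻¹ * (m S' * (u * m S))) ≤
        TRN lam (Ω i) (m S' * (u * m S)) := by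
      refine ENNReal.tsum_le_tsum fun γ => pow_le_pow_left' ?_ 2
      rw [← ofReal_norm, ← ofReal_norm]
      refine ENNReal.ofReal_le_ofReal ?_
      exact (P.norm_R_apply v _).trans (P.norm_R_apply w⁻¹ _)
    refine e1.trans ((num1 P hM.sig hN hul (hM.om i)).trans (mul_le_mul_right ?_ _))
    refine pow_le_pow_left' ?_ 2
    rw [← ofReal_norm, ← ofReal_norm]
    exact ENNReal.ofReal_le_ofReal (hun _)
  have h6 : TRNF lam Ω (π v * π w⁻¹ * (m S' * (u * m S))) ≤ ∑ i, (N : ℝ≥0∞) * ‖Ω i‖ₑ ^ 2 :=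
    Finset.sum_le_sum fun i _ => h4 i
  refine h6.trans (le_of_eq ?_)
  rw [← Finset.mul_sum]
  have h7 : ∑ i, ‖Ω i‖ₑ ^ 2 = ENNReal.ofReal (∑ i, ‖Ω i‖ ^ 2) := by
    rw [ENNReal.ofReal_sum_of_nonneg fun _ _ => by positivity]
    exact Finset.sum_congr rfl fun i _ => (ofReal_sq _).symm
  rw [h7, hP.nΩ, ENNReal.ofReal_one, mul_one]

theorem cmF_iE (hP : PicF π lam W Ω) (hM : MsrF lam W Ω m) (hu : Ur (π.comp ρ))
    {𝒰 : Ultrafilter ℕ} (b : G) (S : Set Γ) :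
    Cm W (iav hu μ (Eh m (fun g => π g) 𝒰 b S)) := by
  have h0 : ∀ w ∈ W, Eh m (fun g => π g) 𝒰 b S * w = w * Eh m (fun g => π g) 𝒰 b S := by
    intro w hw
    exact (P.Eh_comm fun t => (cmF_Pt P hP hM (b ^ t) S w hw).symm).symm
  intro w hw
  symm
  refine iav_comm hu fun l => ?_
  show w * (π (ρ l) * Eh m (fun g => π g) 𝒰 b S * π (ρ l⁻¹)) =
    π (ρ l) * Eh m (fun g => π g) 𝒰 b S * π (ρ l⁻¹) * w
  obtain ⟨f, hf⟩ : ∃ f, f = ρ l := ⟨_, rfl⟩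
  obtain ⟨A, hA⟩ : ∃ A, A = Eh m (fun g => π g) 𝒰 b S := ⟨_, rfl⟩
  rw [map_inv, ← hf, ← hA]
  rw [← hA] at h0
  have h1 := h0 (π f⁻¹ * w * π f) (by simpa using hP.WP w hw f⁻¹)
  have h2 : π f * π f⁻¹ = 1 := by rw [← map_mul, mul_inv_cancel, map_one]
  symm
  calc π f * A * π f⁻¹ * w = π f * A * π f⁻¹ * w * (π f * π f⁻¹) := by rw [h2, mul_one]
    _ = π f * (A * (π f⁻¹ * w * π f)) * π f⁻¹ := by simp only [mul_assoc]
    _ = π f * (π f⁻¹ * w * π f * A) * π f⁻¹ := by rw [h1]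
    _ = (π f * π f⁻¹) * w * (π f * A * π f⁻¹) := by simp only [mul_assoc]
    _ = w * (π f * A * π f⁻¹) := by rw [h2, one_mul]

/-- **Trace bound for the Haar averages, all amplifications.** -/
theorem iE_tbF (hP : PicF π lam W Ω) (hM : MsrF lam W Ω m) (hu : Ur (π.comp ρ))
    {𝒰 : Ultrafilter ℕ} (hU : (𝒰 : Filter ℕ) ≤ atTop) (b : G) {S S' : Set Γ} {N : ℕ}
    (hN : ∀ η : Γ, {γ : Γ | γ ∈ S ∧ γ * η ∈ S'}.encard ≤ N) (g : G) :
    TRNF lam Ω (π g * iav hu μ (Eh m (fun g => π g) 𝒰 b S') * π g⁻¹ *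
      iav hu μ (Eh m (fun g => π g) 𝒰 b S)) ≤ N := by
  have hadj : adjoint (iav hu μ (Eh m (fun g => π g) 𝒰 b S)) =
      iav hu μ (Eh m (fun g => π g) 𝒰 b S) := by rw [adj_iav, P.Eh_adj]
  have h := tb_absF hP (domJ_iE (J := ι × Γ) (μ := μ) P hu hU b S)
    (domJ_conj P (domJ_iE (J := ι × Γ) (μ := μ) P hu hU b S') g)
    (cmF_iE (μ := μ) P hP hM hu b S) hadj (N := (N : ℝ≥0∞)) ?_ ?_
  · simpa using h
  · rintro _ ⟨v, rfl⟩
    exact ⟨cmF_Pt P hP hM _ _, P.adj_Pt _ _⟩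
  · rintro _ ⟨v, rfl⟩ _ ⟨v', rfl⟩
    exact preF P hP hM hN _ _

end conj

end Vale.Agent.P092.H448.TF
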