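import Vale.Agent.P092.H448.TF1

/-! # [T-HAT] The field `hat` at all amplifications: `RC.HatF` for the Haar average
`a h = ∫_L π(l) Ê(CN h) π(l)⁻¹ dl` (the proofs of `H242/Hat4.lean` with a finite family of vectors)
together with the trace bound. -/

set_option linter.all false

open scoped InnerProductSpace ENNReal Pointwise
open Filter Topology ContinuousLinearMap TopologicalSpace MeasureTheory

namespace Vale.Agent.P092.H448.TF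

open Vale.Agent.P092.H242.Ces Vale.Agent.P092.H820 Vale.Agent.P092.RC Vale.Agent.P092.H242.Avg
open Vale.Agent.P092.H242.Hat
open Vale.Agent.P092.H448.Trb

variable {G Γ Y G₀ K L ι : Type} [Group G] [TopologicalSpace G] [Group Γ] [TopologicalSpace Y]
  [MulAction G Y] [ContinuousConstSMul G Y] [Group G₀] [TopologicalSpace G₀]
  [NormedAddCommGroup K] [InnerProductSpace ℂ K] [CompleteSpace K] [Fintype ι]
  [Group L] [TopologicalSpace L] [IsTopologicalGroup L] [CompactSpace L]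
  [MeasurableSpace L] [BorelSpace L]
  {π : G →* (K →L[ℂ] K)} {lam : Γ →* (K →L[ℂ] K)} {W W' : Set (K →L[ℂ] K)} {Ω : ι → K}
  {q : Γ →* G} {c : G → Y → G₀} {y₀ : Y} {E : Clopens Y → (K →L[ℂ] K)} {U : Subgroup G₀}
  {m : Set Γ → (K →L[ℂ] K)} {𝒰 : Ultrafilter ℕ} {b : G} {Bs : Clopens Y → Set Γ}
  {CN : G₀ → Set Γ} {ρ : L →* G} {μ : Measure L} [IsProbabilityMeasure μ] {N : Set G}

theorem hpo (A : Clopens Y) (ξ : K) : Tendsto (fun t : ℕ =>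
    ((fun g => π g) 1 * m (Bs A) - m (Bs A) * (fun g => π g) 1) ((fun g => π g) (b ^ t) ξ))
    atTop (𝓝 0) := by
  have : (fun g => π g) 1 = (1 : K →L[ℂ] K) := map_one π
  rw [this, one_mul, mul_one, sub_self]
  simp

section main

variable (P : Pic (fun γ => lam γ) m (fun g => π g)) (hU : (𝒰 : Filter ℕ) ≤ atTop)
  (hG : CG m π b q c U Bs CN)
  (hlim : ∀ A ξ, Tendsto (fun t : ℕ => Pt m (fun g => π g) (b ^ t) (Bs A) ξ) atTop (𝓝 (E A ξ)))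
  (hu : Ur (π.comp ρ)) (hρy : ∀ l, ρ l • y₀ = y₀)

include P hU hlim hρy in
theorem ihat_mulF (hE : RC.Lim π lam W q y₀ E) (S : Set Γ) (C : Clopens Y) :
    iE hu μ m 𝒰 b S * E C = iE hu μ m 𝒰 b (S ∩ Bs C) := by
  rw [iE, iE, iav_mul hu fun l => hE.par (ρ l) (hρy l) C,
    P.Eh_mul (U := 𝒰) (S := S) hU (hlim C) (hpo C)]

include P hU hlim hρy in
theorem mul_ihatF (hE : RC.Lim π lam W q y₀ E) (S : Set Γ) (C : Clopens Y) :
    E C * iE hu μ m 𝒰 b S = iE hu μ m 𝒰 b (S ∩ Bs C) := by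
  rw [iE, iE, iav_mul' hu fun l => hE.par (ρ l) (hρy l) C,
    P.Eh_mul' (U := 𝒰) (S := S) hU (hlim C) (hpo C)]

include P in
theorem iE_normF (S : Set Γ) : ‖iE hu μ m 𝒰 b S‖ ≤ 1 :=
  (norm_iav_le hu _).trans (P.norm_Eh S)

include P in
theorem iE_adjF (S : Set Γ) : adjoint (iE hu μ m 𝒰 b S) = iE hu μ m 𝒰 b S := by
  rw [iE, adj_iav, P.Eh_adj]

include P hU in
theorem iE_congrF {S T : Set Γ} (h : Eqn m (fun g => π g) b S T) :
    iE hu μ m 𝒰 b S = iE hu μ m 𝒰 b T := by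
  rw [iE, iE, P.Eh_congr hU h.1 h.2]

include P in
theorem iE_lamF (γ : Γ) (S : Set Γ) :
    lam γ * iE hu μ m 𝒰 b S * lam γ⁻¹ = iE hu μ m 𝒰 b (γ • S) := by
  have hc : ∀ (γ : Γ) (l : L), (π.comp ρ) l * lam γ = lam γ * (π.comp ρ) l :=
    fun γ l => (P.lx_R γ (ρ l)).symm
  have h6 := P.Eh_lx (U := 𝒰) (b := b) γ S
  rw [iE, iE, iav_mul' hu (hc γ), iav_mul hu (hc γ⁻¹), h6]

include P hU in
theorem iE_posF (S : Set Γ) : 0 ≤ iE hu μ m 𝒰 b S := by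
  refine iav_nonneg hu ?_
  have := hat_pos (CN := fun _ : Unit => S) (b := b) P hU ()
  exact this

include P hU hG hlim hρy

theorem ihat_resF [μ.IsMulLeftInvariant] (hE : RC.Lim π lam W q y₀ E)
    (hx : RC.Ext π lam W W' y₀ E)
    (hW' : ∀ w ∈ W', ∀ S, w * Eh m (fun g => π g) 𝒰 b S = Eh m (fun g => π g) 𝒰 b S * w)
    (hbL : ∀ l, ρ l * b = b * ρ l)
    (hN : ∀ n ∈ N, ∀ S, π n * Eh m (fun g => π g) 𝒰 b S = Eh m (fun g => π g) 𝒰 b S * π n)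
    (hNL : ∀ n ∈ N, ∀ l, (ρ l)⁻¹ * n * ρ l ∈ N)
    (hrad : ∀ r : G, r • y₀ = y₀ → c r y₀ = 1 → ∃ l : L, ∃ j : ℤ, ∃ n ∈ N,
      r = ρ l * b ^ j * n) :
    RC.Res π lam W' q c y₀ E U (ihat hu μ m 𝒰 b CN) where
  bdd := ⟨1, fun h => iE_normF P hu _⟩
  rinv h u hu' := iE_congrF P hU hu (hG.inv h u hu')
  cm h w hw := by
    symm
    refine iav_comm hu fun l => ?_
    show w * (π (ρ l) * Eh m (fun g => π g) 𝒰 b (CN h) * π (ρ l⁻¹)) =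
      π (ρ l) * Eh m (fun g => π g) 𝒰 b (CN h) * π (ρ l⁻¹) * w
    have h2 : (ρ l)⁻¹ • y₀ = y₀ := inv_smul_eq_iff.mpr (hρy l).symm
    have h3 := hW' _ (hx.par w hw (ρ l)⁻¹ h2) (CN h)
    rw [inv_inv] at h3
    obtain ⟨A, hA⟩ : ∃ A, A = Eh m (fun g => π g) 𝒰 b (CN h) := ⟨_, rfl⟩
    rw [← hA] at h3 ⊢
    rw [map_inv]
    have e1 : π (ρ l) * π (ρ l)⁻¹ = 1 := pi_inv' _
    calc w * (π (ρ l) * A * π (ρ l)⁻¹) = (π (ρ l) * π (ρ l)⁻¹) * w * π (ρ l) * A * π (ρ l)⁻¹ := by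
          rw [e1]; simp only [mul_assoc, one_mul]
      _ = π (ρ l) * (π (ρ l)⁻¹ * w * π (ρ l) * A) * π (ρ l)⁻¹ := by simp only [mul_assoc]
      _ = π (ρ l) * (A * (π (ρ l)⁻¹ * w * π (ρ l))) * π (ρ l)⁻¹ := by rw [h3]
      _ = π (ρ l) * A * π (ρ l)⁻¹ * w * (π (ρ l) * π (ρ l)⁻¹) := by simp only [mul_assoc]
      _ = _ := by rw [e1, mul_one]
  rad r hr hc h := by
    obtain ⟨l, j, n, hn, rfl⟩ := hrad r hr hc
    obtain ⟨A, hA⟩ : ∃ A, A = ihat hu μ m 𝒰 b CN h := ⟨_, rfl⟩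
    have h1 : π (ρ l) * A = A * π (ρ l) := by rw [hA]; exact comm_l hu _ l
    have h2 : π (b ^ j) * A = A * π (b ^ j) := by
      rw [hA]; exact comm_bz hu P hU hbL _ j
    have h3 : π n * A = A * π n := by rw [hA]; exact comm_n hu hN hNL hn _
    rw [← hA]
    rw [map_mul, map_mul]
    calc π (ρ l) * π (b ^ j) * π n * A = π (ρ l) * π (b ^ j) * (π n * A) := by
          simp only [mul_assoc]
      _ = π (ρ l) * (π (b ^ j) * A) * π n := by rw [h3]; simp only [mul_assoc]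
      _ = (π (ρ l) * A) * π (b ^ j) * π n := by rw [h2]; simp only [mul_assoc]
      _ = _ := by rw [h1]; simp only [mul_assoc]
  cE h C := by
    rw [ihat, ihat_mulF P hU hlim hu hρy hE, mul_ihatF P hU hlim hu hρy hE]
  eqv γ h h' C hC := by
    rw [ihat, ihat, ihat_mulF P hU hlim hu hρy hE, ihat_mulF P hU hlim hu hρy hE,
      iE_lamF P hu]
    exact iE_congrF P hU hu (hG.eqv γ h h' C hC)

omit hG hlim hρy in
theorem ihat_neF [μ.IsOpenPosMeasure] {T : Set Γ} {H : Finset G₀}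
    (hT : Nul m (fun g => π g) b (T \ ⋃ h ∈ H, CN h)) {ξ : K} {δ : ℝ} (hδ : 0 < δ)
    (hmass : ∀ᶠ t : ℕ in atTop, δ ≤ ‖m T (π (b ^ t) ξ)‖ ^ 2) :
    ihat hu μ m 𝒰 b CN ≠ 0 := by
  intro h0
  obtain ⟨h, hh, hne⟩ := hat_ne (CN := CN) P hU hT hδ hmass
  have h1 := iav_ne (μ := μ) hu (hat_pos (CN := CN) (b := b) P hU h) hne
  exact h1 (congrFun h0 h)

omit hlim hρy in
theorem ihat_sumF (H : Finset G₀) (hH : ∀ h ∈ H, ∀ h' ∈ H, h ≠ h' → h⁻¹ * h' ∉ U) :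
    ∑ h ∈ H, ihat hu μ m 𝒰 b CN h ≤ 1 := by
  have h1 : ∑ h ∈ H, hat m (fun g => π g) 𝒰 b CN h ≤ 1 := by
    rw [← sub_nonneg, ContinuousLinearMap.nonneg_iff_isPositive,
      ContinuousLinearMap.isPositive_def']
    refine ⟨?_, fun ξ => ?_⟩
    · rw [IsSelfAdjoint, star_sub, star_one, star_sum]
      congr 1
      refine Finset.sum_congr rfl fun g _ => ?_
      rw [star_eq_adjoint, hat_adj P hU]
    · rw [ContinuousLinearMap.reApplyInnerSelf_apply]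
      have h1 := P.Eh_sum_le (b := b) hU H (S := CN)
        (fun g hg g' hg' hne => hG.disj g g' (hH g hg g' hg' hne)) ξ
      have h2 : (⟪ξ, (1 - ∑ g ∈ H, hat m (fun g => π g) 𝒰 b CN g) ξ⟫_ℂ).re =
          ‖ξ‖ ^ 2 - ∑ g ∈ H, (⟪ξ, hat m (fun g => π g) 𝒰 b CN g ξ⟫_ℂ).re := by
        rw [ContinuousLinearMap.sub_apply, inner_sub_right, Complex.sub_re,
          ContinuousLinearMap.sum_apply, inner_sum, Complex.re_sum]
        congr 1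
        rw [ContinuousLinearMap.one_apply, inner_self_eq_norm_sq_to_K]
        norm_cast
      have h3 : 0 ≤ (⟪ξ, (1 - ∑ g ∈ H, hat m (fun g => π g) 𝒰 b CN g) ξ⟫_ℂ).re := by
        rw [h2]
        exact sub_nonneg.mpr h1
      rw [H242.Hat.re_symm] at h3
      exact h3
  have h2 := iav_le_one (μ := μ) hu h1
  rw [iav_sum] at h2
  exact h2

omit P in
/-- **C-HAT at all amplifications**, all fields of `RC.HatF`; the trace bound is a hypothesis. -/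
theorem hatF_of' (hP : PicF π lam W Ω) (hm : MS lam m) [μ.IsMulLeftInvariant] [μ.IsOpenPosMeasure] (hco : SR.COS U)
    (hE : RC.Lim π lam W q y₀ E) (hx : RC.Ext π lam W W' y₀ E)
    (hW' : ∀ w ∈ W', ∀ S, w * Eh m (fun g => π g) 𝒰 b S = Eh m (fun g => π g) 𝒰 b S * w)
    (hbL : ∀ l, ρ l * b = b * ρ l)
    (hN : ∀ n ∈ N, ∀ S, π n * Eh m (fun g => π g) 𝒰 b S = Eh m (fun g => π g) 𝒰 b S * π n)
    (hNL : ∀ n ∈ N, ∀ l, (ρ l)⁻¹ * n * ρ l ∈ N)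
    (hrad : ∀ r : G, r • y₀ = y₀ → c r y₀ = 1 → ∃ l : L, ∃ j : ℤ, ∃ n ∈ N,
      r = ρ l * b ^ j * n)
    {V : Subgroup G} (hV : IsOpen (V : Set G))
    (hVM : ∀ p ∈ V, p • y₀ = y₀ → ∃ l : L, ∃ n ∈ N, p = ρ l * n)
    {T : Set Γ} {H : Finset G₀} (hT : Nul m (fun g => π g) b (T \ ⋃ h ∈ H, CN h)) {ξ : K} {δ : ℝ}
    (hδ : 0 < δ) (hmass : ∀ᶠ t : ℕ in atTop, δ ≤ ‖m T (π (b ^ t) ξ)‖ ^ 2)
    (htb : ∀ g : G, g • y₀ ≠ y₀ → ∀ C C' : Clopens Y, Disjoint C C' → ∀ h h' : G₀,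
      TRNF lam Ω (π g * (ihat hu μ m 𝒰 b CN h' * E C') * π g⁻¹ *
        (ihat hu μ m 𝒰 b CN h * E C)) < ⊤) :
    RC.HatF π lam W' Ω q c y₀ E U (ihat hu μ m 𝒰 b CN) where
  cos := hco
  res := ihat_resF (picF_of hP hm) hU hG hlim hu hρy hE hx hW' hbL hN hNL hrad
  pos := fun h => iE_posF (picF_of hP hm) hU hu _
  ne := ihat_neF (picF_of hP hm) hU hu hT hδ hmass
  sum := ihat_sumF (picF_of hP hm) hU hG hu
  smooth := by
    refine ⟨V, hV, fun p hp hpy h => ?_⟩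
    obtain ⟨l, n, hn, rfl⟩ := hVM p hp hpy
    obtain ⟨A, hA⟩ : ∃ A, A = ihat hu μ m 𝒰 b CN h := ⟨_, rfl⟩
    have h1 : π (ρ l) * A = A * π (ρ l) := by rw [hA]; exact comm_l hu _ l
    have h3 : π n * A = A * π n := by rw [hA]; exact comm_n hu hN hNL hn _
    rw [← hA, map_mul, mul_assoc, h3, ← mul_assoc, h1, mul_assoc]
  tb := htb


omit P hG in
/-- **The hypothesis `htb` of `hatF_of'`**.  The sets `CN h ∩ Bs C` may be changed by null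
sets. -/
theorem ihat_tbF (hP : PicF π lam W Ω) (hm : MS lam m) (hM : MsrF lam W Ω m)
    (hE : RC.Lim π lam W q y₀ E)
    (hcount : ∀ C C' : Clopens Y, Disjoint C C' → ∀ h h' : G₀, ∃ (S S' : Set Γ) (N : ℕ),
      Eqn m (fun g => π g) b (CN h ∩ Bs C) S ∧ Eqn m (fun g => π g) b (CN h' ∩ Bs C') S' ∧
      ∀ η : Γ, {γ : Γ | γ ∈ S ∧ γ * η ∈ S'}.encard ≤ N) :
    ∀ g : G, g • y₀ ≠ y₀ → ∀ C C' : Clopens Y, Disjoint C C' → ∀ h h' : G₀,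
      TRNF lam Ω (π g * (ihat hu μ m 𝒰 b CN h' * E C') * π g⁻¹ * (ihat hu μ m 𝒰 b CN h * E C)) <
        ⊤ := by
  intro g _ C C' hd h h'
  obtain ⟨S, S', N, h1, h2, hN⟩ := hcount C C' hd h h'
  have h0 : ∀ (h : G₀) (C : Clopens Y) (S : Set Γ), Eqn m (fun g => π g) b (CN h ∩ Bs C) S →
      ihat hu μ m 𝒰 b CN h * E C = iE hu μ m 𝒰 b S := by
    intro h C S hS
    rw [ihat, ihat_mulF (picF_of hP hm) hU hlim hu hρy hE]
    exact iE_congrF (picF_of hP hm) hU hu hS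
  rw [h0 h C S h1, h0 h' C' S' h2]
  exact (iE_tbF (picF_of hP hm) hP hM hu hU b hN g).trans_lt (ENNReal.natCast_lt_top N)

omit P in
/-- **[T-HAT]** the field `hat` at all amplifications, with the trace bound. -/
theorem hatF_of (hP : PicF π lam W Ω) (hm : MS lam m) (hM : MsrF lam W Ω m)
    [μ.IsMulLeftInvariant] [μ.IsOpenPosMeasure] (hco : SR.COS U)
    (hE : RC.Lim π lam W q y₀ E) (hx : RC.Ext π lam W W' y₀ E)
    (hW' : ∀ w ∈ W', ∀ S, w * Eh m (fun g => π g) 𝒰 b S = Eh m (fun g => π g) 𝒰 b S * w)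
    (hbL : ∀ l, ρ l * b = b * ρ l)
    (hN : ∀ n ∈ N, ∀ S, π n * Eh m (fun g => π g) 𝒰 b S = Eh m (fun g => π g) 𝒰 b S * π n)
    (hNL : ∀ n ∈ N, ∀ l, (ρ l)⁻¹ * n * ρ l ∈ N)
    (hrad : ∀ r : G, r • y₀ = y₀ → c r y₀ = 1 → ∃ l : L, ∃ j : ℤ, ∃ n ∈ N,
      r = ρ l * b ^ j * n)
    {V : Subgroup G} (hV : IsOpen (V : Set G))
    (hVM : ∀ p ∈ V, p • y₀ = y₀ → ∃ l : L, ∃ n ∈ N, p = ρ l * n)
    {T : Set Γ} {H : Finset G₀} (hT : Nul m (fun g => π g) b (T \ ⋃ h ∈ H, CN h)) {ξ : K} {δ : ℝ}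
    (hδ : 0 < δ) (hmass : ∀ᶠ t : ℕ in atTop, δ ≤ ‖m T (π (b ^ t) ξ)‖ ^ 2)
    (hcount : ∀ C C' : Clopens Y, Disjoint C C' → ∀ h h' : G₀, ∃ (S S' : Set Γ) (N : ℕ),
      Eqn m (fun g => π g) b (CN h ∩ Bs C) S ∧ Eqn m (fun g => π g) b (CN h' ∩ Bs C') S' ∧
      ∀ η : Γ, {γ : Γ | γ ∈ S ∧ γ * η ∈ S'}.encard ≤ N) :
    RC.HatF π lam W' Ω q c y₀ E U (ihat hu μ m 𝒰 b CN) :=
  hatF_of' hU hG hlim hu hρy hP hm hco hE hx hW' hbL hN hNL hrad hV hVM hT hδ hmass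
    (ihat_tbF hU hlim hu hρy hP hm hM hE hcount)

end main

end Vale.Agent.P092.H448.TF
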