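import Vale.Agent.P092.H448.TF2
import Vale.Agent.P092.H448.TrJ
import Vale.Agent.P092.H264.GrpC
import Vale.Agent.P092.H242.ConeH
import Vale.Agent.P092.H978.LimC

/-! # [T-HAT] The field `hat` at all amplifications for `SL_(m+1)(k)`: everything but the model. -/

set_option linter.all false

open scoped InnerProductSpace ENNReal Pointwise
open Filter Topology ContinuousLinearMap TopologicalSpace MeasureTheory

namespace Vale.Agent.P092.H448.TF

open Vale.Agent.P092.RC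
open Vale.Agent.P092.H242.Hat
open Vale.Agent.P092.H242.Avg
open Vale.Agent.P092.H242.ConeG
open Vale.Agent.P092.H242.Sct (tg cos_UU UU)
open Vale.Agent.P092.H575 (g1 g2 bp)
open Vale.Agent.P092.H448.Trb
open Vale.Agent.P092.H264.GrpC

section main

variable {k : Type} [NontriviallyNormedField k] [ProperSpace k] [IsUltrametricDist k] {m : ℕ}
  [ContinuousConstSMul (GG k m) (YY k m)] {Γ K ι : Type} [Group Γ] [NormedAddCommGroup K]
  [InnerProductSpace ℂ K] [CompleteSpace K] [Fintype ι] {π : GG k m →* (K →L[ℂ] K)}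
  {lam : Γ →* (K →L[ℂ] K)} {W W' : Set (K →L[ℂ] K)} {Ω : ι → K} {ms : Set Γ → (K →L[ℂ] K)}
  {q : Γ →* GG k m} {E : Clopens (YY k m) → (K →L[ℂ] K)} {w : k}

/-- **The field `hat`, everything but the model.** -/
theorem hatF_geo (hm : 2 ≤ m) (hq : Emb q) (hP : PicF π lam W Ω) (hms : MS lam ms)
    (hM : MsrF lam W Ω ms) (hw : w ≠ 0) (hw1 : ‖w‖ < 1)
    (hun : ∀ s : k, s ≠ 0 → ∃ j : ℤ, ‖s‖ = ‖w‖ ^ j)
    (hE : RC.Lim π lam W q y0 E)
    (hlim : ∀ (A : Clopens (YY k m)) ξ, Tendsto (fun t : ℕ => Pt ms (fun g => π g) (bb m hw ^ t)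
      (Bq q (fun γ => g1 (q γ).1) (fun γ => g2 (q γ).1) (A : Set (YY k m))) ξ) atTop
      (𝓝 (E A ξ)))
    (hnul : ∀ γ : Γ, Nul ms (fun g => π g) (bb m hw) {γ})
    (hslow : ∀ (u : ℕ → GG k m), Tendsto u atTop (𝓝 1) → ∀ S ξ, Tendsto (fun t : ℕ =>
      (π (u t) * ms S - ms S * π (u t)) (π (bb m hw ^ t) ξ)) atTop (𝓝 0))
    {ξ : K} {r δ : ℝ} (hδ : 0 < δ)
    (hmass : ∀ᶠ t : ℕ in atTop, δ ≤ ‖ms {γ | g2 (q γ).1 ≤ r} (π (bb m hw ^ t) ξ)‖ ^ 2)
    (hx : RC.Ext π lam W W' y0 E)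
    (hW' : ∀ 𝒰 : Ultrafilter ℕ, (𝒰 : Filter ℕ) ≤ atTop → ∀ w' ∈ W', ∀ S,
      w' * Eh ms (fun g => π g) 𝒰 (bb m hw) S = Eh ms (fun g => π g) 𝒰 (bb m hw) S * w') :
    ∃ U a, RC.HatF π lam W' Ω q cc y0 E U a := by
  have P := picF_of hP hms
  have hd := dsc_of hq
  have hm1 : 1 < m + 1 := by omega
  -- the ultrafilter
  obtain ⟨𝒰, hU⟩ : ∃ 𝒰 : Ultrafilter ℕ, (𝒰 : Filter ℕ) ≤ atTop := ⟨Ultrafilter.of atTop,
    Ultrafilter.of_le atTop⟩
  -- the compact group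
  haveI hLc : CompactSpace (L m hw) := isCompact_iff_compactSpace.1 (isCompact_L hw)
  letI : MeasurableSpace (L m hw) := borel _
  haveI : BorelSpace (L m hw) := ⟨rfl⟩
  set μ : Measure (L m hw) := Measure.haarMeasure ⊤ with hμ
  haveI : IsProbabilityMeasure μ := ⟨by
    have := Measure.haarMeasure_self (K₀ := (⊤ : PositiveCompacts (L m hw)))
    exact this⟩
  have hρ : Continuous (L m hw).subtype := continuous_subtype_val
  have hu := urF_of (ρ := (L m hw).subtype) hP hρ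
  -- the cover
  obtain ⟨H, hH⟩ := wall_cover (q := q) hd (hm1 := hm1) (G2 := fun γ => g2 (q γ).1) (r := r)
    (hG2_inv (hm1 := hm1) r)
  refine ⟨UU k m, _, hatF_of (N := (N k m : Set (GG k m))) (V := V k m) (μ := μ) hU
    (cg_of P hnul hd hm (hm1 := hm1) hG1_g1 hG2_g2) hlim hu (fun l => L_y0 hw hw1 l.2) hP hms hM
    cos_UU hE hx (hW' 𝒰 hU) (fun l => L_b hw l.2)
    (fun n hn S => comm_contract P hU hslow (N_tendsto hw hw1 hn) S)
    (fun n hn l => N_L hw hw1 hn l.2) ?_ isOpen_V ?_ (P.nul_finite hnul hH) hδ hmass ?_⟩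
  · intro r hr hc
    obtain ⟨l, hl, j, n, hn, e⟩ := G3 hw hw1 hun hr hc
    exact ⟨⟨l, hl⟩, j, n, hn, e⟩
  · intro p hp hpy
    obtain ⟨l, hl, n, hn, e⟩ := G4 hw hw1 hp hpy
    exact ⟨⟨l, hl⟩, n, hn, e⟩
  · intro C C' hCC h h'
    obtain ⟨N, hN⟩ := count_inst hm hq (C := (C : Set (YY k m))) (C' := (C' : Set (YY k m)))
      C.isClopen.isClosed C'.isClopen.isClosed (by
        rw [Set.disjoint_left]
        intro y h1 h2
        exact (Clopens.coe_disjoint.2 hCC).le_bot ⟨h1, h2⟩) h.out h'.out (T := 1) (T' := 1) le_rfl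
        le_rfl
    refine ⟨Cn q (CSt h.out C), Cn q (CSt h'.out C'), N, ?_, ?_, hN⟩
    · exact eqn_of_fq P hnul (fq_base (hG1_g1 (hm1 := hm1)) (hG2_g2 (hm1 := hm1)) hd C.isClopen
        h.out)
    · exact eqn_of_fq P hnul (fq_base (hG1_g1 (hm1 := hm1)) (hG2_g2 (hm1 := hm1)) hd C'.isClopen
        h'.out)

end main

end Vale.Agent.P092.H448.TF
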