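import Vale.Agent.P092.H448.TF4

/-! # [T-HAT] The case of one vector (`t = 1`): `RC.Hat` from the output of the engine. -/

set_option linter.all false

open scoped InnerProductSpace ENNReal Pointwise
open Filter Topology ContinuousLinearMap TopologicalSpace MeasureTheory

namespace Vale.Agent.P092.H448.TF

open Vale.Agent.P092.RC
open Vale.Agent.P092.H242.Hat
open Vale.Agent.P092.H242.ConeG
open Vale.Agent.P092.H242.Sct (tg cos_UU UU)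
open Vale.Agent.P092.H575 (g1 g2 bp)
open Vale.Agent.P092.H448.Trb
open Vale.Agent.P092.H264.GrpC
open Vale.Agent.P092.H859.CL (Fn st EngOut Slow Esc pw cn)
open Vale.Agent.P092.H978.LimC (ci app_eng)

section one

variable {G Γ Y G₀ K : Type} [Group G] [TopologicalSpace G] [Group Γ] [TopologicalSpace Y]
  [MulAction G Y] [ContinuousConstSMul G Y] [Group G₀] [TopologicalSpace G₀]
  [NormedAddCommGroup K] [InnerProductSpace ℂ K] [CompleteSpace K]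
  {π : G →* (K →L[ℂ] K)} {lam : Γ →* (K →L[ℂ] K)} {W : Set (K →L[ℂ] K)} {Ω : K}
  {q : Γ →* G} {c : G → Y → G₀} {y₀ : Y} {E : Clopens Y → (K →L[ℂ] K)} {U : Subgroup G₀}
  {a : G₀ → (K →L[ℂ] K)} {m : Set Γ → (K →L[ℂ] K)}

theorem trnf_one (T : K →L[ℂ] K) : TRNF lam (fun _ : Unit => Ω) T = TRN lam Ω T := by
  rw [TRNF, Fintype.sum_unique]

theorem picF_one (h : RC.Pic π lam W Ω) : PicF π lam W (fun _ : Unit => Ω) where
  adjP := h.adjP
  contP := h.contP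
  adjL := h.adjL
  comm := h.comm
  Wadj := h.Wadj
  WP := h.WP
  WL := h.WL
  nΩ := by rw [Fintype.sum_unique, h.nΩ, one_pow]
  erg := h.erg
  tr_adj T hT := by rw [trnf_one, trnf_one, h.tr_adj T hT]
  tr_conj T hT g := by rw [trnf_one, trnf_one, h.tr_conj T hT g]
  tr_zero T hT h0 := h.tr_zero T hT (by rwa [trnf_one] at h0)
  hs_erg S hS T hT hf := h.hs_erg S hS T hT (by rwa [trnf_one] at hf)
  inv := ⟨1, fun _ => Ω, by rw [Fin.sum_univ_one, h.nΩ, one_pow], fun T hT hp γ => by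
    rw [Fin.sum_univ_one, Fin.sum_univ_one]; exact h.inv T hT hp γ⟩

theorem hat_one (h : HatF π lam W (fun _ : Unit => Ω) q c y₀ E U a) :
    RC.Hat π lam W Ω q c y₀ E U a where
  cos := h.cos
  res := h.res
  pos := h.pos
  ne := h.ne
  sum := h.sum
  smooth := h.smooth
  tb g hg C C' hC g₁ g₂ := by
    have h1 := h.tb g hg C C' hC g₁ g₂
    rwa [trnf_one] at h1

theorem msrF_one (h : Msr lam W Ω m) : MsrF lam W (fun _ : Unit => Ω) m :=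
  ⟨h.cm, fun _ => h.om, h.sig⟩

end one

section fin

variable {k : Type} [NontriviallyNormedField k] [ProperSpace k] [IsUltrametricDist k] {m : ℕ}
  [ContinuousConstSMul (GG k m) (YY k m)] {Γ K : Type} [Group Γ]
  [NormedAddCommGroup K] [InnerProductSpace ℂ K] [CompleteSpace K] {π : GG k m →* (K →L[ℂ] K)}
  {lam : Γ →* (K →L[ℂ] K)} {W W' : Set (K →L[ℂ] K)} {Ω : K}
  {q : Γ →* GG k m} {w : k}

/-- **The field `hat` of `RC.Half` (`t = 1`), everything but the model.** -/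
theorem hat_geo {ms : Set Γ → (K →L[ℂ] K)} {E : Clopens (YY k m) → (K →L[ℂ] K)}
    (hm : 2 ≤ m) (hq : Emb q) (hP : RC.Pic π lam W Ω) (hms : MS lam ms)
    (hM : Msr lam W Ω ms) (hw : w ≠ 0) (hw1 : ‖w‖ < 1)
    (hun : ∀ s : k, s ≠ 0 → ∃ j : ℤ, ‖s‖ = ‖w‖ ^ j)
    (hE : RC.Lim π lam W q y0 E)
    (hlim : ∀ (A : Clopens (YY k m)) ξ, Tendsto (fun t : ℕ => Pt ms (fun g => π g) (bb m hw ^ t)
      (Bq q (fun γ => g1 (q γ).1) (fun γ => g2 (q γ).1) (A : Set (YY k m))) ξ) atTop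
      (𝓝 (E A ξ)))
    (hnul : ∀ γ : Γ, Nul ms (fun g => π g) (bb m hw) {γ})
    (hslow : ∀ (u : ℕ → GG k m), Tendsto u atTop (𝓝 1) → ∀ S ξ, Tendsto (fun t : ℕ =>
      (π (u t) * ms S - ms S * π (u t)) (π (bb m hw ^ t) ξ)) atTop (𝓝 0))
    {ξ : K} {r δ : ℝ} (hδ : 0 < δ)
    (hmass : ∀ᶠ t : ℕ in atTop, δ ≤ ‖ms {γ | g2 (q γ).1 ≤ r} (π (bb m hw ^ t) ξ)‖ ^ 2)
    (hx : RC.Ext π lam W W' y0 E)
    (hW' : ∀ 𝒰 : Ultrafilter ℕ, (𝒰 : Filter ℕ) ≤ atTop → ∀ w' ∈ W', ∀ S,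
      w' * Eh ms (fun g => π g) 𝒰 (bb m hw) S = Eh ms (fun g => π g) 𝒰 (bb m hw) S * w') :
    ∃ U a, RC.Hat π lam W' Ω q cc y0 E U a := by
  obtain ⟨U, a, h⟩ := hatF_geo hm hq (picF_one hP) hms (msrF_one hM) hw hw1 hun hE hlim hnul hslow
    hδ hmass hx hW'
  exact ⟨U, a, hat_one h⟩

variable [CompactSpace (YY k m)] {mp : (Γ → ℝ) → (K →L[ℂ] K)}
  {Bd : Set K} {A : Subgroup (GG k m)} [sa : SMul Γ (YY k m)]
  {β : C(YY k m, ℂ) →⋆ₐ[ℂ] (K →L[ℂ] K)}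

/-- **The field `hat` of `RC.Half` (`t = 1`), from the output of the engine.** -/
theorem hat_eng (hm : 2 ≤ m) (hq : Emb q) (hP : RC.Pic π lam W Ω) (hf : Fn mp)
    (hcov : ∀ γ (F : Γ → ℝ), (∀ g, |F g| ≤ 1) → lam γ * mp F * lam γ⁻¹ = mp fun g => F (γ⁻¹ * g))
    (hM : Msr lam W Ω (st mp))
    (hw : w ≠ 0) (hw1 : ‖w‖ < 1) (hun : ∀ s : k, s ≠ 0 → ∃ j : ℤ, ‖s‖ = ‖w‖ ^ j)
    (hd : Dense ((Submodule.span ℂ Bd : Submodule ℂ K) : Set K))
    (hmap : ∀ v, ∀ ξ ∈ Bd, π v ξ ∈ Bd) (hs : Slow mp (fun g => π g) Bd)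
    (he : Esc (st mp) (fun g => π g) Bd A (pw (bb m hw)))
    (h : EngOut mp (fun g => π g) (fun γ => lam γ) W (bb m hw) (fun γ => g1 (q γ).1)
      (fun γ => g2 (q γ).1) (fun γ => bp (Nat.succ_pos m) (tg (q γ))) β)
    (hE : RC.Lim π lam W q y0 fun C => β (ci C))
    (hx : RC.Ext π lam W W' y0 fun C => β (ci C))
    (hW' : ∀ 𝒰 : Ultrafilter ℕ, (𝒰 : Filter ℕ) ≤ atTop → ∀ w' ∈ W', ∀ S,
      w' * Eh (st mp) (fun g => π g) 𝒰 (bb m hw) S =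
        Eh (st mp) (fun g => π g) 𝒰 (bb m hw) S * w') :
    ∃ U a, RC.Hat π lam W' Ω q cc y0 (fun C => β (ci C)) U a := by
  obtain ⟨U, a, h'⟩ := hatF_eng hm hq (picF_one hP) hf hcov (msrF_one hM) hw hw1 hun hd hmap hs he
    h hE hx hW'
  exact ⟨U, a, hat_one h'⟩

end fin

end Vale.Agent.P092.H448.TF
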