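import Vale.Agent.P092.H448.TF5
import Vale.Agent.P092.H448.TF6
import Vale.Agent.P092.H448.TF7
import Vale.Agent.P092.H21.RowM
import Vale.Agent.P092.H421.Hs7
import Vale.Agent.P092.RC.HalfT

/-! # [T-HAT] The field `hat` of `RC.HalfT`, from the output of the engine on `L²(G/Γ; HH)` for an
honest family and the asymptotic commutation of the two legs. -/

set_option linter.all false

open scoped InnerProductSpace ENNReal Pointwise
open Filter Topology ContinuousLinearMap TopologicalSpace MeasureTheory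

namespace Vale.Agent.P092.H448.TF

open Vale.Agent.P092.SR Vale.Agent.P092.H160 Vale.Agent.P092.H103 Vale.Agent.P092.H962
open Vale.Agent.P092.RC
open Vale.Agent.P092.H242.Hat
open Vale.Agent.P092.H242.ConeG
open Vale.Agent.P092.H242.Sct (tg cos_UU UU)
open Vale.Agent.P092.H575 (g1 g2 bp)
open Vale.Agent.P092.H448.Trb
open Vale.Agent.P092.H264.GrpC
open Vale.Agent.P092.H859.CL (Fn st EngOut Slow Esc SysF pw cn)
open Vale.Agent.P092.H978.LimC (ci app_eng)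
open Vale.Agent.P092.H21 (mT Hon)

/-! ### Transport of the multiplication operators by a flip -/

section fl

variable {G Γ Y K ι : Type} [Group G] [TopologicalSpace G] [Group Γ]
  [NormedAddCommGroup K] [InnerProductSpace ℂ K] [CompleteSpace K]
  {π : G →* (K →L[ℂ] K)} {lam₁ lam₂ : Γ →* (K →L[ℂ] K)} {m : Set Γ → (K →L[ℂ] K)} {b : G}

theorem ms_cj (u : K ≃ₗᵢ[ℂ] K) (hl : ∀ γ, cj u (lam₁ γ) = lam₂ γ) (h : MS lam₁ m) :
    MS lam₂ fun S => cj u (m S) where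
  adj S := by rw [adjoint_cj, h.adj]
  inter S T := by rw [h.inter, map_mul]
  compl S := by rw [h.compl, map_sub, map_one]
  lam γ S := by rw [← hl, ← hl, ← map_mul, ← map_mul, h.lam]

theorem Pt_cj (u : K ≃ₗᵢ[ℂ] K) (hp : ∀ g, cj u (π g) = π g) (v : G) (S : Set Γ) :
    Pt (fun S => cj u (m S)) (fun g => π g) v S = cj u (Pt m (fun g => π g) v S) := by
  show π v⁻¹ * cj u (m S) * π v = cj u (π v⁻¹ * m S * π v)
  rw [map_mul, map_mul, hp, hp]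

theorem lim_Pt_cj (u : K ≃ₗᵢ[ℂ] K) (hp : ∀ g, cj u (π g) = π g) {S : Set Γ} {E : K →L[ℂ] K}
    (h : ∀ ξ, Tendsto (fun t : ℕ => Pt m (fun g => π g) (b ^ t) S ξ) atTop (𝓝 (E ξ))) (ξ : K) :
    Tendsto (fun t : ℕ => Pt (fun S => cj u (m S)) (fun g => π g) (b ^ t) S ξ) atTop
      (𝓝 (cj u E ξ)) := by
  have h1 := h (u.symm ξ)
  have h2 := (u.continuous.tendsto _).comp h1
  have e : ∀ T : K →L[ℂ] K, cj u T ξ = u (T (u.symm ξ)) := fun T => by
    obtain ⟨η, rfl⟩ := u.surjective ξ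
    rw [cj_ap, u.symm_apply_apply]
  rw [e]
  refine h2.congr fun t => ?_
  rw [Pt_cj u hp, e]
  rfl

end fl

/-! ### The abstract form -/

section abs

variable {k : Type} [NontriviallyNormedField k] [ProperSpace k] [IsUltrametricDist k] {m : ℕ}
  [CompactSpace (YY k m)] [ContinuousConstSMul (GG k m) (YY k m)] {Γ K ι : Type} [Group Γ]
  [NormedAddCommGroup K]
  [InnerProductSpace ℂ K] [CompleteSpace K] [Fintype ι] {π : GG k m →* (K →L[ℂ] K)}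
  {lam₁ lam₂ : Γ →* (K →L[ℂ] K)} {X : Set (K →L[ℂ] K)} {Ω : ι → K}
  {mp : (Γ → ℝ) → (K →L[ℂ] K)}
  {Bd : Set K} {A : Subgroup (GG k m)} [sa : SMul Γ (YY k m)]
  {β : C(YY k m, ℂ) →⋆ₐ[ℂ] (K →L[ℂ] K)} {q : Γ →* GG k m} {w : k}

theorem lim_flip {E : Clopens (YY k m) → (K →L[ℂ] K)} (u : K ≃ₗᵢ[ℂ] K)
    (huu : ∀ T, cj u (cj u T) = T) (hp : ∀ g, cj u (π g) = π g)
    (hl : ∀ γ, cj u (lam₁ γ) = lam₂ γ) (hX : cj u '' X = X)
    (hE : RC.Lim π lam₁ (X ∪ Set.range lam₂) q y0 E) :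
    RC.Lim π lam₂ (X ∪ Set.range lam₁) q y0 fun C => cj u (E C) := by
  refine lim_cj (fun g => (hp g).symm) (fun γ => (hl γ).symm) ?_ hE
  rw [Set.image_union, hX, range_cj]
  congr 2
  funext γ
  rw [← hl, huu]

/-- **The field `hat` for the extended set, from the output of the engine and a flip.** -/
theorem hat_abs (hm : 2 ≤ m) (hq : Emb q) (hP : Pic2F π lam₁ lam₂ X Ω) (hf : Fn mp)
    (hcov : ∀ γ (F : Γ → ℝ), (∀ g, |F g| ≤ 1) →
      lam₁ γ * mp F * lam₁ γ⁻¹ = mp fun g => F (γ⁻¹ * g))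
    (hM : MsrF lam₁ (X ∪ Set.range lam₂) Ω (st mp))
    (hw : w ≠ 0) (hw1 : ‖w‖ < 1) (hun : ∀ s : k, s ≠ 0 → ∃ j : ℤ, ‖s‖ = ‖w‖ ^ j)
    (hd : Dense ((Submodule.span ℂ Bd : Submodule ℂ K) : Set K))
    (hmap : ∀ v, ∀ ξ ∈ Bd, π v ξ ∈ Bd) (hs : Slow mp (fun g => π g) Bd)
    (he : Esc (st mp) (fun g => π g) Bd A (pw (bb m hw)))
    (h : EngOut mp (fun g => π g) (fun γ => lam₁ γ) (X ∪ Set.range lam₂) (bb m hw)
      (fun γ => g1 (q γ).1) (fun γ => g2 (q γ).1)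
      (fun γ => bp (Nat.succ_pos m) (tg (q γ))) β)
    (hE : RC.Lim π lam₁ (X ∪ Set.range lam₂) q y0 fun C => β (ci C))
    (u : K ≃ₗᵢ[ℂ] K) (huu : ∀ T, cj u (cj u T) = T) (hp : ∀ g, cj u (π g) = π g)
    (hl : ∀ γ, cj u (lam₁ γ) = lam₂ γ) (hX : cj u '' X = X)
    (hc : ∀ (S : Set Γ) (C : Clopens (YY k m)) (x y : K), Tendsto (fun t : ℕ =>
        ⟪st mp S (π (bb m hw ^ t) x), cj u (st mp (cn (fun γ => g1 (q γ).1)
          (fun γ => g2 (q γ).1) (fun γ => bp (Nat.succ_pos m) (tg (q γ)))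
          (C : Set (YY k m)))) (π (bb m hw ^ t) y)⟫_ℂ -
        ⟪cj u (st mp (cn (fun γ => g1 (q γ).1)
          (fun γ => g2 (q γ).1) (fun γ => bp (Nat.succ_pos m) (tg (q γ)))
          (C : Set (YY k m)))) (π (bb m hw ^ t) x), st mp S (π (bb m hw ^ t) y)⟫_ℂ)
        atTop (𝓝 0)) :
    ∃ U a, RC.HatF π lam₁ (X ∪ Set.range lam₂ ∪ Set.range fun C => cj u (β (ci C))) Ω q cc y0
      (fun C => β (ci C)) U a := by
  have hms₁ : MS lam₁ (st mp) := ms_fn hf hcov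
  have hms₂ : MS lam₂ (fun S => cj u (st mp S)) := ms_cj u hl hms₁
  have P₁ := picF_of hP.leg₁ hms₁
  have P₂ := picF_of hP.leg₂ hms₂
  have hlim₁ : ∀ (C : Clopens (YY k m)) x, Tendsto (fun t : ℕ =>
      Pt (st mp) (fun g => π g) (bb m hw ^ t)
        (cn (fun γ => g1 (q γ).1) (fun γ => g2 (q γ).1)
              (fun γ => bp (Nat.succ_pos m) (tg (q γ))) (C : Set (YY k m))) x) atTop
        (𝓝 (β (ci C) x)) := fun C x => app_eng h hf C x
  have hlim₂ := fun (C : Clopens (YY k m)) => lim_Pt_cj u hp (hlim₁ C)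
  have hcE : ∀ C C' : Clopens (YY k m), β (ci C) * cj u (β (ci C')) =
      cj u (β (ci C')) * β (ci C) := fun C C' =>
    lim_comm₂ P₁ P₂ (hlim₁ C) (hlim₂ C') (hc _ C')
  have hE₂ := lim_flip u huu hp hl hX hE
  have hx := ext_F hP hE hE₂ hcE
  have hEa : ∀ C : Clopens (YY k m), adjoint (cj u (β (ci C))) = cj u (β (ci C)) := fun C => by
    rw [← star_eq_adjoint]; exact hE₂.cpv.sa C
  exact hatF_eng hm hq hP.leg₁ hf hcov hM hw hw1 hun hd hmap hs he h hE hx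
    (fun 𝒰 hU => comm_msF hP.leg₁ hP.leg₂ hms₁ hms₂ hM.cm hU hEa (fun C => hlim₂ C) hc)

end abs


section con

variable {k : Type} [NontriviallyNormedField k] [ProperSpace k] [IsUltrametricDist k] {m : ℕ}
  [LocallyCompactSpace (GG k m)]
  [SecondCountableTopology (GG k m)] [MeasurableSpace (GG k m)] [BorelSpace (GG k m)]
  [CompactSpace (YY k m)] [ContinuousConstSMul (GG k m) (YY k m)]
  {Γ : Subgroup (GG k m)} [DiscreteTopology Γ] [Countable Γ] [MeasurableSpace (GG k m ⧸ Γ)]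
  [BorelSpace (GG k m ⧸ Γ)] {ν : Measure (GG k m ⧸ Γ)} [IsProbabilityMeasure ν]
  (hν : ∀ g : GG k m, ν.map (fun x => g • x) = ν)
  {Λ I : Type} [Group Λ] [Countable Λ] [Fintype I] {α : Γ → (Ell2 (I × Λ) →L[ℂ] Ell2 (I × Λ))}
  (hα : AF α)

/-- **The field `hat` of `RC.HalfT`.** -/
theorem hat_T (hm : 2 ≤ m) {κ κ' : Type} [Fintype κ] [Fintype κ'] {ξ₀ : κ → HH (PT α α α)}
    {ξ' : κ' → HH (PT α α α)}
    (hT : Tri (V3 hα hα hα) (A3R hα hα hα) (B3R hα hα hα) ξ₀)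
    (hh : Hon (A3R hα hα hα) (B3R hα hα hα) ξ₀)
    (hT' : Tri (A3R hα hα hα) (V3 hα hα hα) (B3R hα hα hα) ξ')
    (hΓ : ∀ g : Γ, g ≠ 1 → Set.Infinite {y : Γ | ∃ h, y = h * g * h⁻¹})
    (hP : Pic2F (piT hν hα) (lamT hν (A3R hα hα hα)) (lamT hν (B3R hα hα hα))
      (XG hν (HH (PT α α α))) (OmG hν ξ₀))
    {q : Γ →* GG k m} (hq : Emb q) {w : k} (hw : w ≠ 0) (hw1 : ‖w‖ < 1)
    (hun : ∀ s : k, s ≠ 0 → ∃ j : ℤ, ‖s‖ = ‖w‖ ^ j)
    {Bd : Set (KG hν (HH (PT α α α)))} {mu : GG k m → Set Γ → ℝ} {A : Subgroup (GG k m)}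
    {G1 G2 : Γ → ℝ}
    (hS : SysF (mT (H85.cdat ν hν) hT) (fun g => piT hν hα g) Bd mu A G1 G2)
    (hs : Slow (mT (H85.cdat ν hν) hT) (fun g => piT hν hα g) Bd)
    (he : Esc (st (mT (H85.cdat ν hν) hT)) (fun g => piT hν hα g) Bd A (pw (bb m hw)))
    [sa : SMul Γ (YY k m)]
    {β : C(YY k m, ℂ) →⋆ₐ[ℂ] (KG hν (HH (PT α α α)) →L[ℂ] KG hν (HH (PT α α α)))}
    (h : EngOut (mT (H85.cdat ν hν) hT) (fun g => piT hν hα g)
      (fun γ => lamT hν (A3R hα hα hα) γ)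
      (XG hν (HH (PT α α α)) ∪ Set.range (lamT hν (B3R hα hα hα))) (bb m hw)
      (fun γ => g1 (q γ).1) (fun γ => g2 (q γ).1)
      (fun γ => bp (Nat.succ_pos m) (tg (q γ))) β)
    (hE : RC.Lim (piT hν hα) (lamT hν (A3R hα hα hα))
      (XG hν (HH (PT α α α)) ∪ Set.range (lamT hν (B3R hα hα hα))) q y0 fun C => β (ci C))
    (hc : ∀ (S : Set Γ) (C : Clopens (YY k m)) (x y : KG hν (HH (PT α α α))),
      Tendsto (fun t : ℕ =>
        ⟪st (mT (H85.cdat ν hν) hT) S (piT hν hα (bb m hw ^ t) x),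
          cj (flT hν hα) (st (mT (H85.cdat ν hν) hT)
            (cn (fun γ => g1 (q γ).1) (fun γ => g2 (q γ).1)
              (fun γ => bp (Nat.succ_pos m) (tg (q γ))) (C : Set (YY k m))))
            (piT hν hα (bb m hw ^ t) y)⟫_ℂ -
        ⟪cj (flT hν hα) (st (mT (H85.cdat ν hν) hT)
            (cn (fun γ => g1 (q γ).1) (fun γ => g2 (q γ).1)
              (fun γ => bp (Nat.succ_pos m) (tg (q γ))) (C : Set (YY k m))))
            (piT hν hα (bb m hw ^ t) x),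
          st (mT (H85.cdat ν hν) hT) S (piT hν hα (bb m hw ^ t) y)⟫_ℂ) atTop (𝓝 0)) :
    ∀ {ι : Type} [Fintype ι] (ξ : ι → HH (PT α α α)),
      Tri (V3 hα hα hα) (A3R hα hα hα) (B3R hα hα hα) ξ →
      ∃ U a, HatF (piT hν hα) (lamT hν (A3R hα hα hα))
        (XG hν (HH (PT α α α)) ∪ Set.range (lamT hν (B3R hα hα hα)) ∪
          Set.range (flpT hν hα fun C => β (ci C))) (OmG hν ξ) q cc y0 (fun C => β (ci C)) U a := by
  intro ι _ ξ hξ
  have hleg := H21.leg_T (H85.cdat ν hν) hT hh hΓ hT'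
  have hf := H21.fn_T (H85.cdat ν hν) hT hh
  have hM : MsrF (lamT hν (A3R hα hα hα))
      (XG hν (HH (PT α α α)) ∪ Set.range (lamT hν (B3R hα hα hα))) (OmG hν ξ₀)
      (st (mT (H85.cdat ν hν) hT)) :=
    ⟨fun S w hw => H21.cm_T (H85.cdat ν hν) hT hh hΓ hT' S w hw,
      fun i => H21.om_T (H85.cdat ν hν) hT hh _ i, H21.sig_T (H85.cdat ν hν) hT hh⟩
  obtain ⟨U, a, h1⟩ := hat_abs hm hq hP hf hleg.cov hM hw hw1 hun hS.sys.dense
    hS.sys.map hs he h hE (flT hν hα) (cj_cj_flT hν hα) (cj_piT hν hα) (cj_lamA hν hα)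
    (cj_XG hν hα) hc
  obtain ⟨wB, bas, hwB⟩ := H421.HsT.exists_basisHH (P := PT α α α)
  exact ⟨U, a, hatF_fam hν bas hξ hT hP.leg₁.WP Set.subset_union_left hE.cm h1⟩

end con

end Vale.Agent.P092.H448.TF
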