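import Vale.Agent.P092.H448.Trb2
import Vale.Agent.P092.H242.Hat
import Vale.Agent.P092.RC.Defs

/-! # [C-TR] The trace bound, part 3: from the bound before the limit to the field `tb` of `RC.Hat`. -/

set_option linter.all false

open scoped InnerProductSpace ENNReal
open Filter Topology ContinuousLinearMap

namespace Vale.Agent.P092.H448.Trb

open Vale.Agent.P092.RC (Cm TRN)
open Vale.Agent.P092.H242.Hat (Pt Eh)

variable {G Γ K : Type} [Group G] [TopologicalSpace G] [Group Γ] [NormedAddCommGroup K]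
  [InnerProductSpace ℂ K] [CompleteSpace K] {π : G →* (K →L[ℂ] K)} {lam : Γ →* (K →L[ℂ] K)}
  {W : Set (K →L[ℂ] K)} {Ω : K} {m : Set Γ → (K →L[ℂ] K)}

/-! ### Domination -/

/-- `‖A ξ‖²` is dominated by `c ‖X ξ‖²`, `X ∈ F`, on finite families of vectors. -/
def Dom (Γ : Type) (F : Set (K →L[ℂ] K)) (c : ℝ≥0∞) (A : K →L[ℂ] K) : Prop :=
  ∀ (s : Finset Γ) (ξ : Γ → K) (ε : ℝ≥0∞), ε ≠ 0 →
    ∃ X ∈ F, ∑ i ∈ s, ‖A (ξ i)‖ₑ ^ 2 ≤ c * ∑ i ∈ s, ‖X (ξ i)‖ₑ ^ 2 + ε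

theorem Dom.trn {F : Set (K →L[ℂ] K)} {c : ℝ≥0∞} {A T : K →L[ℂ] K} (h : Dom Γ F c A)
    {N : ℝ≥0∞} (hN : ∀ X ∈ F, TRN lam Ω (X * T) ≤ N) : TRN lam Ω (A * T) ≤ c * N := by
  unfold TRN
  rw [ENNReal.tsum_eq_iSup_sum]
  refine iSup_le fun s => ?_
  refine le_of_forall_pos_le_add fun ε hε => ?_
  obtain ⟨X, hX, h1⟩ := h s (fun γ => T (lam γ Ω)) ε hε.ne'
  refine h1.trans (add_le_add ?_ le_rfl)
  refine mul_le_mul_right ?_ _
  exact (ENNReal.sum_le_tsum s).trans (hN X hX)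

/-- **The trace bound passes to dominated operators.** -/
theorem tb_abs (hP : RC.Pic π lam W Ω) {F F' : Set (K →L[ℂ] K)} {c c' N : ℝ≥0∞}
    {A B : K →L[ℂ] K} (hA : Dom Γ F c A) (hB : Dom Γ F' c' B) (hAc : Cm W A)
    (hAa : adjoint A = A) (hF' : ∀ Y ∈ F', Cm W Y ∧ adjoint Y = Y)
    (hN : ∀ X ∈ F, ∀ Y ∈ F', TRN lam Ω (X * Y) ≤ N) :
    TRN lam Ω (B * A) ≤ c' * (c * N) := by
  refine hB.trn fun Y hY => ?_
  have h1 : TRN lam Ω (A * Y) ≤ c * N := hA.trn fun X hX => hN X hX Y hY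
  have h2 : Cm W (A * Y) := fun w hw => by
    rw [mul_assoc, (hF' Y hY).1 w hw, ← mul_assoc, hAc w hw, mul_assoc]
  have h3 := hP.tr_adj (A * Y) h2
  have h4 : adjoint (A * Y) = Y * A := by
    rw [← star_eq_adjoint, star_mul, star_eq_adjoint, star_eq_adjoint, hAa, (hF' Y hY).2]
  rw [h4] at h3
  rw [h3]
  exact h1

/-! ### Before the limit -/

/-- The multiplication operators: normality, the vector `Ω`, and the commutation with `W`. -/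
structure Msr (lam : Γ →* (K →L[ℂ] K)) (W : Set (K →L[ℂ] K)) (Ω : K)
    (m : Set Γ → (K →L[ℂ] K)) : Prop where
  cm : ∀ S, Cm W (m S)
  om : m {1} Ω = Ω
  sig : ∀ S ξ, ‖m S ξ‖ₑ ^ 2 ≤ ∑' γ, S.indicator (fun γ => ‖m {γ} ξ‖ₑ ^ 2) γ

variable (P : H242.Hat.Pic (fun γ => lam γ) m (fun g => π g))
include P

theorem lx_norm (γ : Γ) (ξ : K) : ‖lam γ ξ‖ = ‖ξ‖ := by
  have h1 : ⟪lam γ ξ, lam γ ξ⟫_ℂ = ⟪ξ, ξ⟫_ℂ := by
    rw [← adjoint_inner_right, P.lx_adj]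
    have : lam γ⁻¹ (lam γ ξ) = ξ := by
      rw [← ContinuousLinearMap.mul_apply, ← map_mul, inv_mul_cancel, map_one]; rfl
    rw [this]
  rw [inner_self_eq_norm_sq_to_K, inner_self_eq_norm_sq_to_K] at h1
  have h2 : ‖lam γ ξ‖ ^ 2 = ‖ξ‖ ^ 2 := by exact_mod_cast h1
  exact (pow_left_inj₀ (norm_nonneg _) (norm_nonneg _) two_ne_zero).mp h2

theorem m_single_lam (γ η : Γ) (ξ : K) : m {γ * η} (lam γ ξ) = lam γ (m {η} ξ) := by
  have h1 := P.lx_m γ {η}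
  rw [Set.smul_set_singleton, smul_eq_mul] at h1
  have h2 : lam γ * m {η} = m {γ * η} * lam γ := by
    rw [← h1, mul_assoc, ← map_mul, inv_mul_cancel, map_one, mul_one]
  exact (congrArg (fun T : K →L[ℂ] K => T ξ) h2).symm

/-- Bessel -/
theorem bessel (ξ : K) : ∑' γ, ‖m {γ} ξ‖ₑ ^ 2 ≤ ‖ξ‖ₑ ^ 2 := by
  classical
  rw [ENNReal.tsum_eq_iSup_sum]
  refine iSup_le fun s => ?_
  have h1 : ∀ s : Finset Γ, ∑ γ ∈ s, ‖m {γ} ξ‖ ^ 2 = ‖m (s : Set Γ) ξ‖ ^ 2 := by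
    intro s
    induction s using Finset.induction_on with
    | empty => simp [P.m_empty]
    | insert a s ha ih =>
      rw [Finset.sum_insert ha, ih, Finset.coe_insert, Set.insert_eq,
        ← P.inner_m, ← P.inner_m, ← P.inner_m, P.m_union, ContinuousLinearMap.add_apply,
        inner_add_right, Complex.add_re]
      rw [Set.disjoint_singleton_left]
      exact_mod_cast ha
  have h2 : ∑ γ ∈ s, ‖m {γ} ξ‖ₑ ^ 2 = ENNReal.ofReal (∑ γ ∈ s, ‖m {γ} ξ‖ ^ 2) := by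
    rw [ENNReal.ofReal_sum_of_nonneg fun _ _ => by positivity]
    refine Finset.sum_congr rfl fun γ _ => ?_
    rw [ENNReal.ofReal_pow (norm_nonneg _), ofReal_norm]
  rw [h2, h1, ENNReal.ofReal_pow (norm_nonneg _), ofReal_norm]
  refine pow_le_pow_left' ?_ 2
  rw [← ofReal_norm, ← ofReal_norm]
  exact ENNReal.ofReal_le_ofReal (P.norm_m_apply _ _)

theorem m_lam_Ω (hM : Msr lam W Ω m) (S : Set Γ) (γ : Γ) :
    m S (lam γ Ω) = S.indicator (fun _ => lam γ Ω) γ := by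
  have h1 : m {γ} (lam γ Ω) = lam γ Ω := by
    have h2 := m_single_lam P γ 1 Ω
    rw [mul_one, hM.om] at h2
    exact h2
  by_cases h : γ ∈ S
  · rw [Set.indicator_of_mem h, ← h1, ← ContinuousLinearMap.mul_apply, ← P.m_inter,
      Set.inter_eq_right.2 (Set.singleton_subset_iff.2 h)]
  · rw [Set.indicator_of_notMem h, ← h1, ← ContinuousLinearMap.mul_apply, ← P.m_inter]
    have h3 : S ∩ {γ} = ∅ := by
      rw [Set.inter_singleton_eq_empty]; exact h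
    rw [h3, P.m_empty]
    rfl

/-- **The trace bound before the limit.** -/
theorem pre (hP : RC.Pic π lam W Ω) (hM : Msr lam W Ω m) {S S' : Set Γ} {N : ℕ}
    (hN : ∀ η : Γ, {γ : Γ | γ ∈ S ∧ γ * η ∈ S'}.encard ≤ N) (v w : G) :
    TRN lam Ω (Pt m (fun g => π g) v S * Pt m (fun g => π g) w S') ≤ N := by
  have hcm : ∀ v S, Cm W (Pt m (fun g => π g) v S) := by
    intro v S x hx
    have h1 := hM.cm S (π v * x * π v⁻¹) (hP.WP x hx v)
    show π v⁻¹ * m S * π v * x = x * (π v⁻¹ * m S * π v)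
    have h2 : π v * x = π v * x * π v⁻¹ * π v := by
      rw [mul_assoc _ (π v⁻¹), ← map_mul, inv_mul_cancel, map_one, mul_one]
    have h3 : π v⁻¹ * (π v * x * π v⁻¹) = x * π v⁻¹ := by
      rw [← mul_assoc, ← mul_assoc, ← map_mul, inv_mul_cancel, map_one, one_mul]
    calc π v⁻¹ * m S * π v * x = π v⁻¹ * m S * (π v * x) := by rw [mul_assoc]
      _ = π v⁻¹ * (m S * (π v * x * π v⁻¹)) * π v := by
          conv_lhs => rw [h2]
          simp only [mul_assoc]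
      _ = (π v⁻¹ * (π v * x * π v⁻¹)) * m S * π v := by rw [h1]; simp only [mul_assoc]
      _ = x * (π v⁻¹ * m S * π v) := by rw [h3]; simp only [mul_assoc]
  have hcm2 : Cm W (Pt m (fun g => π g) v S * Pt m (fun g => π g) w S') := fun x hx => by
    rw [mul_assoc, hcm w S' x hx, ← mul_assoc, hcm v S x hx, mul_assoc]
  have h1 := hP.tr_adj _ hcm2
  have h2 : adjoint (Pt m (fun g => π g) v S * Pt m (fun g => π g) w S') =
      Pt m (fun g => π g) w S' * Pt m (fun g => π g) v S := by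
    rw [H242.Hat.adj_mul, P.adj_Pt, P.adj_Pt]
  rw [h2] at h1
  rw [← h1]
  have hcm3 : Cm W (Pt m (fun g => π g) w S' * Pt m (fun g => π g) v S) := fun x hx => by
    rw [mul_assoc, hcm v S x hx, ← mul_assoc, hcm w S' x hx, mul_assoc]
  rw [← hP.tr_conj _ hcm3 v]
  have hinv : π v * π v⁻¹ = 1 := by rw [← map_mul, mul_inv_cancel, map_one]
  have h3 : π v * (Pt m (fun g => π g) w S' * Pt m (fun g => π g) v S) * π v⁻¹ =
      π v * π w⁻¹ * (m S' * ((π w * π v⁻¹) * m S)) := by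
    show π v * (π w⁻¹ * m S' * π w * (π v⁻¹ * m S * π v)) * π v⁻¹ = _
    calc _ = π v * π w⁻¹ * (m S' * ((π w * π v⁻¹) * m S)) * (π v * π v⁻¹) := by
          simp only [mul_assoc]
      _ = _ := by rw [hinv, mul_one]
  rw [h3]
  set u : K →L[ℂ] K := π w * π v⁻¹ with hu
  have hul : ∀ γ, u * lam γ = lam γ * u := by
    intro γ
    rw [hu, mul_assoc, hP.comm, ← mul_assoc, hP.comm, mul_assoc]
  -- contraction on the left
  have h4 : TRN lam Ω (π v * π w⁻¹ * (m S' * (u * m S))) ≤ TRN lam Ω (m S' * (u * m S)) := by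
    refine ENNReal.tsum_le_tsum fun γ => pow_le_pow_left' ?_ 2
    rw [← ofReal_norm, ← ofReal_norm]
    refine ENNReal.ofReal_le_ofReal ?_
    refine (P.norm_R_apply v _).trans (P.norm_R_apply w⁻¹ _)
  refine h4.trans ?_
  -- the numerical inequality
  have h5 : ∀ γ, ‖(m S' * (u * m S)) (lam γ Ω)‖ₑ ^ 2 ≤
      ∑' γ', S.indicator 1 γ * S'.indicator 1 γ' * (fun η => ‖m {η} (u Ω)‖ₑ ^ 2) (γ⁻¹ * γ') := by
    intro γ
    show ‖m S' (u (m S (lam γ Ω)))‖ₑ ^ 2 ≤ _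
    rw [m_lam_Ω P hM]
    by_cases h : γ ∈ S
    · rw [Set.indicator_of_mem h]
      refine (hM.sig S' _).trans (ENNReal.tsum_le_tsum fun γ' => ?_)
      by_cases h' : γ' ∈ S'
      · rw [Set.indicator_of_mem h', Set.indicator_of_mem h, Set.indicator_of_mem h']
        have e1 : u (lam γ Ω) = lam γ (u Ω) := congrArg (fun T : K →L[ℂ] K => T Ω) (hul γ)
        have e2 := m_single_lam P γ (γ⁻¹ * γ') (u Ω)
        rw [mul_inv_cancel_left] at e2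
        rw [e1, e2]
        simp only [Pi.one_apply, one_mul]
        rw [← ofReal_norm, ← ofReal_norm, lx_norm P]
      · rw [Set.indicator_of_notMem h']
        exact bot_le
    · rw [Set.indicator_of_notMem h]
      simp
  refine (ENNReal.tsum_le_tsum h5).trans ?_
  refine (tsum_le hN (fun _ => le_rfl) (fun _ => le_rfl)
    (fun η => ‖m {η} (u Ω)‖ₑ ^ 2)).trans ?_
  have h6 : ∑' η, ‖m {η} (u Ω)‖ₑ ^ 2 ≤ 1 := by
    refine (bessel P _).trans ?_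
    have h7 : ‖u Ω‖ ≤ 1 := by
      rw [← hP.nΩ]
      exact (P.norm_R_apply w _).trans (P.norm_R_apply v⁻¹ _)
    have h8 : ‖u Ω‖ₑ ≤ 1 := by
      rw [← ofReal_norm]
      exact ENNReal.ofReal_le_one.2 h7
    calc ‖u Ω‖ₑ ^ 2 ≤ 1 ^ 2 := pow_le_pow_left' h8 2
      _ = 1 := one_pow 2
  calc (N : ℝ≥0∞) * ∑' η, ‖m {η} (u Ω)‖ₑ ^ 2 ≤ N * 1 := mul_le_mul_right h6 _
    _ = N := mul_one _

/-! ### The Cesàro limits -/

theorem norm_Pt_eq (v : G) (S : Set Γ) (ξ : K) :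
    ‖Pt m (fun g => π g) v S ξ‖ = ‖m S (π v ξ)‖ := by
  have h1 : ∀ g ζ, ‖π g ζ‖ = ‖ζ‖ := by
    intro g ζ
    refine le_antisymm (P.norm_R_apply g ζ) ?_
    calc ‖ζ‖ = ‖π g⁻¹ (π g ζ)‖ := by
          rw [← ContinuousLinearMap.mul_apply, ← map_mul, inv_mul_cancel, map_one]; rfl
      _ ≤ ‖π g ζ‖ := P.norm_R_apply g⁻¹ _
  exact h1 v⁻¹ _

theorem norm_pi (g : G) (ζ : K) : ‖π g ζ‖ = ‖ζ‖ := by
  refine le_antisymm (P.norm_R_apply g ζ) ?_
  calc ‖ζ‖ = ‖π g⁻¹ (π g ζ)‖ := by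
        rw [← ContinuousLinearMap.mul_apply, ← map_mul, inv_mul_cancel, map_one]; rfl
    _ ≤ ‖π g ζ‖ := P.norm_R_apply g⁻¹ _

/-- `‖A ξ‖² ≤ ⟨ξ, A ξ⟩` for a positive contraction -/
theorem sq_le_of_pos {A : K →L[ℂ] K} (h0 : ∀ ξ, 0 ≤ (⟪ξ, A ξ⟫_ℂ).re)
    (h1 : ∀ ξ, (⟪ξ, A ξ⟫_ℂ).re ≤ ‖ξ‖ ^ 2) (hA : adjoint A = A) (ξ : K) :
    ‖A ξ‖ ^ 2 ≤ (⟪ξ, A ξ⟫_ℂ).re := by
  -- expand the form at `ξ - A ξ` and at `A ξ`
  have e1 : ⟪A ξ, A ξ⟫_ℂ = ((‖A ξ‖ ^ 2 : ℝ) : ℂ) := by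
    rw [inner_self_eq_norm_sq_to_K]; norm_cast
  have e2 : ⟪ξ, A (A ξ)⟫_ℂ = ⟪A ξ, A ξ⟫_ℂ := by
    conv_lhs => rw [← hA]
    rw [adjoint_inner_right]
    rw [hA]
  have h2 := h0 (ξ - A ξ)
  have h3 := h1 (A ξ)
  have e3 : ⟪ξ - A ξ, A (ξ - A ξ)⟫_ℂ = ⟪ξ, A ξ⟫_ℂ - ⟪ξ, A (A ξ)⟫_ℂ - ⟪A ξ, A ξ⟫_ℂ +
      ⟪A ξ, A (A ξ)⟫_ℂ := by
    rw [map_sub, inner_sub_left, inner_sub_right, inner_sub_right]
    ring
  rw [e3, e2, e1, Complex.add_re, Complex.sub_re, Complex.sub_re, Complex.ofReal_re] at h2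
  linarith

theorem dom_Eh {U : Ultrafilter ℕ} (hU : (U : Filter ℕ) ≤ atTop) (b : G) (S : Set Γ) :
    Dom Γ (Set.range fun t : ℕ => Pt m (fun g => π g) (b ^ t) S) 1
      (Eh m (fun g => π g) U b S) := by
  intro s ξ ε hε
  by_contra hcon
  push Not at hcon
  have hcon' : ∀ t : ℕ, 1 * ∑ i ∈ s, ‖Pt m (fun g => π g) (b ^ t) S (ξ i)‖ₑ ^ 2 + ε <
      ∑ i ∈ s, ‖Eh m (fun g => π g) U b S (ξ i)‖ₑ ^ 2 := fun t => hcon _ ⟨t, rfl⟩
  -- real form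
  set c : ℝ := ∑ i ∈ s, ‖Eh m (fun g => π g) U b S (ξ i)‖ ^ 2 with hc
  have hce : ∑ i ∈ s, ‖Eh m (fun g => π g) U b S (ξ i)‖ₑ ^ 2 = ENNReal.ofReal c := by
    rw [hc, ENNReal.ofReal_sum_of_nonneg fun _ _ => by positivity]
    refine Finset.sum_congr rfl fun i _ => ?_
    rw [ENNReal.ofReal_pow (norm_nonneg _), ofReal_norm]
  have hε' : ε ≠ ∞ := by
    intro h
    have := hcon' 0
    rw [h, add_top, hce] at this
    exact not_top_lt this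
  have hte : ∀ t : ℕ, ∑ i ∈ s, ‖m S (π (b ^ t) (ξ i))‖ ^ 2 ≤ c - ε.toReal := by
    intro t
    have h1 := hcon' t
    rw [hce, one_mul] at h1
    have h2 : ∑ i ∈ s, ‖Pt m (fun g => π g) (b ^ t) S (ξ i)‖ₑ ^ 2 =
        ENNReal.ofReal (∑ i ∈ s, ‖m S (π (b ^ t) (ξ i))‖ ^ 2) := by
      rw [ENNReal.ofReal_sum_of_nonneg fun _ _ => by positivity]
      refine Finset.sum_congr rfl fun i _ => ?_
      rw [ENNReal.ofReal_pow (norm_nonneg _), ofReal_norm, ← ofReal_norm, norm_Pt_eq P,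
        ofReal_norm]
    rw [h2, ← ENNReal.ofReal_toReal hε', ← ENNReal.ofReal_add (Finset.sum_nonneg fun _ _ => by
      positivity) ENNReal.toReal_nonneg] at h1
    have h3 := (ENNReal.ofReal_lt_ofReal_iff_of_nonneg (by positivity)).1 h1
    linarith
  -- the limit
  have hlim : Tendsto (fun N => ∑ i ∈ s, (⟪ξ i, H242.Ces.cav (fun t => Pt m (fun g => π g) (b ^ t) S)
      N (ξ i)⟫_ℂ).re) U (𝓝 (∑ i ∈ s, (⟪ξ i, Eh m (fun g => π g) U b S (ξ i)⟫_ℂ).re)) := by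
    refine tendsto_finsetSum s fun i _ => ?_
    exact (Complex.continuous_re.tendsto _).comp
      (H242.Ces.cl_spec (fun t => P.norm_Pt (b ^ t) S) (ξ i) (ξ i))
  have hle : ∀ N, ∑ i ∈ s, (⟪ξ i, H242.Ces.cav (fun t => Pt m (fun g => π g) (b ^ t) S)
      N (ξ i)⟫_ℂ).re ≤ c - ε.toReal := by
    intro N
    have e1 : ∀ i, (⟪ξ i, H242.Ces.cav (fun t => Pt m (fun g => π g) (b ^ t) S) N (ξ i)⟫_ℂ).re =
        ((N : ℝ) + 1)⁻¹ * ∑ t ∈ Finset.range (N + 1), ‖m S (π (b ^ t) (ξ i))‖ ^ 2 := by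
      intro i
      rw [H242.Ces.inner_cav, ← Complex.ofReal_inv, Complex.re_ofReal_mul, Complex.re_sum]
      congr 1
      refine Finset.sum_congr rfl fun t _ => ?_
      exact P.inner_Pt_re _ _ _
    rw [Finset.sum_congr rfl fun i _ => e1 i, ← Finset.mul_sum, Finset.sum_comm]
    have h2 : ∑ t ∈ Finset.range (N + 1), ∑ i ∈ s, ‖m S (π (b ^ t) (ξ i))‖ ^ 2 ≤
        ((N : ℝ) + 1) * (c - ε.toReal) := by
      refine (Finset.sum_le_sum fun t _ => hte t).trans (le_of_eq ?_)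
      rw [Finset.sum_const, Finset.card_range, nsmul_eq_mul]
      push_cast
      ring
    have h3 := H242.Ces.np N
    rw [inv_mul_le_iff₀ h3]
    exact h2
  have h5 := le_of_tendsto' hlim hle
  have h6 : c ≤ ∑ i ∈ s, (⟪ξ i, Eh m (fun g => π g) U b S (ξ i)⟫_ℂ).re :=
    Finset.sum_le_sum fun i _ => sq_le_of_pos P (fun ζ => P.Eh_nonneg hU S ζ)
      (fun ζ => P.Eh_le hU S ζ) (P.Eh_adj S) (ξ i)
  have h7 : 0 < ε.toReal := ENNReal.toReal_pos hε hε'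
  linarith

/-- **The field `tb` of `RC.Hat` for the Cesàro limits.** -/
theorem Eh_tb (hP : RC.Pic π lam W Ω) (hM : Msr lam W Ω m) {U : Ultrafilter ℕ}
    (hU : (U : Filter ℕ) ≤ atTop) (b : G) {S S' : Set Γ} {N : ℕ}
    (hN : ∀ η : Γ, {γ : Γ | γ ∈ S ∧ γ * η ∈ S'}.encard ≤ N) (g : G) :
    TRN lam Ω (π g * Eh m (fun g => π g) U b S' * π g⁻¹ * Eh m (fun g => π g) U b S) ≤ N := by
  have hcmPt : ∀ v S, Cm W (Pt m (fun g => π g) v S) := by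
    intro v S x hx
    have h1 := hM.cm S (π v * x * π v⁻¹) (hP.WP x hx v)
    show π v⁻¹ * m S * π v * x = x * (π v⁻¹ * m S * π v)
    have h2 : π v * x = π v * x * π v⁻¹ * π v := by
      rw [mul_assoc _ (π v⁻¹), ← map_mul, inv_mul_cancel, map_one, mul_one]
    have h3 : π v⁻¹ * (π v * x * π v⁻¹) = x * π v⁻¹ := by
      rw [← mul_assoc, ← mul_assoc, ← map_mul, inv_mul_cancel, map_one, one_mul]
    calc π v⁻¹ * m S * π v * x = π v⁻¹ * m S * (π v * x) := by rw [mul_assoc]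
      _ = π v⁻¹ * (m S * (π v * x * π v⁻¹)) * π v := by
          conv_lhs => rw [h2]
          simp only [mul_assoc]
      _ = (π v⁻¹ * (π v * x * π v⁻¹)) * m S * π v := by rw [h1]; simp only [mul_assoc]
      _ = x * (π v⁻¹ * m S * π v) := by rw [h3]; simp only [mul_assoc]
  have hPt : ∀ t : ℕ, π g * Pt m (fun g => π g) (b ^ t) S' * π g⁻¹ =
      Pt m (fun g => π g) (b ^ t * g⁻¹) S' := by
    intro t
    show π g * (π (b ^ t)⁻¹ * m S' * π (b ^ t)) * π g⁻¹ =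
      π (b ^ t * g⁻¹)⁻¹ * m S' * π (b ^ t * g⁻¹)
    rw [mul_inv_rev, inv_inv, map_mul, map_mul]
    simp only [mul_assoc]
  have hA := dom_Eh P hU b S
  have hB : Dom Γ (Set.range fun t : ℕ => Pt m (fun g => π g) (b ^ t * g⁻¹) S') 1
      (π g * Eh m (fun g => π g) U b S' * π g⁻¹) := by
    intro s ξ ε hε
    obtain ⟨X, ⟨t, rfl⟩, h1⟩ := dom_Eh P hU b S' s (fun i => π g⁻¹ (ξ i)) ε hε
    refine ⟨_, ⟨t, rfl⟩, ?_⟩
    have e1 : ∀ i, ‖(π g * Eh m (fun g => π g) U b S' * π g⁻¹) (ξ i)‖ₑ =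
        ‖Eh m (fun g => π g) U b S' (π g⁻¹ (ξ i))‖ₑ := by
      intro i
      rw [← ofReal_norm, ← ofReal_norm]
      exact congrArg ENNReal.ofReal (norm_pi P g _)
    have e2 : ∀ i, ‖Pt m (fun g => π g) (b ^ t * g⁻¹) S' (ξ i)‖ₑ =
        ‖Pt m (fun g => π g) (b ^ t) S' (π g⁻¹ (ξ i))‖ₑ := by
      intro i
      rw [← hPt, ← ofReal_norm, ← ofReal_norm]
      exact congrArg ENNReal.ofReal (norm_pi P g _)
    simp only [e1, e2]
    exact h1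
  have hcmE : Cm W (Eh m (fun g => π g) U b S) := by
    intro w hw
    exact (P.Eh_comm fun t => ((hcmPt (b ^ t) S) w hw).symm).symm
  have h := tb_abs hP hA hB hcmE (P.Eh_adj S) (N := (N : ℝ≥0∞)) ?_ ?_
  · simpa using h
  · rintro _ ⟨t, rfl⟩
    exact ⟨hcmPt _ _, P.adj_Pt _ _⟩
  · rintro _ ⟨t, rfl⟩ _ ⟨t', rfl⟩
    exact pre P hP hM hN _ _

end Vale.Agent.P092.H448.Trb
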