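import Vale.Agent.P092.H448.TrA
import Vale.Agent.P092.H575.Cone
import Vale.Agent.P092.RC.Cc

/-! # [C-TR] The trace bound, part 4: the counting bound for the cones `Cone o T C` of helper575. -/

set_option linter.all false

noncomputable section

open scoped ENNReal LinearAlgebra.Projectivization
open Filter Topology Matrix TopologicalSpace

namespace Vale.Agent.P092.H448.Trb

open Vale.Agent.P092.H575 (Cl Bd KK dg Cone)
open Vale.Agent.P092.H820 (pj)

section mat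

variable {k : Type*} [NontriviallyNormedField k] [IsUltrametricDist k] [ProperSpace k]
  {ι : Type*} [Fintype ι] [DecidableEq ι]

/-- the operator of a matrix -/
def toC (A : Matrix ι ι k) : (ι → k) →L[k] (ι → k) :=
  LinearMap.toContinuousLinearMap (Matrix.toLin' A)

theorem toC_apply (A : Matrix ι ι k) (v : ι → k) : toC A v = A *ᵥ v := rfl

theorem toC_mul (A B : Matrix ι ι k) : toC (A * B) = toC A * toC B := by
  ext1 v
  show (A * B) *ᵥ v = A *ᵥ (B *ᵥ v)
  rw [Matrix.mulVec_mulVec]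

theorem toC_one : toC (1 : Matrix ι ι k) = 1 := by
  ext1 v
  show (1 : Matrix ι ι k) *ᵥ v = v
  rw [Matrix.one_mulVec]

theorem toC_smul (c : k) (A : Matrix ι ι k) : toC (c • A) = c • toC A := by
  ext1 v
  show (c • A) *ᵥ v = c • (A *ᵥ v)
  rw [Matrix.smul_mulVec]

theorem toC_add (A B : Matrix ι ι k) : toC (A + B) = toC A + toC B := by
  ext1 v
  show (A + B) *ᵥ v = A *ᵥ v + B *ᵥ v
  rw [Matrix.add_mulVec]

theorem mulVec_le {A : Matrix ι ι k} {r : ℝ} (hr : 0 ≤ r) (h : Cl A r) (v : ι → k) :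
    ‖A *ᵥ v‖ ≤ r * ‖v‖ := by
  rw [pi_norm_le_iff_of_nonneg (by positivity)]
  intro i
  refine IsUltrametricDist.norm_sum_le_of_forall_le_of_nonneg (by positivity) fun j _ => ?_
  rw [norm_mul]
  exact mul_le_mul (h i j) (norm_le_pi_norm v j) (norm_nonneg _) hr

theorem norm_toC_le {A : Matrix ι ι k} {r : ℝ} (hr : 0 ≤ r) (h : Cl A r) : ‖toC A‖ ≤ r :=
  ContinuousLinearMap.opNorm_le_bound _ hr fun v => mulVec_le hr h v

theorem cl_of_norm {T : (ι → k) →L[k] (ι → k)} {r : ℝ} (h : ‖T‖ ≤ r) :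
    Cl (LinearMap.toMatrix' (T : (ι → k) →ₗ[k] (ι → k))) r := by
  intro i j
  rw [LinearMap.toMatrix'_apply]
  have h1 : ‖T (Pi.single j 1)‖ ≤ r * 1 := by
    refine (T.le_of_opNorm_le h _).trans (mul_le_mul_of_nonneg_left ?_ ((norm_nonneg _).trans h))
    rw [Pi.norm_single, norm_one]
  rw [mul_one] at h1
  exact (norm_le_pi_norm _ i).trans h1

theorem det_le {A : Matrix ι ι k} {r : ℝ} (hr : 0 ≤ r) (h : Cl A r) :
    ‖A.det‖ ≤ r ^ Fintype.card ι := by
  rw [Matrix.det_apply]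
  refine IsUltrametricDist.norm_sum_le_of_forall_le_of_nonneg (by positivity) fun σ _ => ?_
  have h1 : ‖Equiv.Perm.sign σ • ∏ i, A (σ i) i‖ = ‖∏ i, A (σ i) i‖ := by
    rcases Int.units_eq_one_or (Equiv.Perm.sign σ) with h2 | h2
    · rw [h2, one_smul]
    · rw [h2]
      show ‖(-1 : ℤˣ) • ∏ i, A (σ i) i‖ = _
      rw [Units.neg_smul, one_smul, norm_neg]
  rw [h1, norm_prod]
  refine (Finset.prod_le_prod (fun i _ => norm_nonneg _) fun i _ => h (σ i) i).trans ?_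
  rw [Finset.prod_const, Finset.card_univ]

/-! ### Columns -/

variable (o : ι)

/-- the column `c e_o` -/
def col (c : Matrix ι ι k) : ι → k := fun i => c i o

theorem mulVec_single (c : Matrix ι ι k) : c *ᵥ (Pi.single o 1) = col o c := by
  ext i
  rw [Matrix.mulVec_single_one]
  rfl

theorem col_ne (c : (Matrix ι ι k)ˣ) : col o c.1 ≠ 0 := by
  intro h
  have h1 : (c⁻¹).1 *ᵥ (c.1 *ᵥ (Pi.single o 1)) = Pi.single o (1 : k) := by
    rw [Matrix.mulVec_mulVec, Units.inv_mul, Matrix.one_mulVec]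
  rw [mulVec_single, h, Matrix.mulVec_zero] at h1
  have h2 := congrFun h1 o
  rw [Pi.single_eq_same, Pi.zero_apply] at h2
  exact zero_ne_one h2

theorem col_le {c : Matrix ι ι k} {B : ℝ} (hB : 0 ≤ B) (h : Cl c B) : ‖col o c‖ ≤ B := by
  rw [pi_norm_le_iff_of_nonneg hB]
  exact fun i => h i o

theorem le_col {c : (Matrix ι ι k)ˣ} {B : ℝ} (hB : 0 < B) (h : Bd B c) : B⁻¹ ≤ ‖col o c.1‖ := by
  have h1 : (c⁻¹).1 *ᵥ (c.1 *ᵥ (Pi.single o 1)) = Pi.single o (1 : k) := by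
    rw [Matrix.mulVec_mulVec, Units.inv_mul, Matrix.one_mulVec]
  rw [mulVec_single] at h1
  have h2 := mulVec_le hB.le h.2 (col o c.1)
  rw [h1] at h2
  have h3 : ‖(Pi.single o (1 : k) : ι → k)‖ = 1 := by
    rw [Pi.norm_single, norm_one]
  rw [h3] at h2
  rw [inv_le_iff_one_le_mul₀ hB, mul_comm]
  exact h2

/-- vectors with direction in a set of points -/
def Vc (δ : ℝ) (C : Set (ℙ k (ι → k))) : Set (ι → k) :=
  {v | ‖v‖ ≤ 1 ∧ δ ≤ ‖v‖ ∧ ∃ h : v ≠ 0, Projectivization.mk k v h ∈ C}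

theorem isCompact_Vc {δ : ℝ} (hδ : 0 < δ) {C : Set (ℙ k (ι → k))} (hC : IsClosed C) :
    IsCompact (Vc δ C) := by
  have h0 : IsCompact {v : ι → k | ‖v‖ ≤ 1 ∧ δ ≤ ‖v‖} := by
    refine (isCompact_closedBall (0 : ι → k) 1).of_isClosed_subset ?_ ?_
    · exact (isClosed_le continuous_norm continuous_const).inter
        (isClosed_le continuous_const continuous_norm)
    · rintro v ⟨h, -⟩
      simpa using h
  let f : {v : ι → k // ‖v‖ ≤ 1 ∧ δ ≤ ‖v‖} → ℙ k (ι → k) := fun v =>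
    pj k ι ⟨v.1, fun h => by
      have := v.2.2
      rw [h, norm_zero] at this
      exact absurd this (not_le.2 hδ)⟩
  have hf : Continuous f := H820.pj_continuous.comp (Continuous.subtype_mk continuous_subtype_val _)
  have h1 : Vc δ C = Subtype.val '' (f ⁻¹' C) := by
    ext v
    constructor
    · rintro ⟨h1, h2, h3, h4⟩
      exact ⟨⟨v, h1, h2⟩, h4, rfl⟩
    · rintro ⟨⟨v, h1, h2⟩, h3, rfl⟩
      exact ⟨h1, h2, _, h3⟩
  rw [h1]
  haveI : CompactSpace {v : ι → k // ‖v‖ ≤ 1 ∧ δ ≤ ‖v‖} := isCompact_iff_compactSpace.1 h0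
  exact (hC.preimage hf).isCompact.image continuous_subtype_val

theorem indep_of_disj {δ : ℝ} {C C' : Set (ℙ k (ι → k))} (hd : Disjoint C C') :
    ∀ x ∈ Vc δ C, ∀ x' ∈ Vc δ C', ∀ a b : k, a • x + b • x' = 0 → a = 0 ∧ b = 0 := by
  rintro x ⟨-, -, hx0, hx⟩ x' ⟨-, -, hx0', hx'⟩ a b hab
  have key : ∀ {a b : k} {x x' : ι → k} (hx0 : x ≠ 0) (hx0' : x' ≠ 0), a • x + b • x' = 0 →
      a ≠ 0 → Projectivization.mk k x hx0 = Projectivization.mk k x' hx0' := by
    intro a b x x' hx0 hx0' hab ha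
    have hb : b ≠ 0 := by
      rintro rfl
      rw [zero_smul, add_zero, smul_eq_zero] at hab
      exact hab.elim ha hx0
    rw [Projectivization.mk_eq_mk_iff]
    refine ⟨Units.mk0 (-(a⁻¹ * b)) (neg_ne_zero.2 (mul_ne_zero (inv_ne_zero ha) hb)), ?_⟩
    show (-(a⁻¹ * b)) • x' = x
    have h1 : x = a⁻¹ • (a • x) := by rw [smul_smul, inv_mul_cancel₀ ha, one_smul]
    rw [h1, eq_neg_of_add_eq_zero_left hab, smul_neg, smul_smul, neg_smul]
  by_cases ha : a = 0
  · refine ⟨ha, ?_⟩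
    by_contra hb
    have h1 := key hx0' hx0 (by rw [add_comm]; exact hab) hb
    exact Set.disjoint_left.1 hd hx (h1 ▸ hx')
  · have h1 := key hx0 hx0' hab ha
    exact absurd (h1 ▸ hx') (Set.disjoint_left.1 hd hx)

/-! ### The cones are wall-close -/

theorem dg_eq (α : kˣ) : (dg (ι := ι) o α).1 =
    1 + ((α : k) - 1) • Matrix.single o o (1 : k) := by
  ext i j
  rw [H575.dg_val, Matrix.add_apply, Matrix.smul_apply, Matrix.diagonal_apply, Matrix.one_apply,
    Matrix.single_apply]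
  by_cases hij : i = j
  · subst hij
    by_cases hi : i = o
    · subst hi; simp
    · simp [hi, Ne.symm hi]
  · by_cases hi : i = o
    · subst hi
      simp [hij]
    · simp [hij, Ne.symm hi]

theorem wc_cone {B : ℝ} (hB : 1 ≤ B) {lc : k} (hlc : lc ≠ 0) {c κ : (Matrix ι ι k)ˣ} {α : kˣ}
    (hc : Bd B c) (hα : 1 ≤ ‖(α : k)‖) (hκ : κ ∈ KK k ι) :
    WC B (lc⁻¹ • col o c.1) (toC (c * dg o α * κ).1) (toC ((c * dg o α * κ)⁻¹).1) := by
  have hκ' := H575.mem_KK.1 hκ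
  have hB0 : 0 ≤ B := zero_le_one.trans hB
  refine ⟨?_, ?_, ?_, ?_⟩
  · rw [← toC_mul, Units.mul_inv, toC_one]
  · rw [← toC_mul, Units.inv_mul, toC_one]
  · refine norm_toC_le hB0 ?_
    have e : (c * dg o α * κ)⁻¹ = κ⁻¹ * (dg o α)⁻¹ * c⁻¹ := by group
    rw [e, Units.val_mul, Units.val_mul]
    have h1 : Cl ((dg (ι := ι) o α)⁻¹).1 1 := by
      intro i j
      rw [H575.dg_inv_val, Matrix.diagonal_apply]
      split_ifs with h1 h2
      · rw [Units.val_inv_eq_inv_val, norm_inv]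
        exact inv_le_one_of_one_le₀ hα
      · rw [norm_one]
      · rw [norm_zero]; exact zero_le_one
    have h2 := (hκ'.2.mul h1).mul hc.2
    rwa [one_mul, one_mul] at h2
  · let φ : (ι → k) →L[k] k := (((α : k) - 1) * lc) •
      ((ContinuousLinearMap.proj (R := k) o : (ι → k) →L[k] k).comp (toC κ.1))
    refine ⟨φ, toC (c.1 * κ.1), norm_toC_le hB0 ?_, ?_⟩
    · have h2 := hc.1.mul hκ'.1
      rwa [mul_one] at h2
    · rw [Units.val_mul, Units.val_mul, dg_eq, mul_add, mul_one, add_mul, toC_add, add_comm]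
      congr 1
      ext1 v
      show (c.1 * (((α : k) - 1) • Matrix.single o o (1 : k)) * κ.1) *ᵥ v =
        ((((α : k) - 1) * lc) • (κ.1 *ᵥ v) o) • (lc⁻¹ • col o c.1)
      rw [Matrix.mul_smul, Matrix.smul_mul, Matrix.smul_mulVec, ← Matrix.mulVec_mulVec,
        ← Matrix.mulVec_mulVec]
      have h1 : Matrix.single o o (1 : k) *ᵥ (κ.1 *ᵥ v) = (κ.1 *ᵥ v) o • Pi.single o (1 : k) := by
        ext i
        rw [Matrix.single_mulVec]
        by_cases hi : i = o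
        · subst hi; simp
        · simp [hi, Function.update_apply]
      rw [h1, Matrix.mulVec_smul, mulVec_single, smul_smul, smul_smul, smul_eq_mul]
      congr 1
      field_simp

/-! ### The counting bound for cones -/

variable {Γ : Type*} [Group Γ]

theorem proj_toC (q : Γ →* (Matrix ι ι k)ˣ) : Proj k (fun γ => toC (q γ).1) where
  one := ⟨1, one_ne_zero, by rw [map_one, Units.val_one, toC_one, one_smul]⟩
  mul a b := ⟨1, one_ne_zero, by rw [map_mul, Units.val_mul, toC_mul, one_smul]⟩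

/-- **The counting bound**: `D`, `D'` bounded sets of matrices with disjoint sets of base points. -/
theorem cone_card (h3 : 2 < Fintype.card ι) (q : Γ →* (Matrix ι ι k)ˣ)
    (hfin : ∀ B : ℝ, {γ : Γ | ∃ (z : kˣ) (g : (Matrix ι ι k)ˣ), (q γ).1 = (z : k) • g.1 ∧
      Bd B g}.Finite) {B T T' : ℝ} (hB : 1 ≤ B) (hT : 1 ≤ T) (hT' : 1 ≤ T')
    {D D' : Set (Matrix ι ι k)ˣ} (hD : ∀ c ∈ D, Bd B c) (hD' : ∀ c ∈ D', Bd B c)
    {C C' : Set (ℙ k (ι → k))} (hC : IsClosed C) (hC' : IsClosed C') (hd : Disjoint C C')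
    (hDC : ∀ c ∈ D, Projectivization.mk k (col o c.1) (col_ne o c) ∈ C)
    (hDC' : ∀ c ∈ D', Projectivization.mk k (col o c.1) (col_ne o c) ∈ C') :
    ∃ N : ℕ, ∀ η : Γ, {γ : Γ | q γ ∈ Cone o T D ∧ q (γ * η) ∈ Cone o T' D'}.encard ≤ N := by
  have hB0 : 0 < B := zero_lt_one.trans_le hB
  obtain ⟨lc, hlc⟩ := NormedField.exists_lt_norm k B
  have hlc0 : lc ≠ 0 := by
    rintro rfl
    rw [norm_zero] at hlc
    exact absurd hlc (not_lt.2 hB0.le)
  have hlcn : 0 < ‖lc‖ := norm_pos_iff.2 hlc0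
  set δ : ℝ := (B * ‖lc‖)⁻¹ with hδ
  have hδ0 : 0 < δ := by positivity
  obtain ⟨Ds, hDs, hsep⟩ := exists_sep (𝕜 := k) (isCompact_Vc hδ0 hC) (isCompact_Vc hδ0 hC')
    (indep_of_disj hd)
  obtain ⟨N, hN⟩ := wall_card (𝕜 := k) (E := ι → k) (r := fun γ => toC (q γ).1)
    (C := B) (D := Ds) (X := Vc δ C) (X' := Vc δ C') (by
      rw [Module.finrank_fintype_fun_eq_card]; exact h3) (proj_toC q) (fun B' => by
      refine (hfin B').subset ?_
      rintro γ ⟨z, T, T₁, hz, h1, h2, h3, h4, h5⟩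
      refine ⟨Units.mk0 z hz, ⟨LinearMap.toMatrix' (T : (ι → k) →ₗ[k] (ι → k)),
        LinearMap.toMatrix' (T₁ : (ι → k) →ₗ[k] (ι → k)), ?_, ?_⟩, ?_, cl_of_norm h4,
        cl_of_norm h5⟩
      · rw [← LinearMap.toMatrix'_comp, ← LinearMap.toMatrix'_one]
        exact congrArg _ (congrArg (fun S : (ι → k) →L[k] (ι → k) => (S : (ι → k) →ₗ[k] (ι → k))) h2)
      · rw [← LinearMap.toMatrix'_comp, ← LinearMap.toMatrix'_one]
        exact congrArg _ (congrArg (fun S : (ι → k) →L[k] (ι → k) => (S : (ι → k) →ₗ[k] (ι → k))) h3)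
      · show (q γ).1 = z • LinearMap.toMatrix' (T : (ι → k) →ₗ[k] (ι → k))
        rw [← map_smul]
        have h6 : ((z • T : (ι → k) →L[k] (ι → k)) : (ι → k) →ₗ[k] (ι → k)) =
          Matrix.toLin' (q γ).1 := by rw [← h1]; rfl
        have h7 := congrArg LinearMap.toMatrix' h6
        rw [LinearMap.toMatrix'_toLin'] at h7
        exact h7.symm) hB hDs (fun x hx => hx.1) (fun x hx => hx.1) hsep
  refine ⟨N, fun η => (Set.encard_le_encard ?_).trans (hN η)⟩
  have key : ∀ {T : ℝ} {D : Set (Matrix ι ι k)ˣ} {C : Set (ℙ k (ι → k))}, 1 ≤ T →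
      (∀ c ∈ D, Bd B c) →
      (∀ c ∈ D, Projectivization.mk k (col o c.1) (col_ne o c) ∈ C) → ∀ γ : Γ,
      q γ ∈ Cone o T D → γ ∈ Wal (𝕜 := k) (fun γ => toC (q γ).1) B (Vc δ C) := by
    rintro T D C hT hD hDC γ ⟨c, hc, α, hα, κ, hκ, z, h⟩
    refine ⟨z, lc⁻¹ • col o c.1, toC (c * dg o α * κ).1, toC ((c * dg o α * κ)⁻¹).1, z.ne_zero,
      ⟨?_, ?_, ?_⟩, ?_, wc_cone o hB hlc0 (hD c hc) (hT.trans hα) hκ⟩
    · rw [norm_smul, norm_inv, inv_mul_le_iff₀ hlcn, mul_one]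
      exact (col_le o hB0.le (hD c hc).1).trans hlc.le
    · rw [norm_smul, norm_inv, hδ, mul_inv, mul_comm]
      exact mul_le_mul_of_nonneg_left (le_col o hB0 (hD c hc)) (by positivity)
    · refine ⟨smul_ne_zero (inv_ne_zero hlc0) (col_ne o c), ?_⟩
      have h1 : Projectivization.mk k (lc⁻¹ • col o c.1)
          (smul_ne_zero (inv_ne_zero hlc0) (col_ne o c)) =
          Projectivization.mk k (col o c.1) (col_ne o c) := by
        rw [Projectivization.mk_eq_mk_iff]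
        exact ⟨Units.mk0 lc⁻¹ (inv_ne_zero hlc0), rfl⟩
      rw [h1]
      exact hDC c hc
    · show toC (q γ).1 = (z : k) • toC (c * dg o α * κ).1
      rw [h, toC_smul]
  rintro γ ⟨h1, h2⟩
  exact ⟨key hT hD hDC γ h1, key hT' hD' hDC' (γ * η) h2⟩

end mat

end Vale.Agent.P092.H448.Trb
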