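import Mathlib

/-! # [C-TR] The trace bound (step (1) of the r = 1 argument): elements near a wall of type one.
`γ` is wall-close with base vector `x` if `γ = x ⊗ φ + r`, `r` and `γ⁻¹` bounded. If `γ₁, γ₂` are
wall-close with bases in `X`, and `γ₁ η, γ₂ η` are wall-close with bases in `X'` separated from `X`,
then `γ₁ γ₂⁻¹` is bounded up to scalars (dimension at least three). -/

noncomputable section

open scoped ENNReal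

namespace Vale.Agent.P092.H448.Trb

variable {𝕜 E : Type*} [NontriviallyNormedField 𝕜] [NormedAddCommGroup E] [NormedSpace 𝕜 E]

/-- wall-close with base vector `x` and constant `C`; `T'` is the inverse of `T` -/
structure WC (C : ℝ) (x : E) (T T' : E →L[𝕜] E) : Prop where
  mul_inv : T * T' = 1
  inv_mul : T' * T = 1
  bd : ‖T'‖ ≤ C
  dec : ∃ (φ : E →L[𝕜] 𝕜) (r : E →L[𝕜] E), ‖r‖ ≤ C ∧ T = φ.smulRight x + r

/-- the two directions `x`, `x'` are separated -/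
def Sep (𝕜 : Type*) [NontriviallyNormedField 𝕜] [NormedSpace 𝕜 E] (D : ℝ) (x x' : E) : Prop :=
  ∀ a b : 𝕜, ‖a‖ ≤ D * ‖a • x + b • x'‖ ∧ ‖b‖ ≤ D * ‖a • x + b • x'‖

theorem Sep.symm {D : ℝ} {x x' : E} (h : Sep 𝕜 D x x') : Sep 𝕜 D x' x := by
  intro a b
  have := h b a
  rw [add_comm] at this
  exact ⟨this.2, this.1⟩

/-- the quotient of two wall-close elements: rank one plus bounded -/
theorem quot_dec {C : ℝ} (hC : 0 ≤ C) {x₁ x₂ : E} {T₁ T₁' T₂ T₂' : E →L[𝕜] E}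
    (h₁ : WC C x₁ T₁ T₁') (h₂ : WC C x₂ T₂ T₂') :
    ∃ (ψ : E →L[𝕜] 𝕜) (R : E →L[𝕜] E), ‖R‖ ≤ C * C ∧ T₁ * T₂' = ψ.smulRight x₁ + R := by
  obtain ⟨φ, r, hr, hT⟩ := h₁.dec
  refine ⟨φ.comp T₂', r * T₂', ?_, ?_⟩
  · exact (norm_mul_le _ _).trans (mul_le_mul hr h₂.bd (norm_nonneg _) hC)
  · rw [hT, add_mul]
    congr 1

/-- one half of the comparison -/
theorem half {C D : ℝ} (hD : 0 ≤ D) {x x' : E} (hx : ‖x‖ ≤ 1) (hs : Sep 𝕜 D x x')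
    {g R R' : E →L[𝕜] E} {ψ ψ' : E →L[𝕜] 𝕜} {c : 𝕜} (hc : ‖c‖ ≤ 1)
    (hR : ‖R‖ ≤ C) (hR' : ‖R'‖ ≤ C) (hg : g = ψ.smulRight x + R)
    (hg' : c • g = ψ'.smulRight x' + R') : ‖c • g‖ ≤ (2 * D + 1) * C := by
  have hC : 0 ≤ C := (norm_nonneg _).trans hR
  have key : ∀ v, ‖c * ψ v‖ ≤ 2 * D * C * ‖v‖ := by
    intro v
    have h1 : (c * ψ v) • x + (-ψ' v) • x' = R' v - c • R v := by
      have e1 : (c • g) v = c • (ψ v • x) + c • R v := by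
        rw [hg]; simp [smul_add]
      have e2 : (c • g) v = ψ' v • x' + R' v := by
        rw [hg']; simp
      have e3 : c • (ψ v • x) + c • R v = ψ' v • x' + R' v := by rw [← e1, e2]
      rw [mul_smul, neg_smul, ← sub_eq_add_neg, sub_eq_sub_iff_add_eq_add, e3, add_comm]
    have h2 := (hs (c * ψ v) (-ψ' v)).1
    rw [h1] at h2
    have h3 : ‖R' v - c • R v‖ ≤ 2 * C * ‖v‖ := by
      calc ‖R' v - c • R v‖ ≤ ‖R' v‖ + ‖c • R v‖ := norm_sub_le _ _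
        _ ≤ C * ‖v‖ + 1 * (C * ‖v‖) := by
            rw [norm_smul]
            refine add_le_add (R'.le_of_opNorm_le hR' v)
              (mul_le_mul hc (R.le_of_opNorm_le hR v) (norm_nonneg _) zero_le_one)
        _ = 2 * C * ‖v‖ := by ring
    calc ‖c * ψ v‖ ≤ D * ‖R' v - c • R v‖ := h2
      _ ≤ D * (2 * C * ‖v‖) := mul_le_mul_of_nonneg_left h3 hD
      _ = 2 * D * C * ‖v‖ := by ring
  refine ContinuousLinearMap.opNorm_le_bound _ (by positivity) (fun v => ?_)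
  have e1 : (c • g) v = (c * ψ v) • x + c • R v := by
    rw [hg]; simp [smul_add, mul_smul]
  rw [e1]
  calc ‖(c * ψ v) • x + c • R v‖ ≤ ‖(c * ψ v) • x‖ + ‖c • R v‖ := norm_add_le _ _
    _ ≤ (2 * D * C * ‖v‖) * 1 + 1 * (C * ‖v‖) := by
        rw [norm_smul, norm_smul]
        refine add_le_add (mul_le_mul (key v) hx (norm_nonneg _) (by positivity))
          (mul_le_mul hc (R.le_of_opNorm_le hR v) (norm_nonneg _) zero_le_one)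
    _ = (2 * D + 1) * C * ‖v‖ := by ring

/-- the second half: the inverse is bounded when the scalar is at most one -/
theorem half' {C D : ℝ} (hD : 0 ≤ D) {x x' : E} (hx : ‖x‖ ≤ 1) (hs : Sep 𝕜 D x x')
    {g S S' : E →L[𝕜] E} {χ χ' : E →L[𝕜] 𝕜} {c : 𝕜} (hc : ‖c‖ ≤ 1)
    (hS : ‖S‖ ≤ C) (hS' : ‖S'‖ ≤ C) (hg : g = χ.smulRight x + S)
    (hg' : g = c • (χ'.smulRight x' + S')) : ‖g‖ ≤ (2 * D + 1) * C := by
  have hC : 0 ≤ C := (norm_nonneg _).trans hS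
  have h1 : ‖(1 : 𝕜) • g‖ ≤ (2 * D + 1) * C := by
    refine half (R := S) (R' := c • S') (ψ := χ) (ψ' := c • χ') hD hx hs (by simp) hS ?_ hg ?_
    · rw [norm_smul]
      calc ‖c‖ * ‖S'‖ ≤ 1 * C := mul_le_mul hc hS' (norm_nonneg _) zero_le_one
        _ = C := one_mul _
    · rw [one_smul, hg', smul_add]
      congr 1
      ext v
      simp [smul_smul]
  rwa [one_smul] at h1

/-- **the wall lemma, `‖c‖ ≤ 1`** -/
theorem wall_aux [FiniteDimensional 𝕜 E] (hdim : 2 < Module.finrank 𝕜 E) {C D : ℝ} (hC : 1 ≤ C)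
    (hD : 0 ≤ D) {x₁ x₂ x₁' x₂' : E} (hx₁ : ‖x₁‖ ≤ 1) (hx₂ : ‖x₂‖ ≤ 1)
    (hs₁ : Sep 𝕜 D x₁ x₁') (hs₂ : Sep 𝕜 D x₂ x₂')
    {T₁ T₁' T₂ T₂' S₁ S₁' S₂ S₂' : E →L[𝕜] E}
    (h₁ : WC C x₁ T₁ T₁') (h₂ : WC C x₂ T₂ T₂') (h₁' : WC C x₁' S₁ S₁') (h₂' : WC C x₂' S₂ S₂')
    {c : 𝕜} (hc0 : c ≠ 0) (hc : ‖c‖ ≤ 1) (hg : S₁ * S₂' = c • (T₁ * T₂')) :
    ‖c • (T₁ * T₂')‖ ≤ (2 * D + 1) * C ^ 6 ∧ ‖c⁻¹ • (T₂ * T₁')‖ ≤ (2 * D + 1) * C ^ 6 := by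
  have hC0 : 0 ≤ C := zero_le_one.trans hC
  obtain ⟨ψ, R, hR, hψ⟩ := quot_dec hC0 h₁ h₂
  obtain ⟨ψ', R', hR', hψ'⟩ := quot_dec hC0 h₁' h₂'
  obtain ⟨χ, S, hS, hχ⟩ := quot_dec hC0 h₂ h₁
  obtain ⟨χ', S', hS', hχ'⟩ := quot_dec hC0 h₂' h₁'
  -- inverse relation
  have hinv : T₂ * T₁' = c • (S₂ * S₁') := by
    have e1 : (S₂ * S₁') * (S₁ * S₂') = 1 := by
      rw [mul_assoc, ← mul_assoc S₁' S₁, h₁'.inv_mul, one_mul, h₂'.mul_inv]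
    have e2 : (T₁ * T₂') * (T₂ * T₁') = 1 := by
      rw [mul_assoc, ← mul_assoc T₂' T₂, h₂.inv_mul, one_mul, h₁.mul_inv]
    calc T₂ * T₁' = ((S₂ * S₁') * (S₁ * S₂')) * (T₂ * T₁') := by rw [e1, one_mul]
      _ = c • ((S₂ * S₁') * ((T₁ * T₂') * (T₂ * T₁'))) := by
          rw [hg, mul_smul_comm, smul_mul_assoc, mul_assoc]
      _ = c • (S₂ * S₁') := by rw [e2, mul_one]
  have hb1 : ‖c • (T₁ * T₂')‖ ≤ (2 * D + 1) * (C * C) :=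
    half hD hx₁ hs₁ hc hR hR' hψ (by rw [← hg, hψ'])
  have hb2 : ‖T₂ * T₁'‖ ≤ (2 * D + 1) * (C * C) :=
    half' hD hx₂ hs₂ hc hS hS' hχ (by rw [← hχ', hinv])
  -- the third direction
  have hlow : 1 ≤ ‖c‖ * C ^ 4 := by
    let L : E →ₗ[𝕜] 𝕜 × 𝕜 := LinearMap.prod (ψ : E →ₗ[𝕜] 𝕜)
      ((χ'.comp (T₁ * T₂') : E →L[𝕜] 𝕜) : E →ₗ[𝕜] 𝕜)
    have hker : LinearMap.ker L ≠ ⊥ := by
      apply LinearMap.ker_ne_bot_of_finrank_lt
      rw [Module.finrank_prod, Module.finrank_self]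
      exact hdim
    obtain ⟨v, hv, hv0⟩ := (Submodule.ne_bot_iff _).1 hker
    rw [LinearMap.mem_ker] at hv
    have hv1 : ψ v = 0 := congrArg Prod.fst hv
    have hv2 : χ' ((T₁ * T₂') v) = 0 := congrArg Prod.snd hv
    have e1 : (T₁ * T₂') v = R v := by rw [hψ]; simp [hv1]
    have e2 : v = (T₂ * T₁') ((T₁ * T₂') v) := by
      have e : (T₂ * T₁') * (T₁ * T₂') = 1 := by
        rw [mul_assoc, ← mul_assoc T₁' T₁, h₁.inv_mul, one_mul, h₂.mul_inv]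
      calc v = ((T₂ * T₁') * (T₁ * T₂')) v := by rw [e]; rfl
        _ = _ := rfl
    have e3 : (T₂ * T₁') ((T₁ * T₂') v) = c • S' (R v) := by
      rw [hinv, hχ']
      simp only [ContinuousLinearMap.smul_apply, ContinuousLinearMap.add_apply,
        ContinuousLinearMap.smulRight_apply]
      rw [hv2, zero_smul, zero_add, e1]
    have e4 : ‖v‖ ≤ ‖c‖ * ((C * C) * ((C * C) * ‖v‖)) := by
      conv_lhs => rw [e2, e3, norm_smul]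
      refine mul_le_mul_of_nonneg_left ?_ (norm_nonneg _)
      exact (S'.le_of_opNorm_le hS' _).trans
        (mul_le_mul_of_nonneg_left (R.le_of_opNorm_le hR v) (by positivity))
    have e5 : 0 < ‖v‖ := norm_pos_iff.2 hv0
    have e6 : 1 * ‖v‖ ≤ (‖c‖ * C ^ 4) * ‖v‖ := by
      calc 1 * ‖v‖ = ‖v‖ := one_mul _
        _ ≤ _ := e4
        _ = (‖c‖ * C ^ 4) * ‖v‖ := by ring
    exact le_of_mul_le_mul_right e6 e5
  have hD1 : 0 ≤ 2 * D + 1 := by positivity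
  refine ⟨hb1.trans (mul_le_mul_of_nonneg_left ?_ hD1), ?_⟩
  · calc C * C = C ^ 2 := by ring
      _ ≤ C ^ 6 := pow_le_pow_right₀ hC (by norm_num)
  · have hcinv : ‖c⁻¹‖ ≤ C ^ 4 := by
      rw [norm_inv]
      have hcpos : 0 < ‖c‖ := norm_pos_iff.2 hc0
      rw [inv_le_iff_one_le_mul₀ hcpos]
      rwa [mul_comm]
    rw [norm_smul]
    calc ‖c⁻¹‖ * ‖T₂ * T₁'‖ ≤ C ^ 4 * ((2 * D + 1) * (C * C)) :=
          mul_le_mul hcinv hb2 (norm_nonneg _) (by positivity)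
      _ = (2 * D + 1) * C ^ 6 := by ring

/-- **the wall lemma**: the quotient `g = T₁ T₂⁻¹` is bounded up to a scalar -/
theorem wall_bdd [FiniteDimensional 𝕜 E] (hdim : 2 < Module.finrank 𝕜 E) {C D : ℝ} (hC : 1 ≤ C)
    (hD : 0 ≤ D) {x₁ x₂ x₁' x₂' : E} (hx₁ : ‖x₁‖ ≤ 1) (hx₂ : ‖x₂‖ ≤ 1) (hx₁' : ‖x₁'‖ ≤ 1)
    (hx₂' : ‖x₂'‖ ≤ 1) (hs₁ : Sep 𝕜 D x₁ x₁') (hs₂ : Sep 𝕜 D x₂ x₂')
    {T₁ T₁' T₂ T₂' S₁ S₁' S₂ S₂' : E →L[𝕜] E}
    (h₁ : WC C x₁ T₁ T₁') (h₂ : WC C x₂ T₂ T₂') (h₁' : WC C x₁' S₁ S₁') (h₂' : WC C x₂' S₂ S₂')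
    {c : 𝕜} (hc0 : c ≠ 0) (hg : S₁ * S₂' = c • (T₁ * T₂')) :
    ∃ b : 𝕜, b ≠ 0 ∧ ‖b • (T₁ * T₂')‖ ≤ (2 * D + 1) * C ^ 6 ∧
      ‖b⁻¹ • (T₂ * T₁')‖ ≤ (2 * D + 1) * C ^ 6 := by
  rcases le_total ‖c‖ 1 with hc | hc
  · exact ⟨c, hc0, wall_aux hdim hC hD hx₁ hx₂ hs₁ hs₂ h₁ h₂ h₁' h₂' hc0 hc hg⟩
  · have hc' : ‖c⁻¹‖ ≤ 1 := by rw [norm_inv]; exact inv_le_one_of_one_le₀ hc
    have hg' : T₁ * T₂' = c⁻¹ • (S₁ * S₂') := by rw [hg, smul_smul, inv_mul_cancel₀ hc0, one_smul]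
    have h := wall_aux hdim hC hD hx₁' hx₂' hs₁.symm hs₂.symm h₁' h₂' h₁ h₂ (inv_ne_zero hc0) hc' hg'
    -- invert the relation
    have hinv : T₂ * T₁' = c • (S₂ * S₁') := by
      have e1 : (S₂ * S₁') * (S₁ * S₂') = 1 := by
        rw [mul_assoc, ← mul_assoc S₁' S₁, h₁'.inv_mul, one_mul, h₂'.mul_inv]
      have e2 : (T₁ * T₂') * (T₂ * T₁') = 1 := by
        rw [mul_assoc, ← mul_assoc T₂' T₂, h₂.inv_mul, one_mul, h₁.mul_inv]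
      calc T₂ * T₁' = ((S₂ * S₁') * (S₁ * S₂')) * (T₂ * T₁') := by rw [e1, one_mul]
        _ = c • ((S₂ * S₁') * ((T₁ * T₂') * (T₂ * T₁'))) := by
            rw [hg, mul_smul_comm, smul_mul_assoc, mul_assoc]
        _ = c • (S₂ * S₁') := by rw [e2, mul_one]
    refine ⟨1, one_ne_zero, ?_, ?_⟩
    · rw [one_smul, hg']; exact h.1
    · rw [inv_one, one_smul, hinv]
      simpa using h.2

end Vale.Agent.P092.H448.Trb
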