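import Vale.Agent.P092.H448.Trb

/-! # [C-TR] The trace bound, part 2: cones, counting, the trace inequality before the limit. -/

set_option linter.all false

noncomputable section

open scoped ENNReal
open Filter Topology

namespace Vale.Agent.P092.H448.Trb

/-! ### Separation constants by compactness -/

section sep

variable {𝕜 E : Type*} [NontriviallyNormedField 𝕜] [ProperSpace 𝕜] [NormedAddCommGroup E]
  [NormedSpace 𝕜 E]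

theorem exists_sep {S S' : Set E} (hS : IsCompact S) (hS' : IsCompact S')
    (h : ∀ x ∈ S, ∀ x' ∈ S', ∀ a b : 𝕜, a • x + b • x' = 0 → a = 0 ∧ b = 0) :
    ∃ D : ℝ, 0 ≤ D ∧ ∀ x ∈ S, ∀ x' ∈ S', Sep 𝕜 D x x' := by
  have key : ∀ {S S' : Set E}, IsCompact S → IsCompact S' →
      (∀ x ∈ S, ∀ x' ∈ S', ∀ a b : 𝕜, a • x + b • x' = 0 → a = 0 ∧ b = 0) →
      ∃ δ : ℝ, 0 < δ ∧ ∀ x ∈ S, ∀ x' ∈ S', ∀ t : 𝕜, ‖t‖ ≤ 1 → δ ≤ ‖x + t • x'‖ := by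
    intro S S' hS hS' h
    have hK : IsCompact ((S ×ˢ S') ×ˢ Metric.closedBall (0 : 𝕜) 1) :=
      (hS.prod hS').prod (isCompact_closedBall _ _)
    rcases ((S ×ˢ S') ×ˢ Metric.closedBall (0 : 𝕜) 1).eq_empty_or_nonempty with he | hne
    · refine ⟨1, one_pos, fun x hx x' hx' t ht => ?_⟩
      have h1 : ((x, x'), t) ∈ (S ×ˢ S') ×ˢ Metric.closedBall (0 : 𝕜) 1 :=
        ⟨⟨hx, hx'⟩, by simpa using ht⟩
      rw [he] at h1
      exact absurd h1 (Set.notMem_empty _)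
    · obtain ⟨q, hq, hmin⟩ := hK.exists_isMinOn hne
        (f := fun q : (E × E) × 𝕜 => ‖q.1.1 + q.2 • q.1.2‖) (by fun_prop)
      refine ⟨‖q.1.1 + q.2 • q.1.2‖, ?_, fun x hx x' hx' t ht => ?_⟩
      · rw [norm_pos_iff]
        intro h0
        have h1 := h q.1.1 hq.1.1 q.1.2 hq.1.2 1 q.2 (by rw [one_smul]; exact h0)
        exact one_ne_zero h1.1
      · have h1 : ((x, x'), t) ∈ (S ×ˢ S') ×ˢ Metric.closedBall (0 : 𝕜) 1 :=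
          ⟨⟨hx, hx'⟩, by simpa using ht⟩
        exact hmin h1
  obtain ⟨δ, hδ, h1⟩ := key hS hS' h
  obtain ⟨δ', hδ', h2⟩ := key hS' hS (fun x hx x' hx' a b hab => by
    have := h x' hx' x hx b a (by rw [add_comm]; exact hab)
    exact ⟨this.2, this.1⟩)
  have hb : ∀ x ∈ S, ∀ x' ∈ S', ∀ a b : 𝕜, min δ δ' * max ‖a‖ ‖b‖ ≤ ‖a • x + b • x'‖ := by
    intro x hx x' hx' a b
    rcases le_total ‖b‖ ‖a‖ with hab | hab
    · rw [max_eq_left hab]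
      rcases eq_or_ne a 0 with rfl | ha
      · rw [norm_zero] at hab
        rw [norm_zero, mul_zero]
        exact norm_nonneg _
      · have h3 := h1 x hx x' hx' (a⁻¹ * b) (by
          rw [norm_mul, norm_inv, inv_mul_le_iff₀ (norm_pos_iff.2 ha), mul_one]
          exact hab)
        have h4 : a • x + b • x' = a • (x + (a⁻¹ * b) • x') := by
          rw [smul_add, smul_smul, mul_inv_cancel_left₀ ha]
        rw [h4, norm_smul, mul_comm]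
        exact mul_le_mul_of_nonneg_left ((min_le_left _ _).trans h3) (norm_nonneg _)
    · rw [max_eq_right hab]
      rcases eq_or_ne b 0 with rfl | hb
      · rw [norm_zero, mul_zero]
        exact norm_nonneg _
      · have h3 := h2 x' hx' x hx (b⁻¹ * a) (by
          rw [norm_mul, norm_inv, inv_mul_le_iff₀ (norm_pos_iff.2 hb), mul_one]
          exact hab)
        have h4 : a • x + b • x' = b • (x' + (b⁻¹ * a) • x) := by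
          rw [smul_add, smul_smul, mul_inv_cancel_left₀ hb, add_comm]
        rw [h4, norm_smul, mul_comm]
        exact mul_le_mul_of_nonneg_left ((min_le_right _ _).trans h3) (norm_nonneg _)
  have hm : 0 < min δ δ' := lt_min hδ hδ'
  refine ⟨(min δ δ')⁻¹, (inv_pos.2 hm).le, fun x hx x' hx' a b => ?_⟩
  have h3 := hb x hx x' hx' a b
  constructor
  · rw [← div_eq_inv_mul, le_div_iff₀ hm, mul_comm]
    exact (mul_le_mul_of_nonneg_left (le_max_left _ _) hm.le).trans h3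
  · rw [← div_eq_inv_mul, le_div_iff₀ hm, mul_comm]
    exact (mul_le_mul_of_nonneg_left (le_max_right _ _) hm.le).trans h3

theorem Sep.smul {D : ℝ} {x x' : E} (h : Sep 𝕜 D x x') {c : 𝕜} (hc : c ≠ 0) :
    Sep 𝕜 (D * ‖c‖⁻¹) (c • x) (c • x') := by
  intro a b
  have h1 := h a b
  have h2 : a • c • x + b • c • x' = c • (a • x + b • x') := by
    rw [smul_add, smul_comm a c, smul_comm b c]
  have h3 : D * ‖c‖⁻¹ * ‖a • c • x + b • c • x'‖ = D * ‖a • x + b • x'‖ := by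
    rw [h2, norm_smul]
    have : ‖c‖ ≠ 0 := norm_ne_zero_iff.2 hc
    field_simp
  rw [h3]
  exact h1

end sep

/-! ### Abstract counting -/

section count

variable {𝕜 E : Type*} [NontriviallyNormedField 𝕜] [NormedAddCommGroup E] [NormedSpace 𝕜 E]
  [FiniteDimensional 𝕜 E] {Γ : Type*} [Group Γ]

/-- A projective representation by operators (with inverses). -/
structure Proj (𝕜 : Type*) [NontriviallyNormedField 𝕜] [NormedSpace 𝕜 E]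
    (r : Γ → (E →L[𝕜] E)) : Prop where
  one : ∃ z : 𝕜, z ≠ 0 ∧ r 1 = z • (1 : E →L[𝕜] E)
  mul : ∀ a b, ∃ z : 𝕜, z ≠ 0 ∧ r (a * b) = z • (r a * r b)

/-- `γ` is represented by a wall-close operator with base in `X`. -/
def Wal (r : Γ → (E →L[𝕜] E)) (C : ℝ) (X : Set E) : Set Γ :=
  {γ | ∃ (z : 𝕜) (x : E) (T T' : E →L[𝕜] E), z ≠ 0 ∧ x ∈ X ∧ r γ = z • T ∧ WC C x T T'}

/-- `γ` is bounded up to scalars. -/
def Bdd (r : Γ → (E →L[𝕜] E)) (B : ℝ) : Set Γ :=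
  {γ | ∃ (z : 𝕜) (T T' : E →L[𝕜] E), z ≠ 0 ∧ r γ = z • T ∧ T * T' = 1 ∧ T' * T = 1 ∧
    ‖T‖ ≤ B ∧ ‖T'‖ ≤ B}

theorem Proj.inv {r : Γ → (E →L[𝕜] E)} (hr : Proj 𝕜 r) {γ : Γ} {z : 𝕜} {T T' : E →L[𝕜] E}
    (hz : z ≠ 0) (h : r γ = z • T) (hT : T' * T = 1) :
    ∃ w : 𝕜, w ≠ 0 ∧ r γ⁻¹ = w • T' := by
  obtain ⟨u, hu, h1⟩ := hr.one
  obtain ⟨v, hv, h2⟩ := hr.mul γ⁻¹ γ
  rw [inv_mul_cancel, h1, h] at h2
  -- `u • 1 = v • (r γ⁻¹ * (z • T))`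
  obtain ⟨u', hu', h3⟩ := hr.mul γ γ⁻¹
  rw [mul_inv_cancel, h1, h] at h3
  -- right inverse
  refine ⟨u * (u' * z)⁻¹, mul_ne_zero hu (inv_ne_zero (mul_ne_zero hu' hz)), ?_⟩
  have h4 : T' * (u • (1 : E →L[𝕜] E)) = T' * (u' • ((z • T) * r γ⁻¹)) := by rw [h3]
  rw [mul_smul_comm, mul_one, mul_smul_comm, smul_mul_assoc, mul_smul_comm, ← mul_assoc, hT,
    one_mul, smul_smul] at h4
  have h5 : (u' * z) ≠ 0 := mul_ne_zero hu' hz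
  rw [mul_comm, mul_smul, h4, smul_smul, inv_mul_cancel₀ h5, one_smul]

/-- **The wall lemma for groups.** -/
theorem wall_mem (hdim : 2 < Module.finrank 𝕜 E) {r : Γ → (E →L[𝕜] E)} (hr : Proj 𝕜 r)
    {C D : ℝ} (hC : 1 ≤ C) (hD : 0 ≤ D) {X X' : Set E} (hX : ∀ x ∈ X, ‖x‖ ≤ 1)
    (hX' : ∀ x ∈ X', ‖x‖ ≤ 1) (hs : ∀ x ∈ X, ∀ x' ∈ X', Sep 𝕜 D x x') {γ₁ γ₂ η : Γ}
    (h₁ : γ₁ ∈ Wal r C X) (h₂ : γ₂ ∈ Wal r C X) (h₁' : γ₁ * η ∈ Wal r C X')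
    (h₂' : γ₂ * η ∈ Wal r C X') : γ₁ * γ₂⁻¹ ∈ Bdd r ((2 * D + 1) * C ^ 6) := by
  obtain ⟨z₁, x₁, T₁, T₁', hz₁, hx₁, e₁, w₁⟩ := h₁
  obtain ⟨z₂, x₂, T₂, T₂', hz₂, hx₂, e₂, w₂⟩ := h₂
  obtain ⟨y₁, x₁', S₁, S₁', hy₁, hx₁', f₁, v₁⟩ := h₁'
  obtain ⟨y₂, x₂', S₂, S₂', hy₂, hx₂', f₂, v₂⟩ := h₂'
  -- the quotient computed in two ways
  obtain ⟨a, ha, ea⟩ := hr.inv hz₂ e₂ w₂.inv_mul
  obtain ⟨b, hb, eb⟩ := hr.mul γ₁ γ₂⁻¹
  rw [e₁, ea, smul_mul_smul_comm, smul_smul] at eb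
  obtain ⟨a', ha', ea'⟩ := hr.inv hy₂ f₂ v₂.inv_mul
  obtain ⟨b', hb', eb'⟩ := hr.mul (γ₁ * η) (γ₂ * η)⁻¹
  rw [f₁, ea', smul_mul_smul_comm, smul_smul] at eb'
  have hq : γ₁ * η * (γ₂ * η)⁻¹ = γ₁ * γ₂⁻¹ := by group
  rw [hq, eb] at eb'
  have hn : b * (z₁ * a) ≠ 0 := mul_ne_zero hb (mul_ne_zero hz₁ ha)
  have hn' : b' * (y₁ * a') ≠ 0 := mul_ne_zero hb' (mul_ne_zero hy₁ ha')
  have hg : S₁ * S₂' = ((b' * (y₁ * a'))⁻¹ * (b * (z₁ * a))) • (T₁ * T₂') := by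
    rw [mul_smul, eb', smul_smul, inv_mul_cancel₀ hn', one_smul]
  obtain ⟨c, hc, hc1, hc2⟩ := wall_bdd hdim hC hD (hX _ hx₁) (hX _ hx₂) (hX' _ hx₁') (hX' _ hx₂')
    (hs _ hx₁ _ hx₁') (hs _ hx₂ _ hx₂') w₁ w₂ v₁ v₂
    (mul_ne_zero (inv_ne_zero hn') hn) hg
  refine ⟨b * (z₁ * a) * c⁻¹, c • (T₁ * T₂'), c⁻¹ • (T₂ * T₁'), mul_ne_zero hn (inv_ne_zero hc),
    ?_, ?_, ?_, hc1, hc2⟩
  · rw [eb, smul_smul, mul_assoc _ c⁻¹ c, inv_mul_cancel₀ hc, mul_one]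
  · rw [smul_mul_smul_comm, mul_inv_cancel₀ hc, one_smul, mul_assoc, ← mul_assoc T₂', w₂.inv_mul,
      one_mul, w₁.mul_inv]
  · rw [smul_mul_smul_comm, inv_mul_cancel₀ hc, one_smul, mul_assoc, ← mul_assoc T₁', w₁.inv_mul,
      one_mul, w₂.mul_inv]

/-- **The counting lemma.** -/
theorem wall_card (hdim : 2 < Module.finrank 𝕜 E) {r : Γ → (E →L[𝕜] E)} (hr : Proj 𝕜 r)
    (hfin : ∀ B, (Bdd r B).Finite) {C D : ℝ} (hC : 1 ≤ C) (hD : 0 ≤ D) {X X' : Set E}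
    (hX : ∀ x ∈ X, ‖x‖ ≤ 1) (hX' : ∀ x ∈ X', ‖x‖ ≤ 1) (hs : ∀ x ∈ X, ∀ x' ∈ X', Sep 𝕜 D x x') :
    ∃ N : ℕ, ∀ η : Γ, {γ : Γ | γ ∈ Wal r C X ∧ γ * η ∈ Wal r C X'}.encard ≤ N := by
  refine ⟨(Bdd r ((2 * D + 1) * C ^ 6)).ncard, fun η => ?_⟩
  rcases {γ : Γ | γ ∈ Wal r C X ∧ γ * η ∈ Wal r C X'}.eq_empty_or_nonempty with he | ⟨γ₂, h2⟩
  · rw [he, Set.encard_empty]
    exact bot_le
  · have h3 : (fun γ => γ * γ₂⁻¹) '' {γ : Γ | γ ∈ Wal r C X ∧ γ * η ∈ Wal r C X'} ⊆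
        Bdd r ((2 * D + 1) * C ^ 6) := by
      rintro _ ⟨γ₁, h1, rfl⟩
      exact wall_mem hdim hr hC hD hX hX' hs h1.1 h2.1 h1.2 h2.2
    rw [← (mul_left_injective γ₂⁻¹).encard_image, (hfin _).cast_ncard_eq]
    exact Set.encard_le_encard h3

end count

/-! ### The trace inequality before the limit -/

section trace

variable {Γ : Type*} [Group Γ]

/-- Numerical form. -/
theorem tsum_le {A A' : Set Γ} {N : ℕ} (hN : ∀ η : Γ, {γ : Γ | γ ∈ A ∧ γ * η ∈ A'}.encard ≤ N)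
    {f f' : Γ → ℝ≥0∞} (hf : ∀ γ, f γ ≤ A.indicator 1 γ) (hf' : ∀ γ, f' γ ≤ A'.indicator 1 γ)
    (w : Γ → ℝ≥0∞) :
    ∑' γ, ∑' γ', f γ * f' γ' * w (γ⁻¹ * γ') ≤ N * ∑' η, w η := by
  have h1 : ∀ γ, ∑' γ', f γ * f' γ' * w (γ⁻¹ * γ') = ∑' η, f γ * f' (γ * η) * w η := by
    intro γ
    rw [← (Equiv.mulLeft γ).tsum_eq (fun γ' => f γ * f' γ' * w (γ⁻¹ * γ'))]
    refine tsum_congr fun η => ?_
    simp only [Equiv.coe_mulLeft, inv_mul_cancel_left]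
  simp_rw [h1]
  rw [ENNReal.tsum_comm, ← ENNReal.tsum_mul_left]
  refine ENNReal.tsum_le_tsum fun η => ?_
  rw [ENNReal.tsum_mul_right]
  refine mul_le_mul_left ?_ _
  have h2 : ∀ γ, f γ * f' (γ * η) ≤ {γ : Γ | γ ∈ A ∧ γ * η ∈ A'}.indicator 1 γ := by
    intro γ
    by_cases h : γ ∈ A ∧ γ * η ∈ A'
    · rw [Set.indicator_of_mem (show γ ∈ {γ : Γ | γ ∈ A ∧ γ * η ∈ A'} from h)]
      have h3 := hf γ
      have h4 := hf' (γ * η)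
      rw [Set.indicator_of_mem h.1] at h3
      rw [Set.indicator_of_mem h.2] at h4
      calc f γ * f' (γ * η) ≤ 1 * 1 := mul_le_mul' h3 h4
        _ = (1 : Γ → ℝ≥0∞) γ := by rw [one_mul]; rfl
    · rw [Set.indicator_of_notMem (show γ ∉ {γ : Γ | γ ∈ A ∧ γ * η ∈ A'} from h)]
      rw [not_and_or] at h
      rcases h with h | h
      · have h3 := hf γ
        rw [Set.indicator_of_notMem h] at h3
        rw [nonpos_iff_eq_zero.1 h3, zero_mul]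
      · have h3 := hf' (γ * η)
        rw [Set.indicator_of_notMem h] at h3
        rw [nonpos_iff_eq_zero.1 h3, mul_zero]
  calc ∑' γ, f γ * f' (γ * η) ≤ ∑' γ, {γ : Γ | γ ∈ A ∧ γ * η ∈ A'}.indicator 1 γ :=
        ENNReal.tsum_le_tsum h2
    _ = ({γ : Γ | γ ∈ A ∧ γ * η ∈ A'}.encard : ℝ≥0∞) := by
        rw [← tsum_subtype]
        simp only [Pi.one_apply]
        rw [ENNReal.tsum_set_one]
    _ ≤ N := by exact_mod_cast hN η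

end trace

end Vale.Agent.P092.H448.Trb
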